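import Crest.Agent.N255.Tp.Stm

/-!
# Row 255, block D (helper88): the prism operator on cochains (`pc`) and chains (`pch`)
-/

set_option autoImplicit false
open Set Filter Topology

noncomputable section

namespace Crest.Agent.N255.Tp

open R251.Pr

variable {X Y : Type} [TopologicalSpace X] [TopologicalSpace Y] {n : ℕ}
variable (k : Type) [CommRing k] {A : Type} [AddCommGroup A] [Module k A]

theorem pr_fc (σ : Sx (n + 1) X) (i : Fin (n + 2)) : fc σ i = σ.comp (face n i) := rfl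

theorem pr_cob_app (φ : Co A n X) (σ : Sx (n + 1) X) :
    cob k φ σ = ∑ i : Fin (n + 2), (-1 : k) ^ (i : ℕ) • φ (fc σ i) := rfl

/-- the prism operator on cochains -/
def pc (H : C(X × unitInterval, Y)) : Co A (n + 1) Y →ₗ[k] Co A n X where
  toFun φ σ := ∑ i : Fin (n + 1), (-1 : k) ^ (i : ℕ) • φ (ps H σ i)
  map_add' φ ψ := by funext σ; simp [Finset.sum_add_distrib]
  map_smul' r φ := by funext σ; simp [Finset.smul_sum, smul_smul, mul_comm]

theorem pc_app (H : C(X × unitInterval, Y)) (φ : Co A (n + 1) Y) (σ : Sx n X) :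
    pc k H φ σ = ∑ i : Fin (n + 1), (-1 : k) ^ (i : ℕ) • φ (ps H σ i) := rfl

/-- the prism formula in positive degrees -/
theorem cob_pc (H : C(X × unitInterval, Y)) (φ : Co A (n + 1) Y) :
    cob k (pc k H φ) + pc k H (cob k φ) = pull k (end1 H) φ - pull k (end0 H) φ := by
  funext σ
  have key := prism_sum n
    (fun i j => ((-1 : k) ^ (i : ℕ)) • ((-1 : k) ^ (j : ℕ)) • φ ((ps H σ i).comp (face (n + 1) j)))
    (fun i j => ((-1 : k) ^ (i : ℕ)) • ((-1 : k) ^ (j : ℕ)) • φ (ps H (σ.comp (face n j)) i))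
    (fun m => φ (es H σ m))
    (fun i j h => by
      simp only [Fin.val_succ, Fin.val_castSucc, ps_face_one H σ i j h, pow_succ, mul_neg, mul_one,
        neg_smul])
    (fun i j h => by
      simp only [Fin.val_succ, Fin.val_castSucc, ps_face_two H σ i j h, pow_succ, mul_neg, mul_one,
        neg_smul, smul_neg])
    (fun i => by
      simp only [Fin.val_castSucc, ps_face_three, smul_smul, ← pow_add]
      rw [← two_mul, pow_mul]
      simp)
    (fun i => by
      simp only [Fin.val_succ, ps_face_four, smul_smul, ← pow_add]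
      rw [show (i : ℕ) + (i + 1) = 2 * i + 1 by ring, pow_succ, pow_mul]
      simp)
  rw [es_zero, es_last] at key
  have e1 : pc k H (cob k φ) σ = ∑ i : Fin (n + 2), ∑ j : Fin (n + 3),
      ((-1 : k) ^ (i : ℕ)) • ((-1 : k) ^ (j : ℕ)) • φ ((ps H σ i).comp (face (n + 1) j)) := by
    simp only [pc_app, pr_cob_app, Finset.smul_sum, pr_fc]
  have e2 : cob k (pc k H φ) σ = ∑ i : Fin (n + 1), ∑ j : Fin (n + 2),
      ((-1 : k) ^ (i : ℕ)) • ((-1 : k) ^ (j : ℕ)) • φ (ps H (σ.comp (face n j)) i) := by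
    simp only [pr_cob_app, pc_app, pr_fc, Finset.smul_sum]
    rw [Finset.sum_comm]
    refine Finset.sum_congr rfl fun i _ => Finset.sum_congr rfl fun j _ => ?_
    rw [smul_smul, smul_smul, mul_comm]
  change cob k (pc k H φ) σ + pc k H (cob k φ) σ = φ ((end1 H).comp σ) - φ ((end0 H).comp σ)
  rw [e1, e2, key]
  abel

/-- the prism formula in degree zero -/
theorem pc_cob_zero (H : C(X × unitInterval, Y)) (φ : Co A 0 Y) :
    pc k H (cob k φ) = pull k (end1 H) φ - pull k (end0 H) φ := by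
  funext σ
  change pc k H (cob k φ) σ = φ ((end1 H).comp σ) - φ ((end0 H).comp σ)
  rw [← es_zero, ← es_last]
  have h0' : (ps H σ 0).comp (face 0 0) = es H σ 0 := ps_face_three H σ 0
  have h1' : (ps H σ 0).comp (face 0 1) = es H σ (Fin.last 1) := ps_face_four H σ 0
  simp only [pc_app, pr_cob_app, pr_fc]
  rw [Fin.sum_univ_one, Fin.sum_univ_two, h0', h1']
  simp [sub_eq_add_neg]

/-- supports of the prism operator -/
theorem pc_van (H : C(X × unitInterval, Y)) {U : Set X} {V : Set Y}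
    (h : ∀ x ∈ U, ∀ t, H (x, t) ∈ V) {φ : Co A (n + 1) Y} (hφ : φ ∈ (On V).van k A (n + 1)) :
    pc k H φ ∈ (On U).van k A n := by
  intro σ hσ
  rw [pc_app]
  refine Finset.sum_eq_zero fun i _ => ?_
  rw [hφ (ps H σ i) ((ps_range H σ i).trans ?_), smul_zero]
  rintro _ ⟨⟨x, t⟩, ⟨hx, -⟩, rfl⟩
  exact h x (hσ hx) t

/-- the prism operator on chains -/
def pch (H : C(X × unitInterval, Y)) (n : ℕ) : Ch k n X →ₗ[k] Ch k (n + 1) Y :=
  ev k (pc k H (fun τ : Sx (n + 1) Y => sg k τ))

theorem pch_sg (H : C(X × unitInterval, Y)) (σ : Sx n X) :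
    pch k H n (sg k σ) = ∑ i : Fin (n + 1), (-1 : k) ^ (i : ℕ) • sg k (ps H σ i) := by
  simp [pch, ev, pc_app]

theorem ev_pch (H : C(X × unitInterval, Y)) (φ : Co A (n + 1) Y) (c : Ch k n X) :
    ev k φ (pch k H n c) = ev k (pc k H φ) c := by
  have : (ev k φ).comp (pch k H n) = ev k (pc k H φ) := by
    refine Finsupp.lhom_ext' fun σ => LinearMap.ext_ring ?_
    change ev k φ (pch k H n (sg k σ)) = ev k (pc k H φ) (sg k σ)
    rw [pch_sg]
    simp [ev, pc_app]
  exact LinearMap.congr_fun this c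

theorem pr_bd_eq (c : Ch k (n + 1) X) :
    bd k c = ev k (cob k (fun τ : Sx n X => sg k τ)) c := rfl

theorem pr_push_eq (f : C(X, Y)) (c : Ch k n X) :
    push k f c = ev k (pull k f (fun τ : Sx n Y => sg k τ)) c := by
  have : push k f = ev k (pull k f (fun τ : Sx n Y => sg k τ)) := by
    refine Finsupp.lhom_ext' fun σ => LinearMap.ext_ring ?_
    simp [push, ev, pull]
  exact LinearMap.congr_fun this c

theorem pr_ev_bd (φ : Co A n X) (c : Ch k (n + 1) X) : ev k φ (bd k c) = ev k (cob k φ) c := by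
  have : (ev k φ).comp (bd k) = ev k (cob k φ) := by
    refine Finsupp.lhom_ext' fun σ => LinearMap.ext_ring ?_
    simp [bd, ev, pr_cob_app]
  exact LinearMap.congr_fun this c

theorem pr_ev_add (φ ψ : Co A n X) (c : Ch k n X) : ev k (φ + ψ) c = ev k φ c + ev k ψ c := by
  simp [ev, Finsupp.linearCombination_apply, Finsupp.sum, Finset.sum_add_distrib]

theorem pr_ev_sub (φ ψ : Co A n X) (c : Ch k n X) : ev k (φ - ψ) c = ev k φ c - ev k ψ c := by
  simp [ev, Finsupp.linearCombination_apply, Finsupp.sum, smul_sub]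

theorem bd_pch_zero (H : C(X × unitInterval, Y)) (c : Ch k 0 X) :
    bd k (pch k H 0 c) = push k (end1 H) c - push k (end0 H) c := by
  rw [pr_bd_eq, ev_pch, pc_cob_zero, pr_ev_sub, pr_push_eq, pr_push_eq]

theorem bd_pch (H : C(X × unitInterval, Y)) (c : Ch k (n + 1) X) :
    bd k (pch k H (n + 1) c) + pch k H n (bd k c) = push k (end1 H) c - push k (end0 H) c := by
  rw [pr_bd_eq k (pch k H (n + 1) c), ev_pch, pch, pr_ev_bd, ← pr_ev_add, add_comm (pc k H _), cob_pc,
    pr_ev_sub, pr_push_eq, pr_push_eq]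

theorem pch_mem (H : C(X × unitInterval, Y)) {U : Set X} {V : Set Y}
    (h : ∀ x ∈ U, ∀ t, H (x, t) ∈ V) {c : Ch k n X} (hc : c ∈ (On U).ch k n) :
    pch k H n c ∈ (On V).ch k (n + 1) := by
  have hle : (On U).ch k n ≤ ((On V).ch k (n + 1)).comap (pch k H n) := by
    rw [Sb.ch, Finsupp.supported_eq_span_single, Submodule.span_le]
    rintro _ ⟨σ, hσ, rfl⟩
    change pch k H n (sg k σ) ∈ (On V).ch k (n + 1)
    rw [pch_sg]
    refine Submodule.sum_mem _ fun i _ => Submodule.smul_mem _ _ ?_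
    refine Finsupp.single_mem_supported k 1 ((ps_range H σ i).trans ?_)
    rintro _ ⟨⟨x, t⟩, ⟨hx, -⟩, rfl⟩
    exact h x (hσ hx) t
  exact hle hc

theorem prismS_holds : PrismS := fun k _ _ _ _ _ H =>
  ⟨pch k H, bd_pch_zero k H, fun _ => bd_pch k H, fun _ U _ hc =>
    pch_mem k H (V := H '' U ×ˢ univ) (fun x hx t => ⟨(x, t), ⟨hx, trivial⟩, rfl⟩) hc⟩

end Crest.Agent.N255.Tp

end
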