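import Crest.Agent.N255.Tp.Basic
import Crest.Agent.N255.Tp.Prism

/-!
# Row 255, block D (helper88): contractions, transport along embeddings, cells are acyclic
-/

set_option autoImplicit false
open Set Filter Topology

noncomputable section

namespace Crest.Agent.N255.Tp

open R251.Pr

variable {X Y : Type} [TopologicalSpace X] [TopologicalSpace Y] {n : ℕ}
variable {k : Type} [CommRing k] {A : Type} [AddCommGroup A] [Module k A]

theorem alt_sum (k : Type) [CommRing k] (m : ℕ) :
    ∑ i : Fin m, (-1 : k) ^ (i : ℕ) = if Even m then 0 else 1 := by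
  rw [Fin.sum_univ_eq_sum_range (fun i => (-1 : k) ^ i) m, neg_one_geom_sum]

/-- constant simplices -/
def cst (n : ℕ) (x : X) : Sx n X := ContinuousMap.const _ x

theorem fc_cst (x : X) (i : Fin (n + 2)) : fc (cst (n + 1) x) i = cst n x := rfl

theorem range_cst {U : Set X} {x : X} (h : x ∈ U) : range (cst n x) ⊆ U := by
  rintro _ ⟨t, rfl⟩; exact h

theorem bd_cst (x : X) :
    bd k (sg k (cst (n + 1) x)) = (if Even n then (0 : k) else 1) • sg k (cst n x) := by
  rw [bd_sg]
  simp only [fc_cst]
  rw [← Finset.sum_smul, alt_sum]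
  simp only [show Even (n + 2) ↔ Even n by simp [Nat.even_add]]

theorem cob_const (a : A) :
    cob k (fun _ : Sx n X => a) = fun _ => (if Even n then (0 : k) else 1) • a := by
  funext σ
  rw [cob_apply, ← Finset.sum_smul, alt_sum]
  simp only [show Even (n + 2) ↔ Even n by simp [Nat.even_add]]

theorem aug_bd_eq (c : Ch k (n + 1) X) :
    aug k (bd k c) = (if Even n then (0 : k) else 1) * aug k c := by
  rw [aug, ev_bd, cob_const, aug, ← smul_eq_mul, ← ev_smul]
  rfl

theorem push_congr {f g : C(X, Y)} {U : Set X} (h : EqOn f g U) {c : Ch k n X}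
    (hc : c ∈ (On U).ch k n) : push k f c = push k g c := by
  have := Sb.map_mem (P := On U) (push k f - push k g) ⊥ (fun σ hσ => by
    have e : f.comp σ = g.comp σ := ContinuousMap.ext fun t => h (hσ ⟨t, rfl⟩)
    change push k f (sg k σ) - push k g (sg k σ) ∈ (⊥ : Submodule k _)
    rw [push_sg, push_sg, e, sub_self]
    exact Submodule.zero_mem _) hc
  exact sub_eq_zero.1 ((Submodule.mem_bot k).1 this)

theorem push_const (y : Y) (c : Ch k n X) :
    push k (ContinuousMap.const X y) c = aug k c • sg k (cst n y) := by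
  have : push k (ContinuousMap.const X y) =
      (LinearMap.toSpanSingleton k _ (sg k (cst n y))).comp (aug k) :=
    ch_ext fun σ => by
      rw [push_sg, LinearMap.comp_apply, aug_sg, LinearMap.toSpanSingleton_apply, one_smul]
      rfl
  rw [this]
  rfl

/-- a set which contracts to a point in `V` is acyclic in `V` -/
theorem acy_of_contr (H : C(X × unitInterval, X)) {U V : Set X} {x₀ : X} (hx : x₀ ∈ V)
    (h : ∀ x ∈ U, ∀ t, H (x, t) ∈ V) (h1 : ∀ x ∈ U, H (x, 1) = x) (h0 : ∀ x ∈ U, H (x, 0) = x₀) :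
    Acy k U V := by
  have e1 : ∀ {n} {c : Ch k n X}, c ∈ (On U).ch k n → push k (end1 H) c = c := fun hc => by
    rw [push_congr (g := ContinuousMap.id X) (fun x hx => h1 x hx) hc, push_id]
  have e0 : ∀ {n} {c : Ch k n X}, c ∈ (On U).ch k n →
      push k (end0 H) c = aug k c • sg k (cst n x₀) := fun hc => by
    rw [push_congr (g := ContinuousMap.const X x₀) (fun x hx => h0 x hx) hc, push_const]
  intro n c ⟨hc, hz⟩
  cases n with
  | zero =>
    refine ⟨pch k H 0 c, pch_mem k H h hc, ?_⟩
    have hz' : aug k c = 0 := hz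
    rw [bd_pch_zero, e1 hc, e0 hc, hz', zero_smul, sub_zero]
  | succ n =>
    have hz' : bd k c = 0 := hz
    have e := bd_pch k H c
    rw [hz', map_zero, add_zero, e1 hc, e0 hc] at e
    by_cases hn : Even n
    · refine ⟨pch k H (n + 1) c + aug k c • sg k (cst (n + 2) x₀), Submodule.add_mem _
        (pch_mem k H h hc) (Submodule.smul_mem _ _ (Sb.sg_mem (range_cst hx))), ?_⟩
      rw [map_add, map_smul, e, bd_cst, if_neg (by rw [Nat.even_add_one, not_not]; exact hn),
        one_smul, sub_add_cancel]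
    · have ha := aug_bd_eq c
      rw [hz', map_zero, if_neg hn, one_mul] at ha
      refine ⟨pch k H (n + 1) c, pch_mem k H h hc, ?_⟩
      rw [e, ← ha, zero_smul, sub_zero]

/-- the linear contraction to `x₀` -/
def linH {E : Type} [NormedAddCommGroup E] [NormedSpace ℝ E] (x₀ : E) : C(E × unitInterval, E) :=
  ⟨fun p => x₀ + (p.2 : ℝ) • (p.1 - x₀), by fun_prop⟩

theorem linH_apply {E : Type} [NormedAddCommGroup E] [NormedSpace ℝ E] (x₀ x : E)
    (t : unitInterval) : linH x₀ (x, t) = x₀ + (t : ℝ) • (x - x₀) := rfl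

/-- star shaped sets are acyclic -/
theorem acy_star {E : Type} [NormedAddCommGroup E] [NormedSpace ℝ E] {U : Set E} {x₀ : E}
    (hx : x₀ ∈ U) (hU : StarConvex ℝ x₀ U) : Acy k U U :=
  acy_of_contr (linH x₀) hx (fun x hx t => hU.add_smul_sub_mem hx t.2.1 t.2.2)
    (fun x _ => by simp [linH_apply]) fun x _ => by simp [linH_apply]

theorem acy_convex {E : Type} [NormedAddCommGroup E] [NormedSpace ℝ E] {U : Set E}
    (hU : Convex ℝ U) : Acy k U U := by
  rcases U.eq_empty_or_nonempty with rfl | ⟨x, hx⟩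
  · intro n c hc
    rw [eq_zero_of_ch_empty hc.1]
    exact Submodule.zero_mem _
  · exact acy_star hx (hU.starConvex hx)

/-! ### transport along embeddings -/

theorem exists_lift {j : C(X, Y)} (hj : IsEmbedding j) {S : Set X} {σ : Sx n Y}
    (h : range σ ⊆ j '' S) : ∃ τ : Sx n X, range τ ⊆ S ∧ j.comp τ = σ := by
  choose f hf hf' using fun t => h ⟨t, rfl⟩
  refine ⟨⟨f, hj.continuous_iff.2 ?_⟩, ?_, ContinuousMap.ext hf'⟩
  · exact σ.continuous.congr fun t => (hf' t).symm
  · rintro _ ⟨t, rfl⟩; exact hf t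

theorem comp_injective {j : C(X, Y)} (hj : Function.Injective j) :
    Function.Injective fun τ : Sx n X => j.comp τ := fun _ _ h =>
  ContinuousMap.ext fun t => hj (ContinuousMap.congr_fun h t)

theorem push_injective {j : C(X, Y)} (hj : Function.Injective j) :
    Function.Injective (push k j : Ch k n X → Ch k n Y) :=
  Finsupp.mapDomain_injective (comp_injective hj)

theorem exists_lift_ch {j : C(X, Y)} (hj : IsEmbedding j) {S : Set X} {c : Ch k n Y}
    (h : c ∈ (On (j '' S)).ch k n) : ∃ c' ∈ (On S).ch k n, push k j c' = c :=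
  Sb.map_mem (P := On (j '' S)) LinearMap.id (((On S).ch k n).map (push k j)) (fun σ hσ => by
    obtain ⟨τ, hτ, rfl⟩ := exists_lift hj hσ
    exact ⟨sg k τ, Sb.sg_mem hτ, push_sg _ _⟩) h

theorem rcyc_of_push {j : C(X, Y)} (hj : Function.Injective j) {c : Ch k n X}
    (h : push k j c ∈ rcyc k Y n) : c ∈ rcyc k X n := by
  cases n with
  | zero =>
    have h' : aug k (push k j c) = 0 := h
    rwa [aug_push] at h'
  | succ n =>
    have h' : bd k (push k j c) = 0 := h
    rw [bd_push] at h'
    exact push_injective hj (h'.trans (map_zero _).symm)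

theorem Acy.image {j : C(X, Y)} (hj : IsEmbedding j) {S T : Set X} (h : Acy k S T) :
    Acy k (j '' S) (j '' T) := by
  intro n c ⟨hc, hz⟩
  obtain ⟨c', hc', rfl⟩ := exists_lift_ch hj hc
  exact push_mem_B (mapsTo_image j T) (h n ⟨hc', rcyc_of_push hj.injective hz⟩)

theorem cellS_holds : CellS := fun k _ _ _ _ j hj => by
  rw [← image_univ]
  exact (acy_convex convex_univ).image hj

end Crest.Agent.N255.Tp

end
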