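import Crest.Agent.N255.Tp.Stm

/-!
# Row 255, block D (helper83): small simplices

The universal gadget (`Sml.DD`, `Sml.rho`): for every family `𝒰` of sets a chain homotopy `D` and a chain map
`ρ = 1 - ∂ D - D ∂` with `D = 0` on small chains, `D`, `ρ` preserving supports and `ρ` small on the
simplices which are locally in members of `𝒰`.  Consequences: `SmVanS`, `SmChS`, `FundS`.
-/

set_option autoImplicit false
open Set Filter Topology

noncomputable section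

namespace Crest.Agent.N255.Tp.Sml

open Crest.Agent.R251.Sm (sx un sd hh lc aff vs bary Sd Hd B)
open Crest.GeometryTopology.DeckCochains

variable {X : Type} [TopologicalSpace X] {n : ℕ} (k : Type) [CommRing k]

theorem bd_sg (σ : Sx (n + 1) X) :
    bd k (sg k σ) = ∑ i : Fin (n + 2), (-1 : k) ^ (i : ℕ) • sg k (fc σ i) := by
  simp [bd]

theorem ev_sg {A : Type} [AddCommGroup A] [Module k A] (φ : Co A n X) (σ : Sx n X) :
    ev k φ (sg k σ) = φ σ := by
  simp [ev]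

theorem lin_ext {M : Type} [AddCommGroup M] [Module k M] {f g : Ch k n X →ₗ[k] M}
    (h : ∀ σ, f (sg k σ) = g (sg k σ)) : f = g := by
  ext σ
  simpa using h σ

theorem ev_bd {A : Type} [AddCommGroup A] [Module k A] (φ : Co A n X) (c : Ch k (n + 1) X) :
    ev k φ (bd k c) = ev k (cob k φ) c := by
  have : (ev k φ).comp (bd k) = ev k (cob k φ) := lin_ext k fun σ => by
    rw [LinearMap.comp_apply, bd_sg, map_sum, ev_sg]
    simp only [map_smul, ev_sg]
    rfl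
  exact LinearMap.congr_fun this c

variable {k} in
theorem sg_mem {P : Sb X} {σ : Sx n X} (h : σ ∈ P.S n) : sg k σ ∈ P.ch k n :=
  Finsupp.single_mem_supported k 1 h

variable {k} in
/-- a linear map on the chains of a family -/
theorem map_mem {M : Type} [AddCommGroup M] [Module k M] {P : Sb X} (f : Ch k n X →ₗ[k] M)
    (N : Submodule k M) (h : ∀ σ ∈ P.S n, f (sg k σ) ∈ N) {c : Ch k n X} (hc : c ∈ P.ch k n) :
    f c ∈ N := by
  have h1 : P.ch k n ≤ N.comap f := by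
    unfold Sb.ch
    rw [Finsupp.supported_eq_span_single, Submodule.span_le]
    rintro _ ⟨σ, hσ, rfl⟩
    exact h σ hσ
  exact h1 hc

variable {k} in
theorem bd_mem {P : Sb X} {c : Ch k (n + 1) X} (hc : c ∈ P.ch k (n + 1)) : bd k c ∈ P.ch k n :=
  map_mem (bd k) _ (fun σ hσ => by
    rw [bd_sg]
    exact Submodule.sum_mem _ fun i _ => Submodule.smul_mem _ _ (sg_mem (P.fc_mem n σ i hσ))) hc

variable {k} in
theorem ev_zero {A : Type} [AddCommGroup A] [Module k A] {P : Sb X} {φ : Co A n X}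
    (hφ : φ ∈ P.van k A n) {c : Ch k n X} (hc : c ∈ P.ch k n) : ev k φ c = 0 :=
  (Submodule.mem_bot k).1 (map_mem (ev k φ) ⊥ (fun σ hσ => by
    rw [ev_sg]; exact (Submodule.mem_bot k).2 (hφ σ hσ)) hc)

variable {k} in
theorem mem_inf {P Q : Sb X} {c : Ch k n X} (h : c ∈ P.ch k n) (h' : c ∈ Q.ch k n) :
    c ∈ (P.inf Q).ch k n := fun _ hσ => ⟨h hσ, h' hσ⟩

variable {k} in
theorem ch_mono {P Q : Sb X} (h : P.S n ⊆ Q.S n) : P.ch k n ≤ Q.ch k n := Finsupp.supported_mono h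

/-- the tautological cochain -/
def tau (n : ℕ) : SingSimplex X n → Ch k n X := fun s => sg k (un s)

/-- a function on simplices as a cochain of `R251` -/
theorem cobdry_eq {M : Type} [AddCommGroup M] [Module k M] (f : Ch k n X →ₗ[k] M) :
    cochainCobdry (fun s => f (tau k n s)) = fun s => f (bd k (tau k (n + 1) s)) := by
  funext s
  unfold cochainCobdry tau
  rw [bd_sg, map_sum]
  refine Finset.sum_congr rfl fun i _ => ?_
  rw [map_smul, ← Int.cast_smul_eq_zsmul k]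
  push_cast
  simp only [R251.Sm.un_face]
  rfl

theorem bd_bd (c : Ch k (n + 2) X) : bd k (bd k c) = 0 := by
  have : (bd k).comp (bd k (n := n + 1) (X := X)) = 0 := lin_ext k fun σ => by
    have h := R251.Sm.cobdry_cobdry (fun s : SingSimplex X n => LinearMap.id (R := k) (tau k n s))
    rw [cobdry_eq, show (fun s => LinearMap.id (R := k) (bd k (tau k (n + 1) s))) =
      fun s : SingSimplex X (n + 1) => bd k (tau k (n + 1) s) from rfl, cobdry_eq] at h
    have h2 := congrFun h (sx σ)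
    simpa [tau] using h2
  exact LinearMap.congr_fun this c

/-- subdivision of chains -/
def sC (n : ℕ) : Ch k n X →ₗ[k] Ch k n X := ev k fun σ => sd (tau k n) (sx σ)

/-- the homotopy on chains -/
def hC (n : ℕ) : Ch k n X →ₗ[k] Ch k (n + 1) X := ev k fun σ => hh (tau k (n + 1)) (sx σ)

theorem lc_hom {M M' : Type} [AddCommGroup M] [AddCommGroup M'] {m : ℕ} (a : M →+ M')
    (φ : SingSimplex X n → M) (s : SingSimplex X m) :
    lc (fun t => a (φ t)) s = fun l => a (lc φ s l) := by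
  funext l
  unfold lc
  split_ifs
  · rfl
  · rw [map_zero]

theorem sd_lin {M : Type} [AddCommGroup M] [Module k M] (f : Ch k n X →ₗ[k] M) :
    sd (fun s => f (tau k n s)) = fun s => f (sC k n (tau k n s)) := by
  funext s
  have h1 : sC k n (tau k n s) = sd (tau k n) s := by
    unfold sC; rw [tau, ev_sg, R251.Sm.sx_un]
  rw [h1]
  unfold sd
  rw [show (fun s => f (tau k n s)) = fun s => f.toAddMonoidHom (tau k n s) from rfl, lc_hom]
  exact R251.Sm.Sd_hom bary f.toAddMonoidHom _ _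

theorem hh_lin {M : Type} [AddCommGroup M] [Module k M] (f : Ch k (n + 1) X →ₗ[k] M) :
    hh (fun s => f (tau k (n + 1) s)) = fun s => f (hC k n (tau k n s)) := by
  funext s
  have h1 : hC k n (tau k n s) = hh (tau k (n + 1)) s := by
    unfold hC; rw [tau, ev_sg, R251.Sm.sx_un]
  rw [h1]
  unfold hh
  rw [show (fun s => f (tau k (n + 1) s)) = fun s => f.toAddMonoidHom (tau k (n + 1) s) from rfl,
    lc_hom]
  exact R251.Sm.Hd_hom bary f.toAddMonoidHom _ _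

theorem tau_sx (σ : Sx n X) : tau k n (sx σ) = sg k σ := by rw [tau, R251.Sm.un_sx]

theorem bd_sC (c : Ch k (n + 1) X) : bd k (sC k (n + 1) c) = sC k n (bd k c) := by
  have : (bd k).comp (sC k (n + 1) (X := X)) = (sC k n).comp (bd k) := lin_ext k fun σ => by
    have h := R251.Sm.sd_cobdry (fun s : SingSimplex X n => LinearMap.id (R := k) (tau k n s))
    rw [cobdry_eq, sd_lin, show (fun s => LinearMap.id (R := k) (bd k (tau k (n + 1) s))) =
      fun s : SingSimplex X (n + 1) => bd k (tau k (n + 1) s) from rfl, sd_lin,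
      show (fun s => LinearMap.id (R := k) (sC k n (tau k n s))) =
      fun s : SingSimplex X n => sC k n (tau k n s) from rfl, cobdry_eq] at h
    have h2 := congrFun h (sx σ)
    rwa [tau_sx] at h2
  exact LinearMap.congr_fun this c

theorem hC_succ (c : Ch k (n + 1) X) :
    bd k (hC k (n + 1) c) + hC k n (bd k c) = c - sC k (n + 1) c := by
  have : (bd k).comp (hC k (n + 1) (X := X)) + (hC k n).comp (bd k) = LinearMap.id - sC k (n + 1) :=
    lin_ext k fun σ => by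
    have h := R251.Sm.sub_sd
      (fun s : SingSimplex X (n + 1) => LinearMap.id (R := k) (tau k (n + 1) s)) (sx σ)
    rw [cobdry_eq, sd_lin, hh_lin, show (fun s => LinearMap.id (R := k) (bd k (tau k (n + 2) s))) =
      fun s : SingSimplex X (n + 2) => bd k (tau k (n + 2) s) from rfl, hh_lin,
      show (fun s => LinearMap.id (R := k) (hC k n (tau k n s))) =
      fun s : SingSimplex X n => hC k n (tau k n s) from rfl, cobdry_eq] at h
    simp only [tau_sx] at h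
    exact h
  exact LinearMap.congr_fun this c

variable {k} in
theorem lc_zero_of {M : Type} [AddCommGroup M] [Module k M] {m : ℕ} (f : Ch k n X →ₗ[k] M)
    (σ : Sx m X) (l : List (Dn m)) (h : l.length = n + 1 → f (sg k (σ.comp (aff n l))) = 0) :
    lc (fun s => f (tau k n s)) (sx σ) l = 0 := by
  unfold lc
  split_ifs with hl
  · simp only [tau_sx, R251.Sm.un_sx]; exact h hl
  · rfl

theorem range_comp {m : ℕ} {T : Set X} (σ : Sx n X) (h : range σ ⊆ T) (τ : C(Dn m, Dn n)) :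
    range (σ.comp τ) ⊆ T := by
  rintro _ ⟨t, rfl⟩; exact h ⟨_, rfl⟩

theorem sC_mem (T : Set X) {c : Ch k n X} (hc : c ∈ (On T).ch k n) : sC k n c ∈ (On T).ch k n :=
  map_mem (sC k n) _ (fun σ hσ => by
    rw [← Submodule.Quotient.mk_eq_zero, ← Submodule.mkQ_apply, ← tau_sx,
      ← congrFun (sd_lin k ((On T).ch k n).mkQ) (sx σ)]
    unfold sd
    rw [show lc (fun s => ((On T).ch k n).mkQ (tau k n s)) (sx σ) = fun _ => 0 from
      funext fun l => lc_zero_of _ σ l fun _ => by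
        rw [Submodule.mkQ_apply, Submodule.Quotient.mk_eq_zero]
        exact sg_mem (P := On T) (range_comp σ hσ _), R251.Sm.Sd_zero]) hc

theorem hC_mem (T : Set X) {c : Ch k n X} (hc : c ∈ (On T).ch k n) :
    hC k n c ∈ (On T).ch k (n + 1) :=
  map_mem (hC k n) _ (fun σ hσ => by
    rw [← Submodule.Quotient.mk_eq_zero, ← Submodule.mkQ_apply, ← tau_sx,
      ← congrFun (hh_lin k ((On T).ch k (n + 1)).mkQ) (sx σ)]
    unfold hh
    rw [show lc (fun s => ((On T).ch k (n + 1)).mkQ (tau k (n + 1) s)) (sx σ) = fun _ => 0 from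
      funext fun l => lc_zero_of _ σ l fun _ => by
        rw [Submodule.mkQ_apply, Submodule.Quotient.mk_eq_zero]
        exact sg_mem (P := On T) (range_comp σ hσ _), R251.Sm.Hd_zero]) hc

theorem sC_sm (𝒰 : Set (Set X)) {c : Ch k n X} (hc : c ∈ (Sm 𝒰).ch k n) :
    sC k n c ∈ (Sm 𝒰).ch k n :=
  map_mem (P := Sm 𝒰) (sC k n) _ (fun _ ⟨U, hU, h⟩ =>
    ch_mono (P := On U) (Q := Sm 𝒰) (fun _ h' => ⟨U, hU, h'⟩) (sC_mem k U (sg_mem h))) hc

theorem hC_sm (𝒰 : Set (Set X)) {c : Ch k n X} (hc : c ∈ (Sm 𝒰).ch k n) :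
    hC k n c ∈ (Sm 𝒰).ch k (n + 1) :=
  map_mem (P := Sm 𝒰) (hC k n) _ (fun _ ⟨U, hU, h⟩ =>
    ch_mono (P := On U) (Q := Sm 𝒰) (fun _ h' => ⟨U, hU, h'⟩) (hC_mem k U (sg_mem h))) hc

theorem pow_mem {N : Submodule k (Ch k n X)} (h : ∀ c ∈ N, sC k n c ∈ N) (j : ℕ) {c : Ch k n X}
    (hc : c ∈ N) : (sC k n ^ j) c ∈ N := by
  induction j with
  | zero => exact hc
  | succ j ih => rw [pow_succ', Module.End.mul_apply]; exact h _ ih

theorem bd_pow (j : ℕ) (c : Ch k (n + 1) X) :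
    bd k ((sC k (n + 1) ^ j) c) = (sC k n ^ j) (bd k c) := by
  induction j with
  | zero => rfl
  | succ j ih => rw [pow_succ', pow_succ', Module.End.mul_apply, Module.End.mul_apply, bd_sC, ih]

theorem iterate_lin {M : Type} [AddCommGroup M] [Module k M] (j : ℕ) (f : Ch k n X →ₗ[k] M) :
    sd^[j] (fun s => f (tau k n s)) = fun s => f ((sC k n ^ j) (tau k n s)) := by
  induction j generalizing f with
  | zero => rfl
  | succ j ih =>
    rw [Function.iterate_succ_apply, sd_lin]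
    rw [show (fun s => f (sC k n (tau k n s))) = fun s => (f.comp (sC k n)) (tau k n s) from rfl, ih]
    funext s
    rw [pow_succ', Module.End.mul_apply, LinearMap.comp_apply]

/-- simplices which lie locally in members of `𝒰` -/
def Gd (𝒰 : Set (Set X)) : Sb X :=
  ⟨fun _ => {σ | ∀ t, ∃ U ∈ 𝒰, σ ⁻¹' U ∈ 𝓝 t}, fun _ σ i h t => by
    obtain ⟨U, hU, h1⟩ := h (vm i.succAbove t)
    exact ⟨U, hU, (vm i.succAbove).continuous.continuousAt.preimage_mem_nhds h1⟩⟩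

theorem on_le_gd {𝒰 : Set (Set X)} (hU : ∀ U ∈ 𝒰, IsOpen U) {W : Set X} (hW : W ⊆ ⋃₀ 𝒰) :
    (On W).S n ⊆ (Gd 𝒰).S n := fun σ hσ t => by
  obtain ⟨U, hU', h⟩ := hW (hσ ⟨t, rfl⟩)
  exact ⟨U, hU', ((hU U hU').preimage σ.continuous).mem_nhds h⟩

theorem eventually_sm {𝒰 : Set (Set X)} {σ : Sx n X} (h : σ ∈ (Gd 𝒰).S n) :
    ∃ N : ℕ, (sC k n ^ N) (sg k σ) ∈ (Sm 𝒰).ch k n := by
  have hcomp : IsCompact (univ : Set (Dn n)) := by
    have : CompactSpace (Dn n) := isCompact_iff_compactSpace.1 (isCompact_stdSimplex ℝ _)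
    exact isCompact_univ
  obtain ⟨δ, hδ, hl⟩ := lebesgue_number_lemma_of_metric_sUnion (s := (univ : Set (Dn n)))
    (c := {V | ∃ U ∈ 𝒰, V = interior (σ ⁻¹' U)}) hcomp
    (by rintro _ ⟨U, -, rfl⟩; exact isOpen_interior)
    (by
      intro x _
      obtain ⟨U, hU, hx⟩ := h x
      exact ⟨_, ⟨U, hU, rfl⟩, mem_interior_iff_mem_nhds.2 hx⟩)
  obtain ⟨N, hN⟩ := R251.Sm.eventually_sd (fun s => ((Sm 𝒰).ch k n).mkQ (tau k n s)) (sx σ) (δ / 2)
    (by positivity) (fun l hlen hs => lc_zero_of _ σ l fun _ => by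
      rw [Submodule.mkQ_apply, Submodule.Quotient.mk_eq_zero]
      have hne : l ≠ [] := by rintro rfl; simp at hlen
      obtain ⟨p, hp⟩ := List.exists_mem_of_ne_nil l hne
      obtain ⟨_, ⟨U, hU, rfl⟩, hb⟩ := hl p trivial
      refine sg_mem ⟨U, hU, ?_⟩
      rintro _ ⟨t, rfl⟩
      have h1 := R251.Sm.dist_aff_le n l hlen t p (δ / 2) (by positivity) fun q hq => hs q hq p hp
      have h2 : aff n l t ∈ Metric.ball p δ := Metric.mem_ball.2 (by linarith)
      exact interior_subset (s := σ ⁻¹' U) (hb h2))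
  refine ⟨N, ?_⟩
  have h1 := hN N le_rfl
  rw [iterate_lin] at h1
  simp only [tau_sx] at h1
  rwa [Submodule.mkQ_apply, Submodule.Quotient.mk_eq_zero] at h1

open scoped Classical in
/-- the number of subdivisions -/
def mm (𝒰 : Set (Set X)) : ∀ n, Sx n X → ℕ
  | 0, _ => 0
  | n + 1, σ => if σ ∈ (Sm 𝒰).S (n + 1) then 0 else
      sInf {N | (sC k (n + 1) ^ N) (sg k σ) ∈ (Sm 𝒰).ch k (n + 1)} + ∑ i, mm 𝒰 n (fc σ i)

theorem mm_sm {𝒰 : Set (Set X)} {σ : Sx n X} (h : σ ∈ (Sm 𝒰).S n) : mm k 𝒰 n σ = 0 := by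
  cases n with
  | zero => rfl
  | succ n => simp only [mm]; rw [if_pos h]

theorem mm_fc {𝒰 : Set (Set X)} (σ : Sx (n + 1) X) (i : Fin (n + 2)) :
    mm k 𝒰 n (fc σ i) ≤ mm k 𝒰 (n + 1) σ := by
  by_cases h : σ ∈ (Sm 𝒰).S (n + 1)
  · rw [mm_sm k ((Sm 𝒰).fc_mem n σ i h)]; exact Nat.zero_le _
  · simp only [mm]
    rw [if_neg h]
    exact (Finset.single_le_sum (f := fun i => mm k 𝒰 n (fc σ i)) (fun _ _ => Nat.zero_le _)
      (Finset.mem_univ i)).trans (Nat.le_add_left _ _)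

theorem pow_sm {𝒰 : Set (Set X)} {σ : Sx n X} (h : σ ∈ (Gd 𝒰).S n) {j : ℕ} (hj : mm k 𝒰 n σ ≤ j) :
    (sC k n ^ j) (sg k σ) ∈ (Sm 𝒰).ch k n := by
  by_cases h0 : σ ∈ (Sm 𝒰).S n
  · exact pow_mem k (fun _ => sC_sm k 𝒰) j (sg_mem h0)
  cases n with
  | zero =>
    obtain ⟨U, hU, h1⟩ := h (R251.Sm.vd 0)
    refine (h0 ⟨U, hU, ?_⟩).elim
    rintro _ ⟨t, rfl⟩
    have : t = R251.Sm.vd 0 := Subsingleton.elim _ _
    rw [this]
    exact mem_of_mem_nhds (s := σ ⁻¹' U) h1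
  | succ n =>
    simp only [mm] at hj
    rw [if_neg h0] at hj
    have h1 := Nat.sInf_mem (eventually_sm k h)
    obtain ⟨r, hr⟩ := Nat.exists_eq_add_of_le' ((Nat.le_add_right _ _).trans hj)
    rw [hr, pow_add, Module.End.mul_apply]
    exact pow_mem k (fun _ => sC_sm k 𝒰) r h1

/-- the iterated homotopy -/
def hI (n m : ℕ) : Ch k n X →ₗ[k] Ch k (n + 1) X := ∑ j ∈ Finset.range m, (hC k n).comp (sC k n ^ j)

theorem hI_apply (m : ℕ) (c : Ch k n X) :
    hI k n m c = ∑ j ∈ Finset.range m, hC k n ((sC k n ^ j) c) := by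
  simp [hI]

theorem hI_succ (m : ℕ) (c : Ch k (n + 1) X) :
    bd k (hI k (n + 1) m c) + hI k n m (bd k c) = c - (sC k (n + 1) ^ m) c := by
  induction m with
  | zero => simp [hI_apply]
  | succ m ih =>
    rw [hI_apply, hI_apply, Finset.sum_range_succ, Finset.sum_range_succ, ← hI_apply, ← hI_apply,
      map_add, pow_succ', Module.End.mul_apply, ← bd_pow]
    have h := hC_succ k ((sC k (n + 1) ^ m) c)
    rw [add_add_add_comm, ih, h]
    abel

/-- the homotopy -/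
def DD (𝒰 : Set (Set X)) (n : ℕ) : Ch k n X →ₗ[k] Ch k (n + 1) X :=
  ev k fun σ => hI k n (mm k 𝒰 n σ) (sg k σ)

/-- the retraction onto small chains -/
def rho (𝒰 : Set (Set X)) : ∀ n, Ch k n X →ₗ[k] Ch k n X
  | 0 => LinearMap.id
  | n + 1 => LinearMap.id - (bd k).comp (DD k 𝒰 (n + 1)) - (DD k 𝒰 n).comp (bd k)

variable (𝒰 : Set (Set X))

theorem DD_zero (c : Ch k 0 X) : DD k 𝒰 0 c = 0 := by
  have : DD k 𝒰 0 = 0 := lin_ext k fun σ => by simp [DD, ev_sg, mm, hI]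
  rw [this]; rfl

theorem rho_zero (c : Ch k 0 X) : rho k 𝒰 0 c = c := rfl

theorem rho_succ (c : Ch k (n + 1) X) :
    rho k 𝒰 (n + 1) c = c - bd k (DD k 𝒰 (n + 1) c) - DD k 𝒰 n (bd k c) := rfl

theorem DD_sm {c : Ch k n X} (hc : c ∈ (Sm 𝒰).ch k n) : DD k 𝒰 n c = 0 :=
  (Submodule.mem_bot k).1 (map_mem (DD k 𝒰 n) ⊥ (fun σ hσ => by
    rw [DD, ev_sg, mm_sm k hσ, hI_apply]; simp) hc)

theorem DD_mem (T : Set X) {c : Ch k n X} (hc : c ∈ (On T).ch k n) :
    DD k 𝒰 n c ∈ (On T).ch k (n + 1) :=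
  map_mem (DD k 𝒰 n) _ (fun σ hσ => by
    rw [DD, ev_sg, hI_apply]
    exact Submodule.sum_mem _ fun j _ => hC_mem k T (pow_mem k (fun _ => sC_mem k T) j (sg_mem hσ))) hc

theorem rho_mem (T : Set X) {c : Ch k n X} (hc : c ∈ (On T).ch k n) :
    rho k 𝒰 n c ∈ (On T).ch k n := by
  cases n with
  | zero => exact hc
  | succ n =>
    rw [rho_succ]
    exact Submodule.sub_mem _ (Submodule.sub_mem _ hc (bd_mem (DD_mem k 𝒰 T hc)))
      (DD_mem k 𝒰 T (bd_mem hc))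

theorem rho_of_sm {c : Ch k n X} (hc : c ∈ (Sm 𝒰).ch k n) : rho k 𝒰 n c = c := by
  cases n with
  | zero => rfl
  | succ n => rw [rho_succ, DD_sm k 𝒰 hc, DD_sm k 𝒰 (bd_mem hc)]; simp

theorem bd_rho (c : Ch k (n + 1) X) : bd k (rho k 𝒰 (n + 1) c) = rho k 𝒰 n (bd k c) := by
  cases n with
  | zero => rw [rho_succ, rho_zero, DD_zero, map_sub, map_sub, bd_bd]; simp
  | succ n => rw [rho_succ, rho_succ, map_sub, map_sub, bd_bd, bd_bd]; simp

theorem rho_sm {c : Ch k n X} (hc : c ∈ (Gd 𝒰).ch k n) : rho k 𝒰 n c ∈ (Sm 𝒰).ch k n := by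
  refine map_mem (rho k 𝒰 n) _ (fun σ hσ => ?_) hc
  cases n with
  | zero => exact pow_sm k hσ (j := 0) le_rfl
  | succ n =>
    have h1 := hI_succ k (mm k 𝒰 (n + 1) σ) (sg k σ)
    have h2 : rho k 𝒰 (n + 1) (sg k σ) = (sC k (n + 1) ^ mm k 𝒰 (n + 1) σ) (sg k σ) +
        (hI k n (mm k 𝒰 (n + 1) σ) - DD k 𝒰 n : Ch k n X →ₗ[k] Ch k (n + 1) X)
          (bd k (sg k σ)) := by
      rw [rho_succ, DD, ev_sg, LinearMap.sub_apply, eq_sub_of_add_eq h1]
      abel
    rw [h2]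
    refine Submodule.add_mem _ (pow_sm k hσ le_rfl) ?_
    rw [bd_sg, map_sum]
    refine Submodule.sum_mem _ fun i _ => ?_
    rw [map_smul]
    refine Submodule.smul_mem _ _ ?_
    rw [LinearMap.sub_apply, DD, ev_sg, hI_apply, hI_apply,
      ← Finset.sum_range_add_sum_Ico _ (mm_fc k σ i), add_sub_cancel_left]
    exact Submodule.sum_mem _ fun j hj =>
      hC_sm k 𝒰 (pow_sm k ((Gd 𝒰).fc_mem n σ i hσ) (Finset.mem_Ico.1 hj).1)

variable {𝒰}

theorem rho_inf (hU : ∀ U ∈ 𝒰, IsOpen U) {W : Set X} (hW : W ⊆ ⋃₀ 𝒰) {c : Ch k n X}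
    (hc : c ∈ (On W).ch k n) : rho k 𝒰 n c ∈ ((On W).inf (Sm 𝒰)).ch k n :=
  mem_inf (rho_mem k 𝒰 W hc) (rho_sm k 𝒰 (ch_mono (on_le_gd hU hW) hc))

end Crest.Agent.N255.Tp.Sml

namespace Crest.Agent.N255.Tp

open Sml

theorem smVanS_holds : SmVanS := by
  classical
  intro k _ A _ _ X _ W 𝒰 hU hW n φ hZ h0
  obtain ⟨ψ, hψ⟩ : ∃ ψ : Co A n X, ∀ σ : Sx n X, ψ σ =
      if σ ∈ (On W).S n then (ev k φ (DD k 𝒰 n (sg k σ)) : A) else (0 : A) := ⟨_, fun _ => rfl⟩
  refine ⟨ψ, fun σ hσ => ?_, fun T hT σ hσ => ?_⟩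
  · have h1 : cob k (X := X) (n := n) (A := A) ψ σ = ev k φ (DD k 𝒰 n (bd k (sg k σ))) := by
      rw [Sml.bd_sg, map_sum, map_sum]
      show ∑ i : Fin (n + 2), (-1 : k) ^ (i : ℕ) • ψ (fc σ i) = _
      refine Finset.sum_congr rfl fun i _ => ?_
      rw [map_smul, map_smul, hψ, if_pos ((On W).fc_mem n σ i hσ)]
    have h2 := ev_zero h0 (rho_inf k hU hW (sg_mem hσ))
    rw [rho_succ, map_sub, map_sub, Sml.ev_bd, ev_zero hZ (DD_mem k 𝒰 W (sg_mem hσ)),
      Sml.ev_sg] at h2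
    rw [Pi.sub_apply, h1, ← neg_sub, ← sub_zero (φ σ), h2, neg_zero]
  · rw [hψ]
    split_ifs with h
    · exact ev_zero hT (DD_mem k 𝒰 _ (sg_mem (P := On (T ∩ W)) (subset_inter hσ h)))
    · rfl

theorem smChS_holds : SmChS := by
  intro k _ X _ W 𝒰 hU hW n c hc hb
  refine ⟨rho k 𝒰 (n + 1) c, rho_inf k hU hW hc, DD k 𝒰 (n + 1) c, DD_mem k 𝒰 W hc, ?_⟩
  rw [rho_succ, DD_sm k 𝒰 hb]
  abel

theorem fundS_holds : FundS := by
  classical
  intro k _ X _ _ d O K 𝒰 hK hU hW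
  have hU' : ∀ U ∈ insert Kᶜ 𝒰, IsOpen U := by
    rintro U (rfl | h)
    exacts [hK.isClosed.isOpen_compl, hU U h]
  have hW' : (univ : Set X) ⊆ ⋃₀ insert Kᶜ 𝒰 := fun x _ => by
    by_cases hx : x ∈ K
    · obtain ⟨U, h1, h2⟩ := hW hx
      exact ⟨U, Or.inr h1, h2⟩
    · exact ⟨Kᶜ, Or.inl rfl, hx⟩
  have hb : bd k (O.μ K) ∈ (Sm (insert Kᶜ 𝒰)).ch k d :=
    ch_mono (P := On Kᶜ) (Q := Sm (insert Kᶜ 𝒰)) (fun _ h => ⟨Kᶜ, Or.inl rfl, h⟩) (O.rc K hK)
  have h1 := rho_sm k (insert Kᶜ 𝒰) (ch_mono (on_le_gd hU' hW')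
    (show O.μ K ∈ (On univ).ch k (d + 1) from fun _ _ => subset_univ _))
  have h2 : (Sm (insert Kᶜ 𝒰)).ch k (d + 1) ≤ (Sm 𝒰).ch k (d + 1) ⊔ (On Kᶜ).ch k (d + 1) := by
    unfold Sb.ch
    rw [← Finsupp.supported_union]
    refine Finsupp.supported_mono ?_
    rintro σ ⟨U, rfl | hU, h⟩
    exacts [Or.inr h, Or.inl ⟨U, hU, h⟩]
  obtain ⟨z, hz, b, hb', e⟩ := Submodule.mem_sup.1 (h2 h1)
  rw [rho_succ, DD_sm k _ hb, sub_zero] at e
  have e' : z = O.μ K - bd k (DD k (insert Kᶜ 𝒰) (d + 1) (O.μ K)) - b := eq_sub_of_add_eq e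
  refine ⟨z, hz, ?_, ?_⟩
  · rw [e', map_sub, map_sub, Sml.bd_bd, sub_zero]
    exact Submodule.sub_mem _ (O.rc K hK) (Sml.bd_mem hb')
  · have : z - O.μ K = bd k (-DD k (insert Kᶜ 𝒰) (d + 1) (O.μ K)) + -b := by
      rw [e', map_neg]; abel
    rw [this]
    exact Submodule.add_mem_sup ⟨_, rfl⟩ (Submodule.neg_mem _ hb')

end Crest.Agent.N255.Tp

end
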