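import Crest.Agent.N255.Tp.Du
import Crest.Agent.N255.Tp.Sm
import Crest.Agent.N255.Tp.Cell

/-!
# Row 255, block D (helper88): Mayer-Vietoris for acyclic pairs and for pro-acyclic families
-/

set_option autoImplicit false
open Set Filter Topology

noncomputable section

namespace Crest.Agent.N255.Tp

variable {X : Type} [TopologicalSpace X] {n : ℕ} {k : Type} [CommRing k]

theorem acy_mono {U V U' V' : Set X} (h : Acy k U V) (hU : U' ⊆ U) (hV : V ⊆ V') : Acy k U' V' :=
  fun n _ hc => B_mono hV (h n ⟨ch_mono hU hc.1, hc.2⟩)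

theorem bd_mem_rcyc : ∀ {n} (c : Ch k (n + 1) X), bd k c ∈ rcyc k X n
  | 0, c => aug_bd c
  | _ + 1, c => bd_bd c

/-- Mayer-Vietoris, intersections -/
theorem acy_inter {U₀ U₁ U₂ V₀ V₁ V₂ : Set X} (hU : IsOpen U₂) (hV : IsOpen V₂) (hU' : U₁ ⊆ U₂)
    (hV' : V₁ ⊆ V₂) (aU : Acy k U₀ U₁) (aV : Acy k V₀ V₁) (a : Acy k (U₁ ∪ V₁) (U₂ ∪ V₂)) :
    Acy k (U₀ ∩ V₀) (U₂ ∩ V₂) := by
  intro n z ⟨hz, hz0⟩
  obtain ⟨x, hx, ex⟩ := aU n ⟨ch_mono inter_subset_left hz, hz0⟩
  obtain ⟨y, hy, ey⟩ := aV n ⟨ch_mono inter_subset_right hz, hz0⟩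
  have h1 : x - y ∈ (On (U₂ ∪ V₂)).B k (n + 1) := a (n + 1) ⟨sub_mem (ch_mono subset_union_left hx)
    (ch_mono subset_union_right hy), show bd k (x - y) = 0 by rw [map_sub, ex, ey, sub_self]⟩
  obtain ⟨p, hp, q, hq, e⟩ := split_B smChS_holds hU hV h1 (sub_mem
    (Submodule.mem_sup_left (ch_mono hU' hx)) (Submodule.mem_sup_right (ch_mono hV' hy)))
  refine ⟨x - bd k p, ?_, by rw [map_sub, bd_bd, sub_zero, ex]⟩
  rw [ch_inter]
  refine ⟨sub_mem (ch_mono hU' hx) (Sb.bd_mem hp), ?_⟩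
  rw [show x - bd k p = y + bd k q by rw [← sub_eq_iff_eq_add', sub_right_comm, e]; abel]
  exact add_mem (ch_mono hV' hy) (Sb.bd_mem hq)

/-- a connected union of two non empty sets -/
theorem inter_nonempty_of_acy [Nontrivial k] {U₁ U₂ V₁ V₂ : Set X} (hU : IsOpen U₂) (hV : IsOpen V₂)
    (hU' : U₁ ⊆ U₂) (hV' : V₁ ⊆ V₂) (nU : U₁.Nonempty) (nV : V₁.Nonempty)
    (a : Acy k (U₁ ∪ V₁) (U₂ ∪ V₂)) : (U₂ ∩ V₂).Nonempty := by
  obtain ⟨x, hx⟩ := nU
  obtain ⟨y, hy⟩ := nV
  have mx : sg k (cst 0 x) ∈ (On U₁).ch k 0 := Sb.sg_mem (range_cst hx)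
  have my : sg k (cst 0 y) ∈ (On V₁).ch k 0 := Sb.sg_mem (range_cst hy)
  have h1 := a 0 ⟨sub_mem (ch_mono subset_union_left mx) (ch_mono subset_union_right my),
    show aug k (_ - _) = 0 by rw [map_sub, aug_sg, aug_sg, sub_self]⟩
  obtain ⟨p, hp, q, hq, e⟩ := split_B smChS_holds hU hV h1 (sub_mem
    (Submodule.mem_sup_left (ch_mono hU' mx)) (Submodule.mem_sup_right (ch_mono hV' my)))
  by_contra h
  have h2 : sg k (cst 0 x) - bd k p ∈ (On (U₂ ∩ V₂)).ch k 0 := by
    rw [ch_inter]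
    refine ⟨sub_mem (ch_mono hU' mx) (Sb.bd_mem hp), ?_⟩
    rw [show sg k (cst 0 x) - bd k p = sg k (cst 0 y) + bd k q by
      rw [← sub_eq_iff_eq_add', sub_right_comm, e]; abel]
    exact add_mem (ch_mono hV' my) (Sb.bd_mem hq)
  rw [not_nonempty_iff_eq_empty.1 h] at h2
  have h3 := congrArg (aug k) (eq_zero_of_ch_empty h2)
  rw [map_sub, aug_sg, aug_bd, sub_zero, map_zero] at h3
  exact one_ne_zero h3

/-- Mayer-Vietoris, unions -/
theorem acy_union {U₀ U₁ U₂ V₀ V₁ V₂ : Set X} (hU : IsOpen U₀) (hV : IsOpen V₀) (hU' : U₀ ⊆ U₁)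
    (hV' : V₀ ⊆ V₁) (ne : (U₁ ∩ V₁).Nonempty) (a : Acy k (U₀ ∩ V₀) (U₁ ∩ V₁)) (aU : Acy k U₁ U₂)
    (aV : Acy k V₁ V₂) (h2 : U₀ ∪ V₀ ⊆ U₂ ∪ V₂) : Acy k (U₀ ∪ V₀) (U₂ ∪ V₂) := by
  intro n z ⟨hz, hz0⟩
  cases n with
  | zero =>
    obtain ⟨x, hx, y, hy, rfl⟩ := Submodule.mem_sup.1 (ch_zero_union.le hz)
    obtain ⟨p, hp⟩ := ne
    have mp : aug k x • sg k (cst 0 p) ∈ (On (U₁ ∩ V₁)).ch k 0 :=
      Submodule.smul_mem _ _ (Sb.sg_mem (range_cst hp))
    have h0 : aug k x + aug k y = 0 := by rw [← map_add]; exact hz0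
    have h1 := aU 0 ⟨sub_mem (ch_mono hU' hx) (ch_mono inter_subset_left mp),
      show aug k (_ - _) = 0 by rw [map_sub, map_smul, aug_sg, smul_eq_mul, mul_one, sub_self]⟩
    have h3 := aV 0 ⟨add_mem (ch_mono hV' hy) (ch_mono inter_subset_right mp),
      show aug k (_ + _) = 0 by rw [map_add, map_smul, aug_sg, smul_eq_mul, mul_one, add_comm, h0]⟩
    have := add_mem (B_mono (subset_union_left (t := V₂)) h1) (B_mono subset_union_right h3)
    rwa [show x - aug k x • sg k (cst 0 p) + (y + aug k x • sg k (cst 0 p)) = x + y by abel] at this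
  | succ n =>
    have hz1 : bd k z = 0 := hz0
    obtain ⟨x, hx, y, hy, e⟩ := split_ch smChS_holds hU hV hz (by rw [hz1]; exact zero_mem _)
    have e1 : bd k x + bd k y = 0 := by
      obtain ⟨w, -, hw⟩ := e
      have := bd_bd w
      rw [hw, map_sub, hz1, zero_sub, neg_eq_zero, map_add] at this
      exact this
    have hb : bd k x ∈ (On (U₀ ∩ V₀)).ch k n := by
      rw [ch_inter]
      refine ⟨Sb.bd_mem hx, ?_⟩
      rw [eq_neg_of_add_eq_zero_left e1]
      exact neg_mem (Sb.bd_mem hy)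
    obtain ⟨w, hw, ew⟩ := a n ⟨hb, bd_mem_rcyc x⟩
    have h1 := aU (n + 1) ⟨sub_mem (ch_mono hU' hx) (ch_mono inter_subset_left hw),
      show bd k (_ - _) = 0 by rw [map_sub, ew, sub_self]⟩
    have h3 := aV (n + 1) ⟨add_mem (ch_mono hV' hy) (ch_mono inter_subset_right hw),
      show bd k (_ + _) = 0 by rw [map_add, ew, add_comm, e1]⟩
    have := add_mem (B_mono h2 e)
      (add_mem (B_mono (subset_union_left (t := V₂)) h1) (B_mono subset_union_right h3))
    rwa [show z - (x + y) + (x - w + (y + w)) = z by abel] at this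

/-! ### pro-acyclic families -/

variable {κ : Type} [Preorder κ] {J : Type}

/-- a family of antitone systems of open sets -/
structure OSys (W : J → κ → Set X) : Prop where
  op : ∀ j a, IsOpen (W j a)
  anti : ∀ j, Antitone (W j)

/-- uniformly pro-acyclic family -/
structure PAc (k : Type) [CommRing k] (W : J → κ → Set X) : Prop where
  ne : ∀ j a, (W j a).Nonempty
  ac : ∀ a, ∃ b, a ≤ b ∧ ∀ j, Acy k (W j b) (W j a)

variable {U V W : J → κ → Set X}

theorem OSys.inter (hU : OSys U) (hV : OSys V) : OSys fun j a => U j a ∩ V j a :=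
  ⟨fun j a => (hU.op j a).inter (hV.op j a),
    fun j _ _ h => inter_subset_inter (hU.anti j h) (hV.anti j h)⟩

theorem OSys.union (hU : OSys U) (hV : OSys V) : OSys fun j a => U j a ∪ V j a :=
  ⟨fun j a => (hU.op j a).union (hV.op j a),
    fun j _ _ h => union_subset_union (hU.anti j h) (hV.anti j h)⟩

theorem OSys.comp (hU : OSys U) {J' : Type} (f : J' → J) : OSys fun j => U (f j) :=
  ⟨fun j => hU.op (f j), fun j => hU.anti (f j)⟩

theorem PAc.comp (hU : PAc k U) {J' : Type} (f : J' → J) : PAc k fun j => U (f j) :=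
  ⟨fun j => hU.ne (f j), fun a => (hU.ac a).imp fun _ h => ⟨h.1, fun j => h.2 (f j)⟩⟩

theorem PAc.congr (hU : PAc k U) (h : ∀ j a, V j a = U j a) : PAc k V := by
  rwa [show V = U from funext₂ h]

/-- interleaved systems -/
theorem PAc.interleave [IsDirectedOrder κ] (hU : PAc k U) (oV : ∀ j, Antitone (V j))
    (h1 : ∀ a, ∃ b, ∀ j, U j b ⊆ V j a) (h2 : ∀ a, ∃ b, ∀ j, V j b ⊆ U j a) : PAc k V := by
  refine ⟨fun j a => (h1 a).elim fun b hb => (hU.ne j b).mono (hb j), fun a => ?_⟩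
  obtain ⟨b, hb⟩ := h1 a
  obtain ⟨c, -, hc⟩ := hU.ac b
  obtain ⟨d, hd⟩ := h2 c
  obtain ⟨e, he, he'⟩ := exists_ge_ge a d
  exact ⟨e, he, fun j => acy_mono (hc j) ((oV j he').trans (hd j)) (hb j)⟩

/-- two families at once -/
theorem PAc.both [IsDirectedOrder κ] (oU : OSys U) {J' : Type} {V : J' → κ → Set X} (oV : OSys V)
    (hU : PAc k U) (hV : PAc k V) (a : κ) :
    ∃ b, a ≤ b ∧ (∀ j, Acy k (U j b) (U j a)) ∧ ∀ j, Acy k (V j b) (V j a) := by
  obtain ⟨b, hb, h1⟩ := hU.ac a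
  obtain ⟨c, -, h2⟩ := hV.ac a
  obtain ⟨d, hd, hd'⟩ := exists_ge_ge b c
  exact ⟨d, hb.trans hd, fun j => acy_mono (h1 j) (oU.anti j hd) subset_rfl,
    fun j => acy_mono (h2 j) (oV.anti j hd') subset_rfl⟩

theorem PAc.inter [IsDirectedOrder κ] [Nontrivial k] (oU : OSys U) (oV : OSys V) (hU : PAc k U)
    (hV : PAc k V) (h : PAc k fun j a => U j a ∪ V j a) : PAc k fun j a => U j a ∩ V j a := by
  refine ⟨fun j a => ?_, fun a => ?_⟩
  · obtain ⟨b, hb, h1⟩ := h.ac a
    exact inter_nonempty_of_acy (oU.op j a) (oV.op j a) (oU.anti j hb) (oV.anti j hb) (hU.ne j b)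
      (hV.ne j b) (h1 j)
  · obtain ⟨b, hb, h1⟩ := h.ac a
    obtain ⟨c, hc, h2, h3⟩ := PAc.both oU oV hU hV b
    exact ⟨c, hb.trans hc, fun j => acy_inter (oU.op j a) (oV.op j a) (oU.anti j hb) (oV.anti j hb)
      (h2 j) (h3 j) (h1 j)⟩

theorem PAc.union [IsDirectedOrder κ] (oU : OSys U) (oV : OSys V) (hU : PAc k U)
    (hV : PAc k V) (h : PAc k fun j a => U j a ∩ V j a) : PAc k fun j a => U j a ∪ V j a := by
  refine ⟨fun j a => (hU.ne j a).mono subset_union_left, fun a => ?_⟩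
  obtain ⟨b, hb, h2, h3⟩ := PAc.both oU oV hU hV a
  obtain ⟨c, hc, h1⟩ := h.ac b
  exact ⟨c, hb.trans hc, fun j => acy_union (oU.op j c) (oV.op j c) (oU.anti j hc) (oV.anti j hc)
    (h.ne j b) (h1 j) (h2 j) (h3 j)
    (union_subset_union (oU.anti j (hb.trans hc)) (oV.anti j (hb.trans hc)))⟩

/-! ### unions and intersections over cliques -/

/-- bounded families of non empty finite sets closed under non empty subsets -/
structure Clq {I : Type} (C : J → Finset I → Prop) (m : ℕ) : Prop where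
  ne : ∀ j s, C j s → s.Nonempty
  sub : ∀ j s t, C j s → t ⊆ s → t.Nonempty → C j t
  card : ∀ j s, C j s → s.card ≤ m

variable {I : Type} {C : J → Finset I → Prop} {m : ℕ} {B : J → I → κ → Set X}

theorem OSys.biUnion (h : OSys fun p : J × I => B p.1 p.2) {J' : Type} (f : J' → J)
    (s : J' → Finset I) : OSys fun p a => ⋃ i ∈ s p, B (f p) i a :=
  ⟨fun p a => isOpen_biUnion fun i _ => h.op (f p, i) a,
    fun p _ _ hab => iUnion₂_mono fun i _ => h.anti (f p, i) hab⟩

theorem OSys.biInter (h : OSys fun p : J × I => B p.1 p.2) {J' : Type} (f : J' → J)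
    (s : J' → Finset I) : OSys fun p a => ⋂ i ∈ s p, B (f p) i a :=
  ⟨fun p a => isOpen_biInter_finset fun i _ => h.op (f p, i) a,
    fun p _ _ hab => iInter₂_mono fun i _ => h.anti (f p, i) hab⟩

open Classical in
theorem exists_peel {s : Finset I} {r : ℕ} (hs : s.Nonempty) (hr : s.card ≤ r + 2) :
    ∃ a s', s'.Nonempty ∧ s'.card ≤ r + 1 ∧ s = insert a s' := by
  obtain ⟨a, ha⟩ := hs
  by_cases h : (s.erase a).Nonempty
  · exact ⟨a, s.erase a, h, by rw [Finset.card_erase_of_mem ha]; omega,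
      (Finset.insert_erase ha).symm⟩
  · have : s = {a} := by
      rw [← Finset.insert_erase ha, Finset.not_nonempty_iff_eq_empty.1 h]; rfl
    exact ⟨a, {a}, by simp, by simp, by simp [this]⟩

open Classical in
/-- pro-acyclic unions over cliques give pro-acyclic intersections -/
theorem PAc.inter_of_union [IsDirectedOrder κ] [Nontrivial k] (hC : Clq C m)
    (o : OSys fun p : J × I => B p.1 p.2)
    (h : PAc k fun (p : {p : J × Finset I // C p.1 p.2}) a => ⋃ i ∈ p.1.2, B p.1.1 i a) :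
    PAc k fun (p : {p : J × Finset I // C p.1 p.2}) a => ⋂ i ∈ p.1.2, B p.1.1 i a := by
  have key : ∀ r : ℕ, PAc k fun (p : {p : J × Finset I × Finset I //
      C p.1 (p.2.1 ∪ p.2.2) ∧ p.2.1.Nonempty ∧ p.2.1.card ≤ r + 1}) a =>
      (⋂ i ∈ p.1.2.1, B p.1.1 i a) ∪ ⋃ i ∈ p.1.2.2, B p.1.1 i a := by
    intro r
    induction r with
    | zero =>
      refine (h.comp fun p => ⟨(p.1.1, p.1.2.1 ∪ p.1.2.2), p.2.1⟩).congr ?_
      rintro ⟨⟨j, s, t⟩, h1, h2, h3⟩ a
      obtain ⟨b, rfl⟩ := Finset.card_eq_one.1 (le_antisymm h3 h2.card_pos)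
      simp
    | succ r ih =>
      choose b s' hs hr e using fun p : {p : J × Finset I × Finset I //
        C p.1 (p.2.1 ∪ p.2.2) ∧ p.2.1.Nonempty ∧ p.2.1.card ≤ r + 1 + 1} =>
          exists_peel p.2.2.1 p.2.2.2
      have hb : ∀ p, b p ∈ p.1.2.1 := fun p => by rw [e p]; simp
      have hs' : ∀ p, s' p ⊆ p.1.2.1 := fun p => by rw [e p]; exact Finset.subset_insert _ _
      refine (PAc.inter ((o.biInter _ _).union (o.biUnion _ _)) ((o.biInter _ _).union (o.biUnion _ _))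
        (ih.comp fun p => ⟨(p.1.1, s' p, p.1.2.2), hC.sub _ _ _ p.2.1
          (Finset.union_subset_union (hs' p) subset_rfl) (hs p).inl, hs p, hr p⟩)
        (ih.comp fun p => ⟨(p.1.1, {b p}, p.1.2.2), hC.sub _ _ _ p.2.1
          (Finset.union_subset_union (by simpa using hb p) subset_rfl) (by simp), by simp, by simp⟩)
        ((ih.comp fun p => ⟨(p.1.1, s' p, insert (b p) p.1.2.2), hC.sub _ _ _ p.2.1
          (Finset.union_subset ((hs' p).trans Finset.subset_union_left) (Finset.insert_subset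
            (Finset.mem_union_left _ (hb p)) Finset.subset_union_right)) (hs p).inl, hs p,
          hr p⟩).congr ?_)).congr ?_
      · intro p a
        ext x
        simp only [Finset.set_biUnion_insert, Finset.set_biInter_singleton, mem_union]
        tauto
      · intro p a
        conv_lhs => rw [e p]
        ext x
        simp only [Finset.set_biInter_insert, Finset.set_biInter_singleton, mem_union, mem_inter_iff]
        tauto
  refine ((key m).comp fun p => ⟨(p.1.1, p.1.2, ∅), by simpa using p.2, hC.ne _ _ p.2,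
    (hC.card _ _ p.2).trans (Nat.le_succ _)⟩).congr fun p a => by simp

open Classical in
/-- pro-acyclic intersections over cliques give pro-acyclic unions -/
theorem PAc.union_of_inter [IsDirectedOrder κ] (hC : Clq C m)
    (o : OSys fun p : J × I => B p.1 p.2)
    (h : PAc k fun (p : {p : J × Finset I // C p.1 p.2}) a => ⋂ i ∈ p.1.2, B p.1.1 i a) :
    PAc k fun (p : {p : J × Finset I // C p.1 p.2}) a => ⋃ i ∈ p.1.2, B p.1.1 i a := by
  have key : ∀ r : ℕ, PAc k fun (p : {p : J × Finset I × Finset I //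
      C p.1 (p.2.1 ∪ p.2.2) ∧ p.2.1.Nonempty ∧ p.2.1.card ≤ r + 1}) a =>
      (⋃ i ∈ p.1.2.1, B p.1.1 i a) ∩ ⋂ i ∈ p.1.2.2, B p.1.1 i a := by
    intro r
    induction r with
    | zero =>
      refine (h.comp fun p => ⟨(p.1.1, p.1.2.1 ∪ p.1.2.2), p.2.1⟩).congr ?_
      rintro ⟨⟨j, s, t⟩, h1, h2, h3⟩ a
      obtain ⟨b, rfl⟩ := Finset.card_eq_one.1 (le_antisymm h3 h2.card_pos)
      simp
    | succ r ih =>
      choose b s' hs hr e using fun p : {p : J × Finset I × Finset I //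
        C p.1 (p.2.1 ∪ p.2.2) ∧ p.2.1.Nonempty ∧ p.2.1.card ≤ r + 1 + 1} =>
          exists_peel p.2.2.1 p.2.2.2
      have hb : ∀ p, b p ∈ p.1.2.1 := fun p => by rw [e p]; simp
      have hs' : ∀ p, s' p ⊆ p.1.2.1 := fun p => by rw [e p]; exact Finset.subset_insert _ _
      refine (PAc.union ((o.biUnion _ _).inter (o.biInter _ _)) ((o.biUnion _ _).inter (o.biInter _ _))
        (ih.comp fun p => ⟨(p.1.1, s' p, p.1.2.2), hC.sub _ _ _ p.2.1
          (Finset.union_subset_union (hs' p) subset_rfl) (hs p).inl, hs p, hr p⟩)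
        (ih.comp fun p => ⟨(p.1.1, {b p}, p.1.2.2), hC.sub _ _ _ p.2.1
          (Finset.union_subset_union (by simpa using hb p) subset_rfl) (by simp), by simp, by simp⟩)
        ((ih.comp fun p => ⟨(p.1.1, s' p, insert (b p) p.1.2.2), hC.sub _ _ _ p.2.1
          (Finset.union_subset ((hs' p).trans Finset.subset_union_left) (Finset.insert_subset
            (Finset.mem_union_left _ (hb p)) Finset.subset_union_right)) (hs p).inl, hs p,
          hr p⟩).congr ?_)).congr ?_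
      · intro p a
        ext x
        simp only [Finset.set_biInter_insert, Finset.set_biUnion_singleton, mem_inter_iff]
        tauto
      · intro p a
        conv_lhs => rw [e p]
        ext x
        simp only [Finset.set_biUnion_insert, Finset.set_biUnion_singleton, mem_union, mem_inter_iff]
        tauto
  refine ((key m).comp fun p => ⟨(p.1.1, p.1.2, ∅), by simpa using p.2, hC.ne _ _ p.2,
    (hC.card _ _ p.2).trans (Nat.le_succ _)⟩).congr fun p a => by simp

end Crest.Agent.N255.Tp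

end
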