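import Crest.Agent.N255.Tp.Stm

/-!
# Row 255, block D (helper72): basic calculus of chains and cochains with supports
-/

set_option autoImplicit false
open Set Filter Topology

noncomputable section

namespace Crest.Agent.N255.Tp

open Crest.GeometryTopology.DeckCochains

variable {X Y Z : Type} [TopologicalSpace X] [TopologicalSpace Y] [TopologicalSpace Z] {l m n : ℕ}
  {k : Type} [CommRing k] {A A' : Type} [AddCommGroup A] [Module k A] [AddCommGroup A'] [Module k A']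

theorem vm_comp (v : Fin (m + 1) → Fin (n + 1)) (w : Fin (l + 1) → Fin (m + 1)) :
    (vm v).comp (vm w) = vm (v ∘ w) := by
  ext1 x; exact stdSimplex.map_comp_apply w v x

theorem sub_sub (σ : Sx n X) (v : Fin (m + 1) → Fin (n + 1)) (w : Fin (l + 1) → Fin (m + 1)) :
    sub (sub σ v) w = sub σ (v ∘ w) := by
  rw [sub, sub, sub, ContinuousMap.comp_assoc, vm_comp]

theorem sub_id (σ : Sx n X) : sub σ id = σ := by
  ext x; exact congrArg σ (stdSimplex.map_id_apply x)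

theorem sub_congr (σ : Sx n X) {v w : Fin (m + 1) → Fin (n + 1)} (h : ∀ t, (v t).val = (w t).val) :
    sub σ v = sub σ w := congrArg _ (funext fun t => Fin.ext (h t))

theorem comp_sub (f : C(X, Y)) (σ : Sx n X) (v : Fin (m + 1) → Fin (n + 1)) :
    f.comp (sub σ v) = sub (f.comp σ) v := rfl

theorem comp_fc (f : C(X, Y)) (σ : Sx (n + 1) X) (i : Fin (n + 2)) :
    f.comp (fc σ i) = fc (f.comp σ) i := rfl

theorem range_fc (σ : Sx (n + 1) X) (i : Fin (n + 2)) : range (fc σ i) ⊆ range σ := range_sub σ _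

theorem range_fr (i : ℕ) (σ : Sx n X) : range (fr i σ) ⊆ range σ := range_sub σ _

theorem range_bk (i : ℕ) (σ : Sx n X) : range (bk i σ) ⊆ range σ := range_sub σ _

theorem fr_self (σ : Sx n X) : fr n σ = σ :=
  (sub_congr σ (w := id) fun t => by simp; omega).trans (sub_id σ)

theorem bk_self (σ : Sx n X) : bk n σ = σ :=
  (sub_congr σ (w := id) fun t => by simp; omega).trans (sub_id σ)

theorem cob_apply (φ : Co A n X) (σ : Sx (n + 1) X) :
    cob k φ σ = ∑ i : Fin (n + 2), (-1 : k) ^ (i : ℕ) • φ (fc σ i) := rfl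

theorem bd_sg (σ : Sx (n + 1) X) :
    bd k (sg k σ) = ∑ i : Fin (n + 2), (-1 : k) ^ (i : ℕ) • sg k (fc σ i) := by simp [bd]

@[simp] theorem ev_single (φ : Co A n X) (σ : Sx n X) (r : k) :
    ev k φ (Finsupp.single σ r) = r • φ σ := by simp [ev]

theorem ev_sg (φ : Co A n X) (σ : Sx n X) : ev k φ (sg k σ) = φ σ := by simp

theorem ch_ext {V : Type} [AddCommGroup V] [Module k V] {S T : Ch k n X →ₗ[k] V}
    (h : ∀ σ, S (sg k σ) = T (sg k σ)) : S = T := by
  refine Finsupp.lhom_ext' fun σ => LinearMap.ext_ring ?_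
  exact h σ

theorem ch_ext' {V : Type} [AddCommGroup V] [Module k V] {S T : Ch k n X →ₗ[k] V}
    (h : ∀ σ, S (sg k σ) = T (sg k σ)) (c : Ch k n X) : S c = T c :=
  LinearMap.congr_fun (ch_ext h) c

theorem ev_taut (c : Ch k n X) : ev k (fun σ => sg k σ) c = c :=
  ch_ext' (S := ev k fun σ : Sx n X => sg k σ) (T := LinearMap.id) (fun σ => by simp) c

theorem map_ev (T : A →ₗ[k] A') (φ : Co A n X) (c : Ch k n X) :
    T (ev k φ c) = ev k (fun σ => T (φ σ)) c :=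
  ch_ext' (S := T ∘ₗ ev k φ) (fun σ => by simp) c

theorem map_eq_ev (T : Ch k n X →ₗ[k] A) (c : Ch k n X) : T c = ev k (fun σ => T (sg k σ)) c :=
  ch_ext' (fun σ => by simp) c

theorem ev_add (φ ψ : Co A n X) (c : Ch k n X) : ev k (φ + ψ) c = ev k φ c + ev k ψ c :=
  ch_ext' (T := ev k φ + ev k ψ) (fun σ => by simp) c

theorem ev_sub (φ ψ : Co A n X) (c : Ch k n X) : ev k (φ - ψ) c = ev k φ c - ev k ψ c :=
  ch_ext' (T := ev k φ - ev k ψ) (fun σ => by simp) c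

theorem ev_neg (φ : Co A n X) (c : Ch k n X) : ev k (-φ) c = -ev k φ c :=
  ch_ext' (T := -ev k φ) (fun σ => by simp) c

theorem ev_smul (r : k) (φ : Co A n X) (c : Ch k n X) : ev k (r • φ) c = r • ev k φ c :=
  ch_ext' (T := r • ev k φ) (fun σ => by simp) c

@[simp] theorem ev_zero (c : Ch k n X) : ev k (0 : Co A n X) c = 0 :=
  ch_ext' (T := 0) (fun σ => by simp) c

/-- Stokes -/
theorem ev_bd (φ : Co A n X) (c : Ch k (n + 1) X) : ev k φ (bd k c) = ev k (cob k φ) c :=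
  ch_ext' (S := ev k φ ∘ₗ bd k) (fun σ => by simp [bd_sg, cob_apply]) c

theorem cob_taut (σ : Sx (n + 1) X) : cob k (fun τ : Sx n X => sg k τ) σ = bd k (sg k σ) :=
  (bd_sg σ).symm

theorem cob_map (T : A →ₗ[k] A') (φ : Co A n X) (σ : Sx (n + 1) X) :
    cob k (fun τ => T (φ τ)) σ = T (cob k φ σ) := by simp [cob_apply]

/-- bridge to the cochains of row 251 -/
theorem cob_un (φ : Co A n X) (s : SingSimplex X (n + 1)) :
    cochainCobdry (fun t => φ (R251.Sm.un t)) s = cob k φ (R251.Sm.un s) := by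
  rw [R251.Pr.cobdry_apply, cob_apply]
  refine Finset.sum_congr rfl fun i _ => ?_
  rw [R251.Sm.un_face, ← Int.cast_smul_eq_zsmul k]
  simp only [Int.cast_pow, Int.cast_neg, Int.cast_one]
  rfl

theorem cob_sx (φ : SingSimplex X n → A) (σ : Sx (n + 1) X) :
    cob k (fun τ : Sx n X => φ (R251.Sm.sx τ)) σ = cochainCobdry φ (R251.Sm.sx σ) := by
  have := cob_un (k := k) (fun τ : Sx n X => φ (R251.Sm.sx τ)) (R251.Sm.sx σ)
  simpa using this.symm

@[simp] theorem cob_cob (φ : Co A n X) : cob k (cob k φ) = 0 := by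
  funext σ
  have h1 : (fun t : SingSimplex X (n + 1) => cob k φ (R251.Sm.un t)) =
      cochainCobdry fun t => φ (R251.Sm.un t) := funext fun t => (cob_un φ t).symm
  have := cob_un (k := k) (cob k φ) (R251.Sm.sx σ)
  rw [h1, R251.Sm.cobdry_cobdry] at this
  simpa using this.symm

@[simp] theorem bd_bd (c : Ch k (n + 2) X) : bd k (bd k c) = 0 := by
  have h : (fun τ : Sx (n + 1) X => bd k (sg k τ)) = cob k fun τ : Sx n X => sg k τ :=
    funext fun τ => (cob_taut τ).symm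
  rw [map_eq_ev (bd k) (bd k c), h, ev_bd, cob_cob, ev_zero]

theorem aug_sg (σ : Sx n X) : aug k (sg k σ) = 1 := by simp [aug]

@[simp] theorem aug_bd (c : Ch k 1 X) : aug k (bd k c) = 0 := by
  rw [aug, ev_bd]
  have : cob k (fun _ : Sx 0 X => (1 : k)) = 0 := by
    funext σ; simp [cob_apply, Fin.sum_univ_two]
  rw [this, ev_zero]

theorem push_sg (f : C(X, Y)) (σ : Sx n X) : push k f (sg k σ) = sg k (f.comp σ) := by simp [push]

theorem pull_apply (f : C(X, Y)) (φ : Co A n Y) (σ : Sx n X) : pull k f φ σ = φ (f.comp σ) := rfl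

theorem ev_push (f : C(X, Y)) (φ : Co A n Y) (c : Ch k n X) :
    ev k φ (push k f c) = ev k (pull k f φ) c :=
  ch_ext' (S := ev k φ ∘ₗ push k f) (fun σ => by simp [push_sg, pull_apply]) c

theorem cob_pull (f : C(X, Y)) (φ : Co A n Y) : cob k (pull k f φ) = pull k f (cob k φ) := rfl

theorem bd_push (f : C(X, Y)) (c : Ch k (n + 1) X) : bd k (push k f c) = push k f (bd k c) :=
  ch_ext' (S := bd k ∘ₗ push k f) (T := push k f ∘ₗ bd k)
    (fun σ => by
      simp only [LinearMap.comp_apply, push_sg, bd_sg, map_sum, map_smul, comp_fc]) c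

theorem push_push (f : C(X, Y)) (g : C(Y, Z)) (c : Ch k n X) :
    push k g (push k f c) = push k (g.comp f) c :=
  ch_ext' (S := push k g ∘ₗ push k f) (fun σ => by simp [push_sg, ContinuousMap.comp_assoc]) c

theorem push_id (c : Ch k n X) : push k (ContinuousMap.id X) c = c :=
  ch_ext' (T := LinearMap.id) (fun σ => by simp [push_sg]) c

theorem aug_push (f : C(X, Y)) (c : Ch k n X) : aug k (push k f c) = aug k c := ev_push f _ c

/-! ### families -/

theorem mem_On {U : Set X} {σ : Sx n X} : σ ∈ (On U).S n ↔ range σ ⊆ U := Iff.rfl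

theorem mem_Sm {𝒰 : Set (Set X)} {σ : Sx n X} : σ ∈ (Sm 𝒰).S n ↔ ∃ U ∈ 𝒰, range σ ⊆ U := Iff.rfl

theorem On_le {U V : Set X} (h : U ⊆ V) : (On U).Le (On V) := fun _ _ hσ => hσ.trans h

theorem On_le_Sm {U : Set X} {𝒰 : Set (Set X)} (h : U ∈ 𝒰) : (On U).Le (Sm 𝒰) :=
  fun _ _ hσ => ⟨U, h, hσ⟩

theorem Sm_le {𝒰 𝒱 : Set (Set X)} (h : ∀ U ∈ 𝒰, ∃ V ∈ 𝒱, U ⊆ V) : (Sm 𝒰).Le (Sm 𝒱) :=
  fun _ _ ⟨U, hU, hσ⟩ => let ⟨V, hV, e⟩ := h U hU; ⟨V, hV, hσ.trans e⟩

theorem Sm_le_On {𝒰 : Set (Set X)} {V : Set X} (h : ∀ U ∈ 𝒰, U ⊆ V) : (Sm 𝒰).Le (On V) :=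
  fun _ _ ⟨U, hU, hσ⟩ => hσ.trans (h U hU)

namespace Sb

variable {P Q R : Sb X}

theorem inf_le_left : (P.inf Q).Le P := fun _ _ h => h.1
theorem inf_le_right : (P.inf Q).Le Q := fun _ _ h => h.2
theorem le_inf (h : R.Le P) (h' : R.Le Q) : R.Le (P.inf Q) := fun n _ hσ => ⟨h n hσ, h' n hσ⟩
theorem le_sup_left : P.Le (P.sup Q) := fun _ _ h => Or.inl h
theorem le_sup_right : Q.Le (P.sup Q) := fun _ _ h => Or.inr h
theorem sup_le (h : P.Le R) (h' : Q.Le R) : (P.sup Q).Le R := fun n _ hσ => hσ.elim (h n ·) (h' n ·)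
theorem Le.refl (P : Sb X) : P.Le P := fun _ => subset_rfl
theorem Le.trans (h : P.Le Q) (h' : Q.Le R) : P.Le R := fun n => (h n).trans (h' n)

theorem mem_ch {c : Ch k n X} : c ∈ P.ch k n ↔ ∀ σ ∈ c.support, σ ∈ P.S n := Iff.rfl

theorem mem_van {φ : Co A n X} : φ ∈ P.van k A n ↔ ∀ σ ∈ P.S n, φ σ = 0 := Iff.rfl

theorem mem_Z {φ : Co A n X} : φ ∈ P.Z k A n ↔ cob k φ ∈ P.van k A (n + 1) := Iff.rfl

theorem mem_B {c : Ch k n X} : c ∈ P.B k n ↔ ∃ b ∈ P.ch k (n + 1), bd k b = c := Iff.rfl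

theorem mem_Ex {φ : Co A (n + 1) X} :
    φ ∈ P.Ex k A (n + 1) ↔ ∃ ψ : Co A n X, φ - cob k ψ ∈ P.van k A (n + 1) := by
  constructor
  · intro h
    obtain ⟨_, ⟨ψ, rfl⟩, e, he, rfl⟩ := Submodule.mem_sup.1 h
    exact ⟨ψ, by simpa using he⟩
  · rintro ⟨ψ, h⟩
    exact Submodule.mem_sup.2 ⟨_, ⟨ψ, rfl⟩, _, h, by abel⟩

theorem sg_mem {σ : Sx n X} (h : σ ∈ P.S n) : sg k σ ∈ P.ch k n :=
  Finsupp.single_mem_supported k 1 h

theorem ch_mono (h : P.Le Q) : P.ch k n ≤ Q.ch k n := Finsupp.supported_mono (h n)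

theorem van_mono (h : P.Le Q) : Q.van k A n ≤ P.van k A n := fun _ hφ σ hσ => hφ σ (h n hσ)

theorem B_mono (h : P.Le Q) : P.B k n ≤ Q.B k n := Submodule.map_mono (ch_mono h)

theorem Z_mono (h : P.Le Q) : Q.Z k A n ≤ P.Z k A n := Submodule.comap_mono (van_mono h)

theorem Ex_mono (h : P.Le Q) : ∀ {n}, Q.Ex k A n ≤ P.Ex k A n
  | 0 => van_mono h
  | _ + 1 => sup_le_sup_left (van_mono h) _

theorem ch_inf : (P.inf Q).ch k n = P.ch k n ⊓ Q.ch k n := Finsupp.supported_inter _ _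

theorem ch_sup : (P.sup Q).ch k n = P.ch k n ⊔ Q.ch k n := Finsupp.supported_union _ _

theorem van_sup : (P.sup Q).van k A n = P.van k A n ⊓ Q.van k A n :=
  Submodule.ext fun _ => ⟨fun h => ⟨fun σ hσ => h σ (Or.inl hσ), fun σ hσ => h σ (Or.inr hσ)⟩,
    fun h σ hσ => hσ.elim (h.1 σ) (h.2 σ)⟩

/-- a linear map which sends the simplices of `P` into `N` sends the chains of `P` into `N` -/
theorem map_mem {V : Type} [AddCommGroup V] [Module k V] (T : Ch k n X →ₗ[k] V) (N : Submodule k V)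
    (h : ∀ σ ∈ P.S n, T (sg k σ) ∈ N) {c : Ch k n X} (hc : c ∈ P.ch k n) : T c ∈ N := by
  have : P.ch k n ≤ N.comap T := by
    rw [ch, Finsupp.supported_eq_span_single, Submodule.span_le]
    rintro _ ⟨σ, hσ, rfl⟩
    exact h σ hσ
  exact this hc

theorem ev_mem (φ : Co A n X) (N : Submodule k A) (h : ∀ σ ∈ P.S n, φ σ ∈ N) {c : Ch k n X}
    (hc : c ∈ P.ch k n) : ev k φ c ∈ N := map_mem _ N (fun σ hσ => by simpa using h σ hσ) hc

theorem ev_eq_zero {φ : Co A n X} (h : φ ∈ P.van k A n) {c : Ch k n X} (hc : c ∈ P.ch k n) :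
    ev k φ c = 0 := ev_mem φ ⊥ h hc

theorem ev_congr {φ ψ : Co A n X} (h : φ - ψ ∈ P.van k A n) {c : Ch k n X} (hc : c ∈ P.ch k n) :
    ev k φ c = ev k ψ c := by rw [← sub_eq_zero, ← ev_sub]; exact ev_eq_zero h hc

theorem bd_mem {c : Ch k (n + 1) X} (hc : c ∈ P.ch k (n + 1)) : bd k c ∈ P.ch k n :=
  map_mem _ _ (fun σ hσ => by
    rw [bd_sg]
    exact Submodule.sum_mem _ fun i _ => Submodule.smul_mem _ _ (sg_mem (P.fc_mem n σ i hσ))) hc

theorem cob_mem {φ : Co A n X} (h : φ ∈ P.van k A n) : cob k φ ∈ P.van k A (n + 1) :=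
  fun σ hσ => (cob_apply φ σ).trans
    (Finset.sum_eq_zero fun i _ => by rw [h _ (P.fc_mem n σ i hσ), smul_zero])

theorem van_le_Z : P.van k A n ≤ P.Z k A n := fun _ h => cob_mem h

theorem bd_mem_B {c : Ch k (n + 1) X} (hc : c ∈ P.ch k (n + 1)) : bd k c ∈ P.B k n := ⟨c, hc, rfl⟩

theorem B_le_ch : P.B k n ≤ P.ch k n := by rintro _ ⟨b, hb, rfl⟩; exact bd_mem hb

theorem B_le_cyc : ∀ {n}, P.B k n ≤ cyc k X n
  | 0 => le_top
  | _ + 1 => by rintro _ ⟨b, -, rfl⟩; exact bd_bd b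

theorem ev_B {φ : Co A n X} (h : φ ∈ P.Z k A n) {c : Ch k n X} (hc : c ∈ P.B k n) :
    ev k φ c = 0 := by obtain ⟨b, hb, rfl⟩ := hc; rw [ev_bd]; exact ev_eq_zero h hb

open Classical in
/-- the part of a cochain on `P` (extension by zero) -/
def res (P : Sb X) (φ : Co A n X) : Co A n X := fun σ => if σ ∈ P.S n then φ σ else 0

theorem res_of_mem (φ : Co A n X) {σ : Sx n X} (h : σ ∈ P.S n) : P.res φ σ = φ σ := if_pos h

theorem res_of_notMem (φ : Co A n X) {σ : Sx n X} (h : σ ∉ P.S n) : P.res φ σ = 0 := if_neg h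

theorem sub_res (φ : Co A n X) : φ - P.res φ ∈ P.van k A n :=
  fun σ hσ => by simp [res_of_mem φ hσ]

theorem res_mem {φ : Co A n X} (h : φ ∈ (P.inf Q).van k A n) : P.res φ ∈ Q.van k A n :=
  fun σ hσ => by
    by_cases h1 : σ ∈ P.S n
    · rw [res_of_mem φ h1]; exact h σ ⟨h1, hσ⟩
    · exact res_of_notMem φ h1

theorem van_inf : (P.inf Q).van k A n = P.van k A n ⊔ Q.van k A n :=
  le_antisymm (fun φ h => Submodule.mem_sup.2 ⟨_, sub_res φ, _, res_mem h, by abel⟩)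
    (_root_.sup_le (van_mono inf_le_left) (van_mono inf_le_right))

end Sb

theorem On_inter (U V : Set X) : On (U ∩ V) = (On U).inf (On V) := by
  unfold On Sb.inf; congr; funext n; ext σ; exact subset_inter_iff

theorem Sm_pair (U V : Set X) : Sm {U, V} = (On U).sup (On V) := by
  unfold On Sb.sup Sm; congr; funext n; ext σ; simp

theorem Sm_insert (U : Set X) (𝒰 : Set (Set X)) : Sm (insert U 𝒰) = (On U).sup (Sm 𝒰) := by
  unfold On Sb.sup Sm; congr; funext n; ext σ; simp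

theorem Sm_single (U : Set X) : Sm {U} = On U := by
  unfold On Sm; congr; funext n; ext σ; simp

theorem ch_inter (U V : Set X) : (On (U ∩ V)).ch k n = (On U).ch k n ⊓ (On V).ch k n := by
  rw [On_inter, Sb.ch_inf]

theorem van_inter (U V : Set X) : (On (U ∩ V)).van k A n = (On U).van k A n ⊔ (On V).van k A n := by
  rw [On_inter, Sb.van_inf]

theorem ch_mono {U V : Set X} (h : U ⊆ V) : (On U).ch k n ≤ (On V).ch k n := Sb.ch_mono (On_le h)

theorem B_mono {U V : Set X} (h : U ⊆ V) : (On U).B k n ≤ (On V).B k n := Sb.B_mono (On_le h)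

theorem van_mono {U V : Set X} (h : U ⊆ V) : (On V).van k A n ≤ (On U).van k A n :=
  Sb.van_mono (On_le h)

/-- larger support -/
theorem van_supp {K L : Set X} (h : K ⊆ L) : (On Kᶜ).van k A n ≤ (On Lᶜ).van k A n :=
  van_mono (compl_subset_compl.2 h)

theorem mem_ch_univ (c : Ch k n X) : c ∈ (On univ).ch k n := fun _ _ => subset_univ _

theorem eq_zero_of_van_univ {φ : Co A n X} (h : φ ∈ (On univ).van k A n) : φ = 0 :=
  funext fun σ => h σ (subset_univ _)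

theorem eq_zero_of_ch_empty {c : Ch k n X} (h : c ∈ (On ∅).ch k n) : c = 0 := by
  ext σ
  by_contra h0
  exact (range_nonempty σ).ne_empty (subset_empty_iff.1 (h (Finsupp.mem_support_iff.2 h0)))

theorem push_mem {f : C(X, Y)} {U : Set X} {V : Set Y} (h : MapsTo f U V) {c : Ch k n X}
    (hc : c ∈ (On U).ch k n) : push k f c ∈ (On V).ch k n :=
  Sb.map_mem _ _ (fun σ hσ => by
    rw [push_sg]; exact Sb.sg_mem (by rintro _ ⟨t, rfl⟩; exact h (hσ ⟨t, rfl⟩))) hc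

theorem push_mem_B {f : C(X, Y)} {U : Set X} {V : Set Y} (h : MapsTo f U V) {c : Ch k n X}
    (hc : c ∈ (On U).B k n) : push k f c ∈ (On V).B k n := by
  obtain ⟨b, hb, rfl⟩ := hc
  exact ⟨_, push_mem h hb, bd_push f b⟩

theorem pull_mem {f : C(X, Y)} {U : Set X} {V : Set Y} (h : MapsTo f U V) {φ : Co A n Y}
    (hφ : φ ∈ (On V).van k A n) : pull k f φ ∈ (On U).van k A n :=
  fun σ hσ => hφ _ (by rintro _ ⟨t, rfl⟩; exact h (hσ ⟨t, rfl⟩))

/-- the carrier of a chain -/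
def car (c : Ch k n X) : Set X := ⋃ σ ∈ c.support, range σ

theorem isCompact_car (c : Ch k n X) : IsCompact (car c) :=
  c.support.isCompact_biUnion fun σ _ => isCompact_range σ.continuous

theorem mem_ch_iff_car {U : Set X} {c : Ch k n X} : c ∈ (On U).ch k n ↔ car c ⊆ U := by
  simp only [car, iUnion_subset_iff]; rfl

theorem mem_ch_car (c : Ch k n X) : c ∈ (On (car c)).ch k n := mem_ch_iff_car.2 subset_rfl

theorem mem_Nul {U : Set X} {c : Ch k n X} :
    c ∈ Nul k U n ↔ ∃ b : Ch k (n + 1) X, c - bd k b ∈ (On U).ch k n := by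
  constructor
  · intro h
    obtain ⟨_, ⟨b, rfl⟩, e, he, rfl⟩ := Submodule.mem_sup.1 h
    exact ⟨b, by simpa using he⟩
  · rintro ⟨b, h⟩
    exact Submodule.mem_sup.2 ⟨_, ⟨b, rfl⟩, _, h, by abel⟩

theorem Nul_mono {U V : Set X} (h : U ⊆ V) : Nul k U n ≤ Nul k V n := sup_le_sup_left (ch_mono h) _

theorem ch_le_Nul {U : Set X} : (On U).ch k n ≤ Nul k U n := le_sup_right

theorem bd_mem_Nul (U : Set X) (b : Ch k (n + 1) X) : bd k b ∈ Nul k U n :=
  Submodule.mem_sup_left ⟨b, rfl⟩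

theorem ev_Nul {U : Set X} {φ : Co A n X} (h : φ ∈ (On U).van k A n) (hc : cob k φ = 0)
    {c : Ch k n X} (h' : c ∈ Nul k U n) : ev k φ c = 0 := by
  obtain ⟨b, hb⟩ := mem_Nul.1 h'
  have := Sb.ev_eq_zero h hb
  rwa [map_sub, ev_bd, hc, ev_zero, sub_zero] at this

theorem mem_Cc {U : Set X} {φ : Co A n X} :
    φ ∈ Cc k U A n ↔ ∃ K, IsCompact K ∧ K ⊆ U ∧ φ ∈ (On Kᶜ).van k A n := Iff.rfl

theorem Cc_mono {U V : Set X} (h : U ⊆ V) : Cc k U A n ≤ Cc k V A n :=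
  fun _ ⟨K, a, b, c⟩ => ⟨K, a, b.trans h, c⟩

theorem cob_mem_Cc {U : Set X} {φ : Co A n X} (h : φ ∈ Cc k U A n) : cob k φ ∈ Cc k U A (n + 1) :=
  let ⟨K, a, b, c⟩ := h; ⟨K, a, b, Sb.cob_mem c⟩

/-- compactly supported cochains split along a union of open sets -/
theorem Cc_union [T2Space X] {U V : Set X} (hU : IsOpen U) (hV : IsOpen V) :
    Cc k (U ∪ V) A n = Cc k U A n ⊔ Cc k V A n := by
  refine le_antisymm ?_ (sup_le (Cc_mono subset_union_left) (Cc_mono subset_union_right))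
  rintro φ ⟨K, hK, hKU, h⟩
  obtain ⟨K1, K2, h1, h2, h3, h4, rfl⟩ := hK.binary_compact_cover hU hV hKU
  rw [compl_union, van_inter] at h
  obtain ⟨a, ha, b, hb, rfl⟩ := Submodule.mem_sup.1 h
  exact Submodule.add_mem_sup ⟨K1, h1, h3, ha⟩ ⟨K2, h2, h4, hb⟩

namespace Ori

variable {d : ℕ} {O : Ori k d X} {K L : Set X} {z z' : Ch k (d + 1) X}

theorem fund_μ (O : Ori k d X) (hK : IsCompact K) : O.Fund K (O.μ K) :=
  ⟨O.rc K hK, by simp⟩

theorem Fund.mono (h : O.Fund L z) (hK : IsCompact K) (hL : IsCompact L) (hKL : K ⊆ L) :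
    O.Fund K z :=
  ⟨ch_mono (compl_subset_compl.2 hKL) h.rc, by
    have := Submodule.add_mem _ (Nul_mono (compl_subset_compl.2 hKL) h.eq) (O.cmp K L hK hL hKL)
    simpa using this⟩

theorem Fund.sub_mem (h : O.Fund K z) (h' : O.Fund K z') : z - z' ∈ Nul k Kᶜ (d + 1) := by
  have := Submodule.sub_mem _ h.eq h'.eq
  simpa using this

theorem Fund.of_sub (h : O.Fund K z) (e : z - z' ∈ (On Kᶜ).ch k (d + 1)) : O.Fund K z' :=
  ⟨by simpa using Submodule.sub_mem _ h.rc (Sb.bd_mem e), by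
    have := Submodule.sub_mem _ h.eq (ch_le_Nul e)
    simpa using this⟩

theorem Fund.ev_eq (h : O.Fund K z) (h' : O.Fund K z') {φ : Co A (d + 1) X}
    (hφ : φ ∈ (On Kᶜ).van k A (d + 1)) (hc : cob k φ = 0) : ev k φ z = ev k φ z' := by
  rw [← sub_eq_zero, ← map_sub]; exact ev_Nul hφ hc (h.sub_mem h')

end Ori

end Crest.Agent.N255.Tp

end
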