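import Crest.Agent.N255.Tp.Defs

/-!
# Row 255, block D (helper72): the leaves of topological Poincaré duality
-/

set_option autoImplicit false
open Set Filter Topology

noncomputable section

namespace Crest.Agent.N255.Tp

/-- (83) small simplices, cochains, relative to an arbitrary subset `W` -/
def SmVanS : Prop := ∀ (k : Type) [CommRing k] (A : Type) [AddCommGroup A] [Module k A] (X : Type)
  [TopologicalSpace X] (W : Set X) (𝒰 : Set (Set X)), (∀ U ∈ 𝒰, IsOpen U) → W ⊆ ⋃₀ 𝒰 →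
  ∀ (n : ℕ) (φ : Co A (n + 1) X), φ ∈ (On W).Z k A (n + 1) →
    φ ∈ ((On W).inf (Sm 𝒰)).van k A (n + 1) →
    ∃ ψ : Co A n X, cob k ψ - φ ∈ (On W).van k A (n + 1) ∧
      ∀ T : Set X, φ ∈ (On (T ∩ W)).van k A (n + 1) → ψ ∈ (On T).van k A n

/-- (83) small simplices, chains -/
def SmChS : Prop := ∀ (k : Type) [CommRing k] (X : Type) [TopologicalSpace X] (W : Set X)
  (𝒰 : Set (Set X)), (∀ U ∈ 𝒰, IsOpen U) → W ⊆ ⋃₀ 𝒰 → ∀ (n : ℕ) (c : Ch k (n + 1) X),
    c ∈ (On W).ch k (n + 1) → bd k c ∈ (Sm 𝒰).ch k n →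
    ∃ s ∈ ((On W).inf (Sm 𝒰)).ch k (n + 1), c - s ∈ (On W).B k (n + 1)

/-- (83) small fundamental chains -/
def FundS : Prop := ∀ (k : Type) [CommRing k] (X : Type) [TopologicalSpace X] [T2Space X] (d : ℕ)
  (O : Ori k d X) (K : Set X) (𝒰 : Set (Set X)), IsCompact K → (∀ U ∈ 𝒰, IsOpen U) → K ⊆ ⋃₀ 𝒰 →
    ∃ z ∈ (Sm 𝒰).ch k (d + 1), O.Fund K z

/-- (85) both cap products -/
def CapS : Prop := ∀ (k : Type) [CommRing k] (X : Type) [TopologicalSpace X],
  CapLike k X (fun j _ φ => cap j φ) ∧ CapLike k X (fun j _ φ => cap' j φ)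

/-- (85) Leibniz rule -/
def CupS : Prop := ∀ (k : Type) [CommRing k] (A A' A'' : Type) [AddCommGroup A] [Module k A]
  [AddCommGroup A'] [Module k A'] [AddCommGroup A''] [Module k A''] (μ : A →ₗ[k] A' →ₗ[k] A'')
  (X : Type) [TopologicalSpace X] (i j n : ℕ), i + j = n → ∀ (φ : Co A i X) (ψ : Co A' j X),
    cob k (cup μ n φ ψ) = cup μ (n + 1) (cob k φ) ψ + (-1 : k) ^ i • cup μ (n + 1) φ (cob k ψ)

/-- (85) universal coefficients over a field, for arbitrary families -/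
def UctS : Prop := ∀ (k : Type) [Field k] (X : Type) [TopologicalSpace X] (n : ℕ),
  (∀ (N : Submodule k (Ch k n X)) (c : Ch k n X), c ∉ N →
    ∃ φ : Co k n X, (∀ x ∈ N, ev k φ x = 0) ∧ ev k φ c ≠ 0) ∧
  ∀ (A : Type) [AddCommGroup A] [Module k A] (P Q : Sb X) (φ : Co A (n + 1) X),
    (∀ c ∈ P.ch k (n + 1), bd k c ∈ Q.ch k n → ev k φ c = 0) →
    ∃ ψ ∈ Q.van k A n, φ - cob k ψ ∈ P.van k A (n + 1)

/-- (88) prism operator with supports -/
def PrismS : Prop := ∀ (k : Type) [CommRing k] (X Y : Type) [TopologicalSpace X] [TopologicalSpace Y]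
  (H : C(X × unitInterval, Y)), ∃ T : ∀ n, Ch k n X →ₗ[k] Ch k (n + 1) Y,
    (∀ c : Ch k 0 X, bd k (T 0 c) = push k (R251.Pr.end1 H) c - push k (R251.Pr.end0 H) c) ∧
    (∀ n (c : Ch k (n + 1) X), bd k (T (n + 1) c) + T n (bd k c) =
      push k (R251.Pr.end1 H) c - push k (R251.Pr.end0 H) c) ∧
    ∀ n (U : Set X) (c : Ch k n X), c ∈ (On U).ch k n → T n c ∈ (On (H '' U ×ˢ univ)).ch k (n + 1)

/-- (88) cells are acyclic -/
def CellS : Prop := ∀ (k : Type) [CommRing k] (X : Type) [TopologicalSpace X] (d : ℕ)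
  (j : C(EE d, X)), IsEmbedding j → Acy k (range j) (range j)

/-- (88) local cohomology along a ball of a cell -/
def LocS : Prop := ∀ (k : Type) [CommRing k] (X : Type) [TopologicalSpace X] [T2Space X] (d : ℕ)
  (j : C(EE (d + 1), X)), IsOpenEmbedding j → ∀ c : EE (d + 1),
    (∀ i, i ≠ d → ∀ R : ℝ, 0 ≤ R → ∀ φ : Co k (i + 1) X, cob k φ = 0 →
      φ ∈ (On (j '' Metric.closedBall c R)ᶜ).van k k (i + 1) →
      ∃ ψ ∈ (On (j '' Metric.closedBall c R)ᶜ).van k k i, cob k ψ = φ) ∧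
    ∃ φ₀ ∈ (On {j c}ᶜ).van k k (d + 1), cob k φ₀ = 0 ∧ ∀ R : ℝ, 0 ≤ R → ∀ φ : Co k (d + 1) X,
      cob k φ = 0 → φ ∈ (On (j '' Metric.closedBall c R)ᶜ).van k k (d + 1) →
      ∃ t : k, ∃ ψ ∈ (On (j '' Metric.closedBall c R)ᶜ).van k k d, φ = t • φ₀ + cob k ψ

/-- (46) induction over the open sets of a manifold -/
def OpenIndS : Prop := ∀ (d : ℕ) (X : Type) [TopologicalSpace X] [ChartedSpace (EE d) X]
  (P : Set X → Prop), P ∅ → (∀ j : C(EE d, X), IsOpenEmbedding j → P (range j)) →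
  (∀ U V, IsOpen U → IsOpen V → P U → P V → P (U ∩ V) → P (U ∪ V)) →
  (∀ 𝒰 : Set (Set X), 𝒰.Nonempty → (∀ U ∈ 𝒰, IsOpen U ∧ P U) → DirectedOn (· ⊆ ·) 𝒰 → P (⋃₀ 𝒰)) →
  ∀ U, IsOpen U → P U

/-- (46) no compactly supported cohomology above the dimension -/
def VanS : Prop := ∀ (k : Type) [CommRing k] (d : ℕ) (X : Type) [TopologicalSpace X] [T2Space X]
  [ChartedSpace (EE (d + 1)) X] (U : Set X), IsOpen U → ∀ i, d < i → ∀ φ ∈ Cc k U k (i + 1),
    cob k φ = 0 → ∃ ψ ∈ Cc k U k i, cob k ψ = φ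

/-- (46) a non zero family on a connected manifold has non zero local degrees -/
def NdS : Prop := ∀ (k : Type) [Field k] (d : ℕ) (X : Type) [TopologicalSpace X] [T2Space X]
  [ChartedSpace (EE (d + 1)) X] [PreconnectedSpace X] (O : Ori k d X) (K : Set X)
  (φ : Co k (d + 1) X), IsCompact K → φ ∈ (On Kᶜ).van k k (d + 1) → cob k φ = 0 →
    ev k φ (O.μ K) ≠ 0 → O.ND

/-- (72) **Poincaré duality for every open set** -/
def PdS : Prop := ∀ (k : Type) [Field k] (d : ℕ) (X : Type) [TopologicalSpace X] [T2Space X]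
  [ChartedSpace (EE (d + 1)) X] (O : Ori k d X), O.ND →
  ∀ D : ∀ {n : ℕ} (j : ℕ) {i : ℕ}, Co k i X → Ch k n X →ₗ[k] Ch k j X, CapLike k X D →
  ∀ U : Set X, IsOpen U →
    (∀ i j, i + j = d + 1 → ∀ c ∈ (On U).ch k j, c ∈ cyc k X j →
      ∃ φ ∈ Cc k U k i, cob k φ = 0 ∧ O.Du D U φ c) ∧
    ∀ i, ∀ φ ∈ Cc k U k (i + 1), cob k φ = 0 →
      (∀ j, i + 1 + j = d + 1 → O.Du D U φ (0 : Ch k j X)) → ∃ ψ ∈ Cc k U k i, cob k ψ = φ

/-- (46) detection, both orders of the cup product: (a) a cochain which is closed on `U` and pairs to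
zero with all compactly supported cocycles is exact on `U`; (b) a cocycle supported in `K ⊆ U` which pairs
to zero with all cochains closed on `U` is the coboundary of a cochain with compact support in `U` -/
def DetS : Prop := ∀ (k : Type) [Field k] (d : ℕ) (X : Type) [TopologicalSpace X] [T2Space X]
  [ChartedSpace (EE (d + 1)) X] (O : Ori k d X), O.ND → ∀ U : Set X, IsOpen U →
  ∀ pr : ∀ {i j : ℕ}, Co k i X → Co k j X → Co k (d + 1) X,
    ((∀ i j (φ : Co k i X) (b : Co k j X), pr φ b = cup (LinearMap.mul k k) (d + 1) φ b) ∨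
      ∀ i j (φ : Co k i X) (b : Co k j X), pr φ b = cup (LinearMap.mul k k) (d + 1) b φ) →
    (∀ i j, i + j = d + 1 → ∀ b ∈ (On U).Z k k j,
      (∀ K (φ : Co k i X) z, IsCompact K → K ⊆ U → φ ∈ (On Kᶜ).van k k i → cob k φ = 0 →
        z ∈ (On U).ch k (d + 1) → O.Fund K z → ev k (pr φ b) z = 0) → b ∈ (On U).Ex k k j) ∧
    ∀ i j, i + 1 + j = d + 1 → ∀ K (φ : Co k (i + 1) X) z, IsCompact K → K ⊆ U →
      φ ∈ (On Kᶜ).van k k (i + 1) → cob k φ = 0 → z ∈ (On U).ch k (d + 1) → O.Fund K z →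
      (∀ b ∈ (On U).Z k k j, ev k (pr φ b) z = 0) → ∃ ψ ∈ Cc k U k i, cob k ψ = φ

/-- (89) **Wilder finiteness** -/
def WilderS : Prop := ∀ (k : Type) [Field k] (d : ℕ) (X : Type) [TopologicalSpace X] [T2Space X]
  [ChartedSpace (EE d) X] (K U : Set X), IsCompact K → IsOpen U → K ⊆ U → ∀ n,
    (∃ s : Finset (Ch k n X), (∀ c ∈ s, c ∈ (On K).ch k n ⊓ cyc k X n) ∧
      (On K).ch k n ⊓ cyc k X n ≤ Submodule.span k (s : Set (Ch k n X)) ⊔ (On U).B k n) ∧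
    ∃ s : Finset (Co k n X), (∀ φ ∈ s, φ ∈ (On U).Z k k n) ∧
      (On U).Z k k n ≤ Submodule.span k (s : Set (Co k n X)) ⊔ (On K).Ex k k n

/-- (89) uniform fillings in an acyclic manifold -/
def UnifS : Prop := ∀ (k : Type) [Field k] (d : ℕ) (X : Type) [TopologicalSpace X] [T2Space X]
  [ChartedSpace (EE d) X], Acy k (univ : Set X) univ → ∀ K : Set X, IsCompact K → ∀ n,
    ∃ K' : Set X, IsCompact K' ∧ (On K).ch k n ⊓ rcyc k X n ≤ (On K').B k n

/-- (58) weakly contractible spaces are acyclic -/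
def WcS : Prop := ∀ (k : Type) [CommRing k] (X : Type) [TopologicalSpace X] [PathConnectedSpace X],
  (∀ n : ℕ, 1 ≤ n → ∀ x : X, Subsingleton (HomotopyGroup (Fin n) X x)) → Acy k (univ : Set X) univ

end Crest.Agent.N255.Tp

end
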