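import Crest.Agent.N255.Tp.ProMv

/-!
# Row 255, block D (helper88): pro-acyclic unions over non evasive sets of labels
-/

set_option autoImplicit false
open Set Filter Topology

noncomputable section

namespace Crest.Agent.N255.Tp

variable {X : Type} [TopologicalSpace X] {k : Type} [CommRing k] {κ : Type} [Preorder κ]
  {J I : Type} {C : J → Finset I → Prop} {B : J → I → κ → Set X}

open Classical in
/-- `P` is a class of finite sets with tree certificates -/
def Peel (R : I → I → Prop) (P : Finset I → Prop) : Prop :=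
  ∀ t, P t → (∃ a, t = {a}) ∨ ∃ v ∈ t, P (t.erase v) ∧ P ((t.erase v).filter (R v))

open Classical in
/-- every clique of `t` spans, together with `s`, an allowed set -/
def OkL (R : I → I → Prop) (C : J → Finset I → Prop) (j : J) (s t : Finset I) : Prop :=
  ∀ u ⊆ t, u.Nonempty → (∀ a ∈ u, ∀ b ∈ u, R a b) → C j (s ∪ u)

open Classical in
/-- **pro-nerve over a non evasive set** -/
theorem PAc.of_peel [IsDirectedOrder κ] {R : I → I → Prop} {P : Finset I → Prop}
    (hr : ∀ a, R a a) (hs : ∀ a b, R a b → R b a) (hP : Peel R P)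
    (o : OSys fun p : J × I => B p.1 p.2)
    (hd : ∀ j a b x, ¬ R a b → Disjoint (B j a x) (B j b x))
    (h : PAc k fun (p : {p : J × Finset I // C p.1 p.2}) x => ⋂ i ∈ p.1.2, B p.1.1 i x) (m : ℕ) :
    PAc k fun (p : {p : J × Finset I × Finset I //
      P p.2.2 ∧ p.2.2.card ≤ m ∧ OkL R C p.1 p.2.1 p.2.2}) x =>
      (⋂ i ∈ p.1.2.1, B p.1.1 i x) ∩ ⋃ i ∈ p.1.2.2, B p.1.1 i x := by
  have hne : ∀ t, P t → t.Nonempty := fun t ht => by
    rcases hP t ht with ⟨a, rfl⟩ | ⟨v, hv, -⟩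
    exacts [Finset.singleton_nonempty a, ⟨v, hv⟩]
  have one : ∀ {j s t v}, OkL R C j s t → v ∈ t → C j (s ∪ {v}) := fun {j s t v} h hv =>
    h {v} (by simpa using hv) (by simp) (by simpa using hr v)
  induction m with
  | zero =>
    have he : IsEmpty {p : J × Finset I × Finset I //
        P p.2.2 ∧ p.2.2.card ≤ 0 ∧ OkL R C p.1 p.2.1 p.2.2} :=
      ⟨fun p => absurd (hne _ p.2.1).card_pos (not_lt.2 p.2.2.1)⟩
    exact ⟨fun p => he.elim p, fun x => ⟨x, le_rfl, fun p => he.elim p⟩⟩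
  | succ m ih =>
    -- the sets with one element
    have h1 : PAc k fun (p : {p : J × Finset I × I // C p.1 (p.2.1 ∪ {p.2.2})}) x =>
        (⋂ i ∈ p.1.2.1, B p.1.1 i x) ∩ B p.1.1 p.1.2.2 x :=
      (h.comp fun p => ⟨(p.1.1, p.1.2.1 ∪ {p.1.2.2}), p.2⟩).congr fun p x => by
        ext y; simp [and_comm]
    have o1 : OSys fun (p : {p : J × Finset I × I // C p.1 (p.2.1 ∪ {p.2.2})}) x =>
        (⋂ i ∈ p.1.2.1, B p.1.1 i x) ∩ B p.1.1 p.1.2.2 x :=
      (o.biInter _ _).inter (o.comp fun p : {p : J × Finset I × I // C p.1 (p.2.1 ∪ {p.2.2})} =>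
        (p.1.1, p.1.2.2))
    -- the sets which can be peeled
    have h2 : PAc k fun (p : {p : J × Finset I × Finset I × I // p.2.2.2 ∈ p.2.2.1 ∧
        P (p.2.2.1.erase p.2.2.2) ∧ P ((p.2.2.1.erase p.2.2.2).filter (R p.2.2.2)) ∧
        p.2.2.1.card ≤ m + 1 ∧ OkL R C p.1 p.2.1 p.2.2.1}) x =>
        (⋂ i ∈ p.1.2.1, B p.1.1 i x) ∩ ⋃ i ∈ p.1.2.2.1, B p.1.1 i x := by
      refine (PAc.union ((o.biInter _ _).inter (o.biUnion _ _)) (o1.comp _)
        (ih.comp fun p => ⟨(p.1.1, p.1.2.1, p.1.2.2.1.erase p.1.2.2.2), p.2.2.1, ?_,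
          fun u hu => p.2.2.2.2.2 u (hu.trans (Finset.erase_subset _ _))⟩)
        (h1.comp fun p => ⟨(p.1.1, p.1.2.1, p.1.2.2.2), one p.2.2.2.2.2 p.2.1⟩)
        ((ih.comp fun p => ⟨(p.1.1, p.1.2.1 ∪ {p.1.2.2.2},
          (p.1.2.2.1.erase p.1.2.2.2).filter (R p.1.2.2.2)), p.2.2.2.1, ?_, ?_⟩).congr ?_)).congr ?_
      · have := Finset.card_erase_of_mem p.2.1
        have := p.2.2.2.2.1
        dsimp only
        omega
      · have := Finset.card_erase_of_mem p.2.1
        have := p.2.2.2.2.1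
        have := Finset.card_filter_le (p.1.2.2.1.erase p.1.2.2.2) (R p.1.2.2.2)
        dsimp only
        omega
      · obtain ⟨⟨j, s, t, v⟩, hv, -, -, -, hk⟩ := p
        intro u hu _ hc
        dsimp only at *
        rw [Finset.union_assoc]
        refine hk _ (Finset.union_subset (by simpa using hv) fun a ha =>
          Finset.mem_of_mem_erase (Finset.mem_filter.1 (hu ha)).1) (by simp) fun a ha b hb => ?_
        rcases Finset.mem_union.1 ha with ha | ha <;> rcases Finset.mem_union.1 hb with hb | hb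
        · rw [Finset.mem_singleton.1 ha, Finset.mem_singleton.1 hb]; exact hr v
        · rw [Finset.mem_singleton.1 ha]; exact (Finset.mem_filter.1 (hu hb)).2
        · rw [Finset.mem_singleton.1 hb]; exact hs _ _ (Finset.mem_filter.1 (hu ha)).2
        · exact hc a ha b hb
      · rintro ⟨⟨j, s, t, v⟩, hp⟩ x
        ext y
        simp only [mem_inter_iff, mem_iInter, mem_iUnion, Finset.mem_union, Finset.mem_singleton,
          Finset.mem_filter]
        constructor
        · rintro ⟨⟨h3, i, hi, h4⟩, -, h5⟩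
          refine ⟨?_, i, ⟨hi, by_contra fun hn => disjoint_left.1 (hd j v i x hn) h5 h4⟩, h4⟩
          rintro a (ha | rfl)
          exacts [h3 a ha, h5]
        · rintro ⟨h3, i, hi, h4⟩
          exact ⟨⟨fun a ha => h3 a (Or.inl ha), i, hi.1, h4⟩, fun a ha => h3 a (Or.inl ha),
            h3 v (Or.inr rfl)⟩
      · rintro ⟨⟨j, s, t, v⟩, hv, hp⟩ x
        have hv' : v ∈ t := hv
        dsimp only
        conv_lhs => rw [← Finset.insert_erase hv']
        rw [Finset.set_biUnion_insert, inter_union_distrib_left, union_comm]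
    have o2 : OSys fun (p : {p : J × Finset I × Finset I × I // p.2.2.2 ∈ p.2.2.1 ∧
        P (p.2.2.1.erase p.2.2.2) ∧ P ((p.2.2.1.erase p.2.2.2).filter (R p.2.2.2)) ∧
        p.2.2.1.card ≤ m + 1 ∧ OkL R C p.1 p.2.1 p.2.2.1}) x =>
        (⋂ i ∈ p.1.2.1, B p.1.1 i x) ∩ ⋃ i ∈ p.1.2.2.1, B p.1.1 i x :=
      (o.biInter _ _).inter (o.biUnion _ _)
    refine ⟨?_, fun x => ?_⟩
    · rintro ⟨⟨j, s, t⟩, ht, hc, hk⟩ x
      rcases hP t ht with ⟨a, rfl⟩ | ⟨v, hv, p1, p2⟩
      · simpa using h1.ne ⟨(j, s, a), one hk (by simp)⟩ x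
      · exact h2.ne ⟨(j, s, t, v), hv, p1, p2, hc, hk⟩ x
    · obtain ⟨y, hy, a1, a2⟩ := PAc.both o1 o2 h1 h2 x
      refine ⟨y, hy, ?_⟩
      rintro ⟨⟨j, s, t⟩, ht, hc, hk⟩
      rcases hP t ht with ⟨a, rfl⟩ | ⟨v, hv, p1, p2⟩
      · simpa using a1 ⟨(j, s, a), one hk (by simp)⟩
      · exact a2 ⟨(j, s, t, v), hv, p1, p2, hc, hk⟩

end Crest.Agent.N255.Tp

end
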