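import Crest.Agent.N255.Tp.Kt

/-!
# Row 255, block D (helper83): the K-trick relative to a far set, Mayer–Vietoris for families
-/

set_option autoImplicit false
open Set Filter Topology

noncomputable section

namespace Crest.Agent.N255.Tp

open Wi (FR)

variable {X : Type} [TopologicalSpace X] {n : ℕ} {k : Type} [Field k]

/-- relative universal coefficients, finite rank form, arbitrary families -/
theorem fr_dual_rel {P Q P' Q' : Sb X}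
    (h : FR (P.ch k (n + 1) ⊓ (Q.ch k n).comap (bd k)) (P'.B k (n + 1) ⊔ Q'.ch k (n + 1))) :
    FR (P'.Z k k (n + 1) ⊓ Q'.van k k (n + 1))
      ((Q.van k k n).map (cob k) ⊔ P.van k k (n + 1)) := by
  refine h.pairing (Wi.evL k (n + 1) X) ?_ ?_
  · rintro u ⟨h1, h2⟩ c hc
    obtain ⟨a, ha, b, hb, rfl⟩ := Submodule.mem_sup.1 hc
    change ev k u (a + b) = 0
    rw [map_add, Sb.ev_B h1 ha, Sb.ev_eq_zero h2 hb, add_zero]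
  · intro u _ h
    obtain ⟨ψ, h1, h2⟩ := (uctS_holds k X n).2 k P Q u fun c hc h0 => h c ⟨hc, h0⟩
    exact Submodule.mem_sup.2 ⟨cob k ψ, ⟨ψ, h1, rfl⟩, _, h2, by abel⟩

namespace KF

variable {𝒱 𝒲 : Set (Set X)} {N Fa : Set X} (h : KF 𝒱 𝒲) (hF : IsOpen Fa) (hN : N ⊆ ⋃₀ 𝒱 ∪ Fa)
include h hF hN

theorem split_one : (Kt 𝒱 𝒲 N).ch k 1 ≤ (Kt 𝒱 𝒲 (N ∩ ⋃₀ 𝒱)).ch k 1 ⊔
    ((Kt 𝒱 𝒲 (N ∩ Fa)).ch k 1 ⊔ (On N).B k 1) := by
  have ho : ∀ U ∈ insert Fa 𝒱, IsOpen U := by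
    rintro U (rfl | hU)
    exacts [hF, h.op U hU]
  have hc : N ⊆ ⋃₀ insert Fa 𝒱 := by rw [sUnion_insert, union_comm]; exact hN
  have e2 : ∀ e : Sx 1 X, range e ⊆ N → sg k e ∈ (Kt 𝒱 𝒲 (N ∩ ⋃₀ 𝒱)).ch k 1 ⊔
      ((Kt 𝒱 𝒲 (N ∩ Fa)).ch k 1 ⊔ (On N).B k 1) := fun e he => by
    have h1 := Sml.rho_inf k ho hc (Sb.sg_mem (P := On N) he)
    have h2 := Sb.map_mem (P := (On N).inf (Sm (insert Fa 𝒱))) LinearMap.id
      ((Kt 𝒱 𝒲 (N ∩ ⋃₀ 𝒱)).ch k 1 ⊔ ((Kt 𝒱 𝒲 (N ∩ Fa)).ch k 1 ⊔ (On N).B k 1))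
      (by
        rintro f ⟨hf, V, rfl | hV, hf'⟩
        · exact Submodule.mem_sup_right (Submodule.mem_sup_left
            (Sb.sg_mem (Or.inl (subset_inter hf hf'))))
        · exact Submodule.mem_sup_left
            (Sb.sg_mem (Or.inl (subset_inter hf (hf'.trans (subset_sUnion_of_mem hV)))))) h1
    have h3 := Sb.bd_mem_B (Sml.DD_mem k (insert Fa 𝒱) N (Sb.sg_mem (P := On N) he))
    have h4 := Submodule.add_mem _ h2 (Submodule.mem_sup_right (Submodule.mem_sup_right h3))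
    rwa [LinearMap.id_apply, Sml.rho_succ, Sml.DD_zero, sub_zero, sub_add_cancel] at h4
  intro c hc
  refine Sb.map_mem LinearMap.id _ (fun e he => ?_) hc
  rcases he with he | ⟨a, -, b⟩
  · exact e2 e he
  · have b1 := b id
    rw [sub_id] at b1
    rcases b1 with b1 | ⟨V, hV, b1⟩
    · exact e2 e b1
    · exact Submodule.mem_sup_left
        (Sb.sg_mem (h.ed_mem hV ⟨b1, fun t => ⟨a t, V, hV, vx_mem b1 t⟩⟩))

/-- **K-trick relative to the far set**: `H_1 (Kt N, Kt (N ∩ Fa))` is finite dimensional -/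
theorem fr_one_rel : FR ((Kt 𝒱 𝒲 N).ch k 1 ⊓ ((On (N ∩ Fa)).ch k 0).comap (bd k))
    ((Kt 𝒱 𝒲 N).B k 1 ⊔ (Kt 𝒱 𝒲 (N ∩ Fa)).ch k 1) := by
  have m1 : (Kt 𝒱 𝒲 (N ∩ ⋃₀ 𝒱)).Le (Kt 𝒱 𝒲 N) := Kt_mono inter_subset_left
  have m2 : (Kt 𝒱 𝒲 (N ∩ ⋃₀ 𝒱 ∩ Fa)).Le (Kt 𝒱 𝒲 (N ∩ Fa)) :=
    Kt_mono (inter_subset_inter_left _ inter_subset_left)
  have m3 : (Kt 𝒱 𝒲 (N ∩ ⋃₀ 𝒱 ∩ Fa)).Le (Kt 𝒱 𝒲 (N ∩ ⋃₀ 𝒱)) := Kt_mono inter_subset_left
  have z0 : ∀ A : Set X, (Kt 𝒱 𝒲 A).ch k 0 = (On A).ch k 0 := fun A => by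
    unfold Sb.ch; rw [Kt_zero]
  have h0 := h.fr_zero (k := k) (N := N ∩ ⋃₀ 𝒱 ∩ Fa) (inter_subset_left.trans inter_subset_right)
  have h1 := h.fr_one (k := k) (N := N ∩ ⋃₀ 𝒱) inter_subset_right
  have h2 : FR (((Kt 𝒱 𝒲 (N ∩ ⋃₀ 𝒱)).ch k 1 ⊓ ((On (N ∩ Fa)).ch k 0).comap (bd k)).map (bd k))
      ((Kt 𝒱 𝒲 (N ∩ ⋃₀ 𝒱 ∩ Fa)).B k 0) := h0.mono (by
    rintro _ ⟨c, ⟨a, b⟩, rfl⟩
    refine ⟨?_, trivial⟩
    have a' := Sb.bd_mem a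
    rw [z0] at a'
    rw [z0, show N ∩ ⋃₀ 𝒱 ∩ Fa = N ∩ ⋃₀ 𝒱 ∩ (N ∩ Fa) by ext; simp; tauto, ch_inter]
    exact ⟨a', b⟩) le_rfl
  have h3 : FR ((Kt 𝒱 𝒲 (N ∩ ⋃₀ 𝒱)).ch k 1 ⊓ ((On (N ∩ Fa)).ch k 0).comap (bd k))
      ((Kt 𝒱 𝒲 N).B k 1 ⊔ (Kt 𝒱 𝒲 (N ∩ Fa)).ch k 1) := by
    refine (h2.comap _).trans (((h1.mono le_rfl ((Sb.B_mono m1).trans le_sup_left)).sup
      (Wi.FR.of_le le_sup_right)).mono ?_ le_rfl)
    rintro c ⟨⟨a, -⟩, q, hq, e⟩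
    rw [show c = c - q + q by abel]
    exact Submodule.add_mem_sup ⟨Submodule.sub_mem _ a (Sb.ch_mono m3 hq), by
      change bd k _ = 0
      rw [map_sub, e, sub_self]⟩ (Sb.ch_mono m2 hq)
  refine (h3.sup (Wi.FR.of_le le_rfl)).mono ?_ le_rfl
  rintro c ⟨a, b⟩
  obtain ⟨c0, hc0, _, hr, rfl⟩ := Submodule.mem_sup.1 (h.split_one hF hN a)
  obtain ⟨q, hq, w, hw, rfl⟩ := Submodule.mem_sup.1 hr
  refine Submodule.add_mem_sup ⟨hc0, ?_⟩ (by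
    rw [add_comm]; exact Submodule.add_mem_sup (Sb.B_mono On_le_Kt hw) hq)
  have b' : bd k (c0 + (q + w)) ∈ (On (N ∩ Fa)).ch k 0 := b
  have hw0 : bd k w = 0 := Sb.B_le_cyc hw
  have hq' := Sb.bd_mem hq
  rw [z0] at hq'
  rw [map_add, map_add, hw0, add_zero] at b'
  simpa using Submodule.sub_mem _ b' hq'

/-- `H^1 (Kt N, Kt (N ∩ Fa))` is finite dimensional -/
theorem fr_co_one_rel : FR ((Kt 𝒱 𝒲 N).Z k k 1 ⊓ (Kt 𝒱 𝒲 (N ∩ Fa)).van k k 1)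
    (((On (N ∩ Fa)).van k k 0).map (cob k) ⊔ (Kt 𝒱 𝒲 N).van k k 1) :=
  fr_dual_rel (h.fr_one_rel hF hN)

end KF

section mv

variable {k : Type} [CommRing k] {A : Type} [AddCommGroup A] [Module k A] {P Q F : Sb X}

/-- Mayer–Vietoris for families, relative to `F`: the connecting cochain -/
theorem mv_conn {φ : Co A n X} (h : φ ∈ (P.inf Q).Z k A n) (hF : φ ∈ F.van k A n) :
    P.res (cob k φ) ∈ (P.sup Q).Z k A (n + 1) ∧ P.res (cob k φ) ∈ F.van k A (n + 1) := by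
  refine ⟨?_, fun σ hσ => ?_⟩
  · rw [Sb.mem_Z, Sb.van_sup]
    refine ⟨?_, Sb.cob_mem (Sb.res_mem h)⟩
    have := Sb.cob_mem (P.sub_res (k := k) (cob k φ))
    rw [map_sub, cob_cob, zero_sub] at this
    simpa using Submodule.neg_mem _ this
  · by_cases hP : σ ∈ P.S (n + 1)
    · rw [Sb.res_of_mem _ hP]; exact Sb.cob_mem hF σ hσ
    · exact Sb.res_of_notMem _ hP

/-- exactness at the intersection -/
theorem mv_inf {φ η : Co A n X} (h : φ ∈ (P.inf Q).Z k A n)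
    (e : P.res (cob k φ) - cob k η ∈ (P.sup Q).van k A (n + 1)) :
    φ - η ∈ P.Z k A n ∧ η ∈ Q.Z k A n := by
  rw [Sb.van_sup] at e
  refine ⟨?_, ?_⟩
  · have := Submodule.add_mem _ (P.sub_res (k := k) (cob k φ)) e.1
    rwa [sub_add_sub_cancel, ← map_sub] at this
  · have := Submodule.sub_mem _ (Sb.res_mem h) e.2
    rwa [sub_sub_cancel] at this

/-- gluing of two cochains which agree on the intersection -/
theorem mv_glue {a b : Co A n X} (h : a - b ∈ (P.inf Q).van k A n) :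
    ∃ c : Co A n X, c - a ∈ P.van k A n ∧ c - b ∈ Q.van k A n ∧
      ∀ F : Sb X, a ∈ F.van k A n → b ∈ F.van k A n → c ∈ F.van k A n := by
  refine ⟨b + P.res (a - b), ?_, by simpa using Sb.res_mem h, fun F ha hb σ hσ => ?_⟩
  · have := Submodule.neg_mem _ (P.sub_res (k := k) (a - b))
    rwa [show -(a - b - P.res (a - b)) = b + P.res (a - b) - a by abel] at this
  · by_cases hP : σ ∈ P.S n
    · simp [Sb.res_of_mem _ hP, ha σ hσ]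
    · simp [Sb.res_of_notMem _ hP, hb σ hσ]

end mv

end Crest.Agent.N255.Tp

end
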