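import Crest.Agent.N255.Tp.CapD
import Crest.Agent.N255.Tp.KtR

/-!
# Row 255, block D (helper83): cochains with compact support in `X`, restricted to open sets

`ZP k U A i` cocycles on `U`, `BP k U A i` coboundaries on `U`, both with compact support in `X`.
Mayer–Vietoris is exact as soon as `H_c(X) = 0` in the relevant degrees (`Hc0`).
-/

set_option autoImplicit false
open Set Filter Topology

noncomputable section

namespace Crest.Agent.N255.Tp

open Wi (FR)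

variable {X : Type} [TopologicalSpace X] {n i : ℕ} {U V L R : Set X}

section ring

variable (k : Type) [CommRing k] {A : Type} [AddCommGroup A] [Module k A]

/-- extension from small simplices -/
def exs (𝒰 : Set (Set X)) (θ : Co A n X) : Co A n X := fun σ => ev k θ (Sml.rho k 𝒰 n (sg k σ))

variable {k} {𝒰 : Set (Set X)} {θ : Co A n X}

theorem ev_exs (c : Ch k n X) : ev k (exs k 𝒰 θ) c = ev k θ (Sml.rho k 𝒰 n c) :=
  (map_eq_ev ((ev k θ).comp (Sml.rho k 𝒰 n)) c).symm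

theorem cob_exs : cob k (exs k 𝒰 θ) = exs k 𝒰 (cob k θ) := funext fun σ => by
  rw [← ev_sg (k := k) (cob k _), ← ev_bd, ev_exs, ← Sml.bd_rho, ev_bd]; rfl

theorem exs_sub : exs k 𝒰 θ - θ ∈ (Sm 𝒰).van k A n := fun σ hσ => by
  rw [Pi.sub_apply, exs, Sml.rho_of_sm k 𝒰 (Sb.sg_mem hσ), ev_sg, sub_self]

theorem exs_van {T : Set X} (h : θ ∈ (On T).van k A n) : exs k 𝒰 θ ∈ (On T).van k A n :=
  fun _ hσ => Sb.ev_eq_zero h (Sml.rho_mem k 𝒰 T (Sb.sg_mem hσ))

theorem exs_Cc (h : θ ∈ Cc k U A n) : exs k 𝒰 θ ∈ Cc k U A n :=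
  let ⟨K, a, b, c⟩ := h; ⟨K, a, b, exs_van c⟩

theorem exs_van_of_sm (hU : ∀ U ∈ 𝒰, IsOpen U) {W : Set X} (hW : W ⊆ ⋃₀ 𝒰)
    (h : θ ∈ ((On W).inf (Sm 𝒰)).van k A n) : exs k 𝒰 θ ∈ (On W).van k A n :=
  fun _ hσ => Sb.ev_eq_zero h (Sml.rho_inf k hU hW (Sb.sg_mem hσ))

theorem exs_Z (hU : ∀ U ∈ 𝒰, IsOpen U) {W : Set X} (hW : W ⊆ ⋃₀ 𝒰)
    (h : θ ∈ ((On W).inf (Sm 𝒰)).Z k A n) : exs k 𝒰 θ ∈ (On W).Z k A n := by
  rw [Sb.mem_Z, cob_exs]; exact exs_van_of_sm hU hW h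

variable (k)

/-- cocycles on `U` with compact support in `X` -/
def ZP (U : Set X) (A : Type) [AddCommGroup A] [Module k A] (n : ℕ) : Submodule k (Co A n X) :=
  Cc k univ A n ⊓ (On U).Z k A n

/-- coboundaries on `U` of cochains with compact support in `X` -/
def BP (U : Set X) (A : Type) [AddCommGroup A] [Module k A] : ∀ n, Submodule k (Co A n X)
  | 0 => (On U).van k A 0
  | n + 1 => (Cc k univ A n).map (cob k) ⊔ (On U).van k A (n + 1)

/-- vanishing of `H_c^n (X; A)` -/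
def Hc0 (X : Type) [TopologicalSpace X] (A : Type) [AddCommGroup A] [Module k A] (n : ℕ) : Prop :=
  ZP k (univ : Set X) A n ≤ BP k univ A n

variable {k}

theorem mem_BP {φ : Co A (n + 1) X} :
    φ ∈ BP k U A (n + 1) ↔ ∃ η ∈ Cc k univ A n, φ - cob k η ∈ (On U).van k A (n + 1) :=
  ⟨fun h => by
    obtain ⟨_, ⟨η, a, rfl⟩, b, hb, rfl⟩ := Submodule.mem_sup.1 h
    exact ⟨η, a, by simpa using hb⟩,
  fun ⟨η, a, b⟩ => Submodule.mem_sup.2 ⟨_, ⟨η, a, rfl⟩, _, b, by abel⟩⟩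

theorem ZP_mono (h : U ⊆ V) : ZP k V A n ≤ ZP k U A n := inf_le_inf_left _ (Sb.Z_mono (On_le h))

theorem BP_mono (h : U ⊆ V) : ∀ {n}, BP k V A n ≤ BP k U A n
  | 0 => van_mono h
  | _ + 1 => sup_le_sup_left (van_mono h) _

theorem van_le_BP : ∀ {n}, (On U).van k A n ≤ BP k U A n
  | 0 => le_rfl
  | _ + 1 => le_sup_right

theorem cob_mem_BP {η : Co A n X} (h : η ∈ Cc k univ A n) : cob k η ∈ BP k U A (n + 1) :=
  Submodule.mem_sup_left ⟨η, h, rfl⟩

theorem BP_le_Z : ∀ {n}, BP k U A n ≤ (On U).Z k A n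
  | 0 => Sb.van_le_Z
  | _ + 1 => sup_le (by
      rintro _ ⟨η, -, rfl⟩
      rw [Sb.mem_Z, cob_cob]; exact Submodule.zero_mem _) Sb.van_le_Z

theorem BP_le_Ex : ∀ {n}, BP k U A n ≤ (On U).Ex k A n
  | 0 => le_rfl
  | _ + 1 => sup_le_sup_right (LinearMap.map_le_range) _

theorem Hc0.exists (h : Hc0 k X A (n + 1)) {φ : Co A (n + 1) X} (h1 : φ ∈ Cc k univ A (n + 1))
    (h2 : cob k φ = 0) : ∃ η ∈ Cc k univ A n, cob k η = φ := by
  obtain ⟨η, a, b⟩ := mem_BP.1 (h ⟨h1, Sb.mem_Z.2 (h2 ▸ Submodule.zero_mem _)⟩)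
  exact ⟨η, a, (sub_eq_zero.1 (eq_zero_of_van_univ b)).symm⟩

theorem hc0_of (h : ∀ φ ∈ Cc k (univ : Set X) A (n + 1), cob k φ = 0 →
    ∃ η ∈ Cc k univ A n, cob k η = φ) : Hc0 k X A (n + 1) := fun φ hφ => by
  obtain ⟨η, a, rfl⟩ := h φ hφ.1 (eq_zero_of_van_univ (Sb.mem_Z.1 hφ.2))
  exact cob_mem_BP a

theorem res_Cc (P : Sb X) {φ : Co A n X} (h : φ ∈ Cc k U A n) : P.res φ ∈ Cc k U A n :=
  let ⟨K, a, b, c⟩ := h; ⟨K, a, b, Sb.res_mem (Sb.van_mono Sb.inf_le_right c)⟩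

/-- supports bounded away from the far set are compact supports on a window -/
theorem res_Cc_of_far {Fa K : Set X} (hK : IsCompact K) (hV : V ⊆ K ∪ Fa) {φ : Co A n X}
    (h : φ ∈ (On (V ∩ Fa)).van k A n) : (On V).res φ ∈ Cc k univ A n :=
  ⟨K, hK, subset_univ _, Sb.res_mem fun σ hσ => h σ (subset_inter hσ.1 fun _ hx =>
    (hV (hσ.1 hx)).resolve_left (hσ.2 hx))⟩

variable (hL : IsOpen L) (hR : IsOpen R)
include hL hR

/-- gluing of cocycles -/
theorem mv_mid {a b : Co A n X} (ha : a ∈ ZP k L A n) (hb : b ∈ ZP k R A n)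
    (h : a - b ∈ (On (L ∩ R)).van k A n) :
    ∃ c ∈ ZP k (L ∪ R) A n, c - a ∈ (On L).van k A n ∧ c - b ∈ (On R).van k A n := by
  rw [On_inter] at h
  obtain ⟨c, c1, c2, c3⟩ := mv_glue h
  obtain ⟨K, k1, -, k2⟩ := ha.1
  obtain ⟨K', k3, -, k4⟩ := hb.1
  have e := exs_sub (k := k) (𝒰 := {L, R}) (θ := c)
  rw [Sm_pair, Sb.van_sup] at e
  refine ⟨exs k {L, R} c, ⟨exs_Cc ⟨K ∪ K', k1.union k3, subset_univ _,
    c3 _ (van_supp subset_union_left k2) (van_supp subset_union_right k4)⟩,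
    exs_Z (open_pair hL hR) (by simp) (Sb.Z_mono Sb.inf_le_right ?_)⟩,
    by simpa using Submodule.add_mem _ e.1 c1, by simpa using Submodule.add_mem _ e.2 c2⟩
  rw [Sm_pair, Sb.mem_Z, Sb.van_sup]
  exact ⟨by simpa using Submodule.add_mem _ (Sb.cob_mem c1) ha.2,
    by simpa using Submodule.add_mem _ (Sb.cob_mem c2) hb.2⟩

theorem mv_mid' {a b : Co A n X} (ha : a ∈ ZP k L A n) (hb : b ∈ ZP k R A n)
    (h : a - b ∈ BP k (L ∩ R) A n) :
    ∃ c ∈ ZP k (L ∪ R) A n, c - a ∈ BP k L A n ∧ c - b ∈ (On R).van k A n := by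
  cases n with
  | zero => exact mv_mid hL hR ha hb h
  | succ n =>
    obtain ⟨e, e1, e2⟩ := mem_BP.1 h
    obtain ⟨c, c1, c2, c3⟩ := mv_mid hL hR (a := a - cob k e) (Submodule.sub_mem _ ha
      ⟨cob_mem_Cc e1, BP_le_Z (cob_mem_BP e1)⟩) hb (by rwa [sub_right_comm])
    refine ⟨c, c1, ?_, c3⟩
    have := Submodule.sub_mem _ (van_le_BP c2) (cob_mem_BP (U := L) e1)
    rwa [show c - (a - cob k e) - cob k e = c - a by abel] at this

/-- the connecting cocycle -/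
theorem mv_delta {φ : Co A n X} (h : φ ∈ ZP k (L ∩ R) A n) :
    ∃ θ ∈ ZP k (L ∪ R) A (n + 1), θ - cob k φ ∈ (On L).van k A (n + 1) ∧
      θ ∈ (On R).van k A (n + 1) := by
  obtain ⟨c, c1, c2, c3⟩ := mv_mid hL hR (a := cob k φ) (b := 0)
    ⟨cob_mem_Cc h.1, BP_le_Z (cob_mem_BP h.1)⟩ (Submodule.zero_mem _)
    (by rw [sub_zero]; exact h.2)
  exact ⟨c, c1, c2, by simpa using c3⟩

/-- exactness at `L ∩ R` -/
theorem mv_split' (hc : ZP k (L ∪ R) A (n + 1) ⊓ BP k L A (n + 1) ⊓ BP k R A (n + 1) ≤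
    BP k (L ∪ R) A (n + 1)) {φ : Co A n X} (h : φ ∈ ZP k (L ∩ R) A n) :
    ∃ b ∈ ZP k R A n, φ - b ∈ ZP k L A n := by
  obtain ⟨θ, a, b, c⟩ := mv_delta hL hR h
  obtain ⟨η, e1, e2⟩ := mem_BP.1 (hc ⟨⟨a, by
    simpa using Submodule.add_mem _ (van_le_BP b) (cob_mem_BP (U := L) h.1)⟩, van_le_BP c⟩)
  refine ⟨η, ⟨e1, ?_⟩, Submodule.sub_mem _ h.1 e1, ?_⟩
  · exact Sb.mem_Z.2 (by simpa using Submodule.sub_mem _ c (van_mono subset_union_right e2))
  · have := Submodule.sub_mem _ (van_mono subset_union_left e2) b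
    rwa [sub_sub_sub_cancel_left, ← map_sub] at this

/-- exactness at `L ∪ R` -/
theorem mv_union (hs : ∀ φ ∈ ZP k (L ∩ R) A n, ∃ b ∈ ZP k R A n, φ - b ∈ ZP k L A n ⊔
    (On (L ∩ R)).van k A n) {c : Co A (n + 1) X} (hc : c ∈ ZP k (L ∪ R) A (n + 1))
    (h1 : c ∈ BP k L A (n + 1)) (h2 : c ∈ BP k R A (n + 1)) : c ∈ BP k (L ∪ R) A (n + 1) := by
  obtain ⟨a, a1, a2⟩ := mem_BP.1 h1
  obtain ⟨b, b1, b2⟩ := mem_BP.1 h2
  obtain ⟨v, v1, v2⟩ := hs (a - b) ⟨Submodule.sub_mem _ a1 b1, by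
    have := Submodule.sub_mem _ (van_mono inter_subset_right b2) (van_mono inter_subset_left a2)
    rwa [sub_sub_sub_cancel_left, ← map_sub] at this⟩
  obtain ⟨u, u1, w, hw, e⟩ := Submodule.mem_sup.1 v2
  have e' : a - u - (b + v) ∈ ((On L).inf (On R)).van k A n := by
    rw [← On_inter, show a - u - (b + v) = w by rw [eq_sub_of_add_eq' e]; abel]; exact hw
  obtain ⟨g, g1, g2, g3⟩ := mv_glue e'
  have hg : g ∈ Cc k univ A n := by
    obtain ⟨K, k1, -, k2⟩ := Submodule.sub_mem _ a1 u1.1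
    obtain ⟨K', k3, -, k4⟩ := Submodule.add_mem _ b1 v1.1
    exact ⟨K ∪ K', k1.union k3, subset_univ _,
      g3 _ (van_supp subset_union_left k2) (van_supp subset_union_right k4)⟩
  have hd : c - cob k g ∈ ((On (L ∪ R)).inf (Sm {L, R})).van k A (n + 1) := by
    refine Sb.van_mono Sb.inf_le_right ?_
    rw [Sm_pair, Sb.van_sup]
    refine ⟨?_, ?_⟩
    · have := Submodule.add_mem _ (Submodule.sub_mem _ a2 (Sb.cob_mem g1)) u1.2
      simp only [map_sub] at this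
      rwa [show c - cob k a - (cob k g - (cob k a - cob k u)) + cob k u = c - cob k g by abel] at this
    · have := Submodule.sub_mem _ (Submodule.sub_mem _ b2 (Sb.cob_mem g2)) v1.2
      simp only [map_sub, map_add] at this
      rwa [show c - cob k b - (cob k g - (cob k b + cob k v)) - cob k v = c - cob k g by abel] at this
  obtain ⟨K, k1, -, k2⟩ := Submodule.sub_mem _ hc.1 (cob_mem_Cc hg)
  obtain ⟨ψ, p1, p2⟩ := smVanS_holds k A X (L ∪ R) {L, R} (open_pair hL hR) (by simp) n _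
    (Submodule.sub_mem _ hc.2 (BP_le_Z (cob_mem_BP hg))) hd
  refine mem_BP.2 ⟨g + ψ, Submodule.add_mem _ hg
    ⟨K, k1, subset_univ _, p2 _ (van_mono inter_subset_left k2)⟩, ?_⟩
  have := Submodule.neg_mem _ p1
  rw [map_add]
  convert this using 1; abel

/-- **Mayer–Vietoris, onto** -/
theorem mv_surj (hu : L ∪ R = univ) (hc : Hc0 k X A (n + 1)) {φ : Co A n X}
    (h : φ ∈ ZP k (L ∩ R) A n) : ∃ b ∈ ZP k R A n, φ - b ∈ ZP k L A n :=
  mv_split' hL hR (by rw [hu]; exact (inf_le_left.trans inf_le_left).trans hc) h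

/-- **Mayer–Vietoris, direct sum** -/
theorem mv_inj (hu : L ∪ R = univ) (hc : Hc0 k X A n) {a b : Co A n X} (ha : a ∈ ZP k L A n)
    (hb : b ∈ ZP k R A n) (h : a - b ∈ BP k (L ∩ R) A n) : a ∈ BP k L A n ∧ b ∈ BP k R A n := by
  obtain ⟨c, c1, c2, c3⟩ := mv_mid' hL hR ha hb h
  rw [hu] at c1
  exact ⟨by simpa using Submodule.sub_mem _ (BP_mono (subset_univ L) (hc c1)) c2,
    by simpa using Submodule.sub_mem _ (BP_mono (subset_univ R) (hc c1)) (van_le_BP c3)⟩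

omit hL hR

section star

variable {ι : Type} {I : ι → Set X} (ho : ∀ e, IsOpen (I e))
  (hI : ∀ e e', e ≠ e' → I e ∪ I e' = univ)
include hI in
theorem star_union {s : Finset ι} {e : ι} (he : e ∉ s) : I e ∪ ⋂ e' ∈ s, I e' = univ :=
  eq_univ_of_forall fun x => (em (x ∈ I e)).imp id fun hx => mem_iInter₂.2 fun e' h' =>
    (show x ∈ I e ∪ I e' from hI e e' (fun h => he (h ▸ h')) ▸ mem_univ x).resolve_left hx

include ho hI

/-- the cocycles of the vertex region are sums of cocycles of the inner sides -/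
theorem star_surj (hc : Hc0 k X A (n + 1)) (s : Finset ι) {φ : Co A n X}
    (h : φ ∈ ZP k (⋂ e ∈ s, I e) A n) :
    ∃ a : ι → Co A n X, (∀ e, a e ∈ ZP k (I e) A n) ∧ φ - ∑ e ∈ s, a e ∈ ZP k univ A n := by
  classical
  induction s using Finset.induction_on generalizing φ with
  | empty => exact ⟨0, fun _ => Submodule.zero_mem _, by simpa using h⟩
  | insert e s he ih =>
    rw [Finset.set_biInter_insert] at h
    obtain ⟨b, b1, b2⟩ := mv_surj (ho e) (isOpen_biInter_finset fun e _ => ho e)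
      (star_union hI he) hc h
    obtain ⟨a, a1, a2⟩ := ih b1
    refine ⟨Function.update a e (φ - b), fun e' => ?_, ?_⟩
    · rcases eq_or_ne e' e with rfl | h'
      · rwa [Function.update_self]
      · rw [Function.update_of_ne h']; exact a1 e'
    · rw [Finset.sum_insert he, Function.update_self, Finset.sum_congr rfl fun e' h' =>
        Function.update_of_ne (fun h : e' = e => he (h ▸ h')) _ a]
      convert a2 using 1; abel

theorem star_inj (hc : Hc0 k X A n) (s : Finset ι) {a : ι → Co A n X}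
    (ha : ∀ e ∈ s, a e ∈ ZP k (I e) A n) (h : ∑ e ∈ s, a e ∈ BP k (⋂ e ∈ s, I e) A n) :
    ∀ e ∈ s, a e ∈ BP k (I e) A n := by
  classical
  induction s using Finset.induction_on with
  | empty => simp
  | insert e s he ih =>
    rw [Finset.set_biInter_insert, Finset.sum_insert he, ← sub_neg_eq_add] at h
    have h1 : ∑ e ∈ s, a e ∈ ZP k (⋂ e ∈ s, I e) A n := Submodule.sum_mem _ fun e' h' =>
      ZP_mono (biInter_subset_of_mem (t := I) (Finset.mem_coe.2 h'))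
        (ha e' (Finset.mem_insert_of_mem h'))
    obtain ⟨b1, b2⟩ := mv_inj (ho e) (isOpen_biInter_finset fun e _ => ho e) (star_union hI he) hc
      (ha e (Finset.mem_insert_self _ _)) (Submodule.neg_mem _ h1) h
    intro e' h'
    rcases Finset.mem_insert.1 h' with rfl | h'
    exacts [b1, ih (fun e h => ha e (Finset.mem_insert_of_mem h)) (by simpa using b2) e' h']

end star

end ring

variable {k : Type} [Field k]

/-- finite dimensional coefficients -/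
theorem Hc0.fin {A : Type} [AddCommGroup A] [Module k A] [Module.Finite k A] (h : Hc0 k X k n) :
    Hc0 k X A n := by
  intro φ ⟨⟨K, k1, k2, k3⟩, hz⟩
  let b := Module.finBasis k A
  have h1 : ∀ j, (fun σ => b.coord j (φ σ) : Co k n X) ∈ BP k univ k n := fun j =>
    h ⟨⟨K, k1, k2, fun σ hσ => by simp [k3 σ hσ]⟩, fun σ hσ => by
      rw [cob_map, hz σ hσ, map_zero]⟩
  have h2 : φ = ∑ j, (fun σ => b.coord j (φ σ) • b j : Co A n X) := funext fun σ => by
    rw [Finset.sum_apply]; exact (b.sum_repr (φ σ)).symm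
  rw [h2]
  refine Submodule.sum_mem _ fun j _ => ?_
  cases n with
  | zero => exact fun σ hσ => by simp only [h1 j σ hσ, zero_smul]
  | succ n =>
    obtain ⟨η, ⟨L, l1, l2, l3⟩, e⟩ := mem_BP.1 (h1 j)
    refine mem_BP.2 ⟨fun σ => LinearMap.toSpanSingleton k A (b j) (η σ),
      ⟨L, l1, l2, fun σ hσ => by simp [l3 σ hσ]⟩, fun σ hσ => ?_⟩
    have := e σ hσ
    rw [Pi.sub_apply, sub_eq_zero] at this ⊢
    rw [cob_map, ← this]; rfl

variable {d j : ℕ} {O : Ori k d X}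
  {D : ∀ {n : ℕ} (j : ℕ) {i : ℕ}, Co k i X → Ch k n X →ₗ[k] Ch k j X} [T2Space X]

/-- a cocycle on `L` is, on `L`, the primitive of a cycle of any open neighbourhood of `Lᶜ` -/
theorem exists_dl' (hD : CapLike k X D) (hL : IsOpen L) (hU : IsOpen U) (hLU : Lᶜ ⊆ U)
    (hij : i + j = d) {ψ : Co k i X} (h : ψ ∈ ZP k L k i) : ∃ (ψ' : Co k i X) (c : Ch k j X),
      ψ - ψ' ∈ (On L).van k k i ∧ c ∈ (On U).ch k j ∧ c ∈ cyc k X j ∧ O.Dl D U ψ' c := by
  obtain ⟨⟨K, k1, -, k2⟩, hz⟩ := h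
  obtain ⟨η, a, b, e⟩ := inter_supp smVanS_holds k1.isClosed hL.isClosed_compl (cob_cob ψ)
    (Sb.cob_mem k2) (by rwa [compl_compl])
  rw [compl_compl] at b
  obtain ⟨c, c1, c2, c3⟩ := dl_of (O := O) hD hU hij (ψ := ψ - η)
    ⟨K, k1, subset_univ _, Submodule.sub_mem _ k2 a⟩
    ⟨K ∩ Lᶜ, k1.inter_right hL.isClosed_compl, inter_subset_right.trans hLU, by rwa [map_sub]⟩
  exact ⟨_, c, by simpa using b, c1, c2, c3⟩

/-- a primitive which is exact on `L` belongs to a cycle which bounds in `V ⊇ U ∪ Lᶜ` -/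
theorem Ori.Dl.mem_B (hD : CapLike k X D) (hL : IsOpen L) (hV : IsOpen V) (hUV : U ⊆ V)
    (hLV : Lᶜ ⊆ V) (hij : i + 1 + j = d) {ψ : Co k (i + 1) X} {c : Ch k j X} (h : O.Dl D U ψ c)
    (hb : ψ ∈ BP k L k (i + 1)) : c ∈ (On V).B k j := by
  obtain ⟨η, a, b⟩ := mem_BP.1 hb
  obtain ⟨K, k1, -, k2⟩ := Submodule.sub_mem _ h.cc (cob_mem_Cc a)
  obtain ⟨K1, l1, l2, l3⟩ := h.cob_mem
  obtain ⟨χ, p1, -⟩ := smVanS_holds k k X (K ∩ Lᶜ ∪ K1)ᶜ {Kᶜ, L}
    (open_pair k1.isClosed.isOpen_compl hL) (fun x hx => by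
      simp only [mem_compl_iff, mem_union, mem_inter_iff, sUnion_pair] at hx ⊢; tauto) i (ψ - cob k η)
    (by rw [Sb.mem_Z, map_sub, cob_cob, sub_zero]; exact van_supp subset_union_right l3)
    (Sb.van_mono Sb.inf_le_right (by rw [Sm_pair, Sb.van_sup]; exact ⟨k2, b⟩))
  have h1 := Ori.du_cob (O := O) (j := j) fundS_holds hD hij hV (φ := -(cob k χ - (ψ - cob k η)))
    ⟨_, (k1.inter_right hL.isClosed_compl).union l1,
      union_subset (inter_subset_right.trans hLV) (l2.trans hUV), Submodule.neg_mem _ p1⟩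
  rw [map_neg, map_sub, map_sub, cob_cob, cob_cob, zero_sub, sub_zero, neg_neg] at h1
  simpa using (h.du.mono hUV).unique smChS_holds fundS_holds hD (by omega) hV h1 (cob_cob _)

variable [ChartedSpace (EE (d + 1)) X] (hO : O.ND) (hD : CapLike k X D)
include hO hD

/-- `H_c^{i+1} (X) = 0` from `H_j (X) = 0` -/
theorem hc0_of_cyc (hij : i + j = d) (hA : cyc k X j ≤ (On univ).B k j) : Hc0 k X k (i + 1) :=
  hc0_of fun _ h hc => Cc_exact (O := O) hO hD hij hA h hc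

/-- finite rank of `H^{i+1}_Φ (L') → H^{i+1}_Φ (L)` from finite rank of `H_j (U) → H_j (V)` -/
theorem fr_phi {L' : Set X} (hL : IsOpen L') (hU : IsOpen U) (hV : IsOpen V) (hLU : L'ᶜ ⊆ U)
    (hUV : U ⊆ V) (hLL : L ⊆ L') (hLV : Disjoint L V) (hij : i + 1 + j = d)
    (hA : cyc k X j ≤ (On univ).B k j) (hA' : cyc k X (j + 1) ≤ (On univ).B k (j + 1))
    (h : FR ((On U).ch k j ⊓ cyc k X j) ((On V).B k j)) :
    FR (ZP k L' k (i + 1)) (BP k L k (i + 1)) := by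
  classical
  obtain ⟨s, hs, hs'⟩ := h.finset
  have h1 : ∀ c : s, ∃ ψ : Co k (i + 1) X, O.Dl D U ψ c.1 := fun c =>
    exists_dl hO hD hU hij (hs c c.2).1 (hA (hs c c.2).2)
  choose f hf using h1
  refine ⟨Submodule.span k (range f), Submodule.fg_span (finite_range f), fun ψ hψ => ?_⟩
  obtain ⟨ψ', c, a1, a2, a3, a4⟩ := exists_dl' (O := O) hD hL hU hLU hij hψ
  obtain ⟨g, hg, b, hb, rfl⟩ := Submodule.mem_sup.1 (hs' ⟨a2, a3⟩)
  obtain ⟨r, rfl⟩ := (Submodule.mem_span_finset' ).1 hg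
  have d1 : O.Dl D U (∑ c : s, r c • f c) (∑ c : s, r c • c.1) :=
    Ori.Dl.sum hD hU hij _ fun c _ => (hf c).smul hD _
  obtain ⟨θ, ⟨K, -, t1, t2⟩, η, e1, e2⟩ := ((a4.sub hD hU hij d1).mono hUV).uniq hO hD hV hij hA'
    (by simpa using hb)
  have : ψ = ∑ c : s, r c • f c + (cob k η + (θ + (ψ - ψ'))) := by
    rw [← add_assoc (cob k η), add_comm (cob k η), ← e2]; abel
  rw [this]
  exact Submodule.add_mem_sup
    (Submodule.sum_mem _ fun c _ => Submodule.smul_mem _ _ (Submodule.subset_span ⟨c, rfl⟩))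
    (Submodule.add_mem _ (cob_mem_BP e1) (van_le_BP (Submodule.add_mem _
      (van_mono (fun x hx hK => disjoint_left.1 hLV hx (t1 hK)) t2) (van_mono hLL a1))))

end Crest.Agent.N255.Tp

end
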