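import Crest.Agent.N255.Tp.Stm

/-!
# Row 255, block D (helper17): universal coefficients over a field
-/

set_option autoImplicit false
open Set

noncomputable section

namespace Crest.Agent.N255.Tp

namespace Uct

/-- factorisation of linear maps over a field -/
theorem factor {k V W A : Type*} [Field k] [AddCommGroup V] [Module k V] [AddCommGroup W]
    [Module k W] [AddCommGroup A] [Module k A] (f : V →ₗ[k] W) (g : V →ₗ[k] A)
    (h : ∀ v, f v = 0 → g v = 0) : ∃ e : W →ₗ[k] A, ∀ v, e (f v) = g v := by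
  have hle : LinearMap.ker f ≤ LinearMap.ker g := fun v hv => h v hv
  obtain ⟨e, he⟩ := LinearMap.exists_extend
    (((LinearMap.ker f).liftQ g hle).comp (f.quotKerEquivRange.symm : LinearMap.range f →ₗ[k] _))
  refine ⟨e, fun v => ?_⟩
  have := LinearMap.congr_fun he ⟨f v, LinearMap.mem_range_self f v⟩
  simp only [LinearMap.comp_apply, Submodule.subtype_apply, LinearEquiv.coe_coe] at this
  rw [this, LinearMap.quotKerEquivRange_symm_apply_image]
  rfl

/-- relative factorisation -/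
theorem factor_rel {k V W A : Type*} [Field k] [AddCommGroup V] [Module k V] [AddCommGroup W]
    [Module k W] [AddCommGroup A] [Module k A] (S : Submodule k V) (T : Submodule k W)
    (f : V →ₗ[k] W) (g : V →ₗ[k] A) (h : ∀ v ∈ S, f v ∈ T → g v = 0) :
    ∃ e : W →ₗ[k] A, (∀ w ∈ T, e w = 0) ∧ ∀ v ∈ S, e (f v) = g v := by
  obtain ⟨e, he⟩ := factor (T.mkQ ∘ₗ f ∘ₗ S.subtype) (g ∘ₗ S.subtype) fun v hv =>
    h v.1 v.2 ((Submodule.Quotient.mk_eq_zero _).1 hv)
  refine ⟨e ∘ₗ T.mkQ, fun w hw => ?_, fun v hv => he ⟨v, hv⟩⟩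
  have : T.mkQ w = 0 := (Submodule.Quotient.mk_eq_zero _).2 hw
  rw [LinearMap.comp_apply, this, map_zero]

variable {k : Type} [CommRing k] {X : Type} [TopologicalSpace X] {n : ℕ} {A : Type}
  [AddCommGroup A] [Module k A]

theorem ev_sg (φ : Co A n X) (σ : Sx n X) : ev k φ (sg k σ) = φ σ := by
  simp [ev]

theorem ev_lin (f : Ch k n X →ₗ[k] A) (c : Ch k n X) : ev k (fun σ => f (sg k σ)) c = f c := by
  have : ev k (fun σ => f (sg k σ)) = f := Finsupp.lhom_ext' fun σ => LinearMap.ext_ring (by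
    simp [ev])
  rw [this]

theorem cob_lin (f : Ch k n X →ₗ[k] A) (σ : Sx (n + 1) X) :
    cob k (fun τ => f (sg k τ)) σ = f (bd k (sg k σ)) := by
  simp only [cob, bd, LinearMap.coe_mk, AddHom.coe_mk, Finsupp.linearCombination_single, one_smul,
    map_sum, map_smul]

theorem sg_mem (P : Sb X) {σ : Sx n X} (h : σ ∈ P.S n) : sg k σ ∈ P.ch k n :=
  Finsupp.single_mem_supported k 1 h

end Uct

open Uct in
theorem uctS_holds : UctS := by
  intro k _ X _ n
  refine ⟨fun N c hc => ?_, fun A _ _ P Q φ h => ?_⟩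
  · obtain ⟨f, hf, hN⟩ := Submodule.exists_le_ker_of_notMem hc
    exact ⟨fun σ => f (sg k σ), fun x hx => by rw [ev_lin]; exact hN hx, by rwa [ev_lin]⟩
  · obtain ⟨e, h0, he⟩ := factor_rel (P.ch k (n + 1)) (Q.ch k n) (bd k) (ev k φ) h
    refine ⟨fun σ => e (sg k σ), fun σ hσ => h0 _ (sg_mem Q hσ), fun σ hσ => ?_⟩
    rw [Pi.sub_apply, cob_lin, he _ (sg_mem P hσ), ev_sg, sub_self]

end Crest.Agent.N255.Tp

end
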