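import Crest.Agent.N255.Tp.LocS
import Crest.Agent.N255.Tp.Sm

/-!
# Row 255, block D (helper88): `LocS` holds
-/

namespace Crest.Agent.N255.Tp

theorem locS_holds : LocS := locS_of smVanS_holds

end Crest.Agent.N255.Tp
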