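import Crest.Agent.N255.Tp.Stm

/-!
# Row 255 (D): induction over the open sets of a charted space
-/

set_option autoImplicit false

open Set Filter Topology

namespace Crest.Agent.N255.Tp

section
variable {X : Type} [TopologicalSpace X] {P : Set X → Prop}

theorem oi_fin {B : Set (Set X)} (ho : ∀ b ∈ B, IsOpen b)
    (hi : ∀ b ∈ B, ∀ c ∈ B, b ∩ c ∈ B) (hP : ∀ b ∈ B, P b) (h0 : P ∅)
    (hU : ∀ U V, IsOpen U → IsOpen V → P U → P V → P (U ∩ V) → P (U ∪ V)) (m : ℕ) :
    ∀ s : Finset (Set X), s.card ≤ m → (∀ b ∈ s, b ∈ B) → P (⋃₀ (s : Set (Set X))) := by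
  classical
  induction m with
  | zero =>
    intro s hs _
    rw [Nat.le_zero, Finset.card_eq_zero] at hs
    subst hs
    simpa using h0
  | succ m ih =>
    intro s hs hb
    rcases s.eq_empty_or_nonempty with rfl | ⟨a, ha⟩
    · simpa using h0
    have e : s = insert a (s.erase a) := (Finset.insert_erase ha).symm
    have hc : (s.erase a).card ≤ m := by rw [Finset.card_erase_of_mem ha]; omega
    have hb' : ∀ b ∈ s.erase a, b ∈ B := fun b h => hb b (Finset.mem_of_mem_erase h)
    rw [e, Finset.coe_insert, sUnion_insert]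
    refine hU _ _ (ho a (hb a ha)) (isOpen_sUnion fun b h => ho b (hb' b h)) (hP a (hb a ha))
      (ih _ hc hb') ?_
    have e2 : a ∩ ⋃₀ ((s.erase a : Finset (Set X)) : Set (Set X)) =
        ⋃₀ (((s.erase a).image fun b => a ∩ b : Finset (Set X)) : Set (Set X)) := by
      ext x
      simp only [mem_inter_iff, mem_sUnion, Finset.coe_image, mem_image, exists_exists_and_eq_and]
      exact ⟨fun ⟨h1, b, h2, h3⟩ => ⟨b, h2, h1, h3⟩, fun ⟨b, h2, h1, h3⟩ => ⟨h1, b, h2, h3⟩⟩
    rw [e2]
    refine ih _ (Finset.card_image_le.trans hc) fun b h => ?_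
    obtain ⟨c, hc, rfl⟩ := Finset.mem_image.1 h
    exact hi _ (hb a ha) _ (hb' c hc)

/-- an open set covered by members of an `∩`-closed family of good open subsets is good -/
theorem oi_basis {B : Set (Set X)} (ho : ∀ b ∈ B, IsOpen b)
    (hi : ∀ b ∈ B, ∀ c ∈ B, b ∩ c ∈ B) (hP : ∀ b ∈ B, P b) (h0 : P ∅)
    (hU : ∀ U V, IsOpen U → IsOpen V → P U → P V → P (U ∩ V) → P (U ∪ V))
    (hD : ∀ S : Set (Set X), S.Nonempty → DirectedOn (· ⊆ ·) S → (∀ U ∈ S, IsOpen U ∧ P U) →
      P (⋃₀ S))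
    {O : Set X} (hb : ∀ x ∈ O, ∃ b ∈ B, x ∈ b ∧ b ⊆ O) : P O := by
  classical
  have e : O = ⋃₀ {W | ∃ s : Finset (Set X), (∀ b ∈ s, b ∈ B ∧ b ⊆ O) ∧
      W = ⋃₀ (s : Set (Set X))} := by
    ext x
    constructor
    · intro hx
      obtain ⟨b, h1, h2, h3⟩ := hb x hx
      exact ⟨_, ⟨{b}, by simpa using ⟨h1, h3⟩, rfl⟩, by simpa using h2⟩
    · rintro ⟨_, ⟨s, hs, rfl⟩, b, h1, h2⟩
      exact (hs b h1).2 h2
  rw [e]
  refine hD _ ⟨_, ∅, by simp, rfl⟩ ?_ ?_
  · rintro _ ⟨s, hs, rfl⟩ _ ⟨t, ht, rfl⟩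
    refine ⟨_, ⟨s ∪ t, fun b h => (Finset.mem_union.1 h).elim (hs b) (ht b), rfl⟩, ?_, ?_⟩
    · exact sUnion_mono (by simp)
    · exact sUnion_mono (by simp)
  · rintro _ ⟨s, hs, rfl⟩
    exact ⟨isOpen_sUnion fun b h => ho b (hs b h).1,
      oi_fin ho hi hP h0 hU _ s le_rfl fun b h => (hs b h).1⟩

end

/-- Hatcher's induction: a property of open sets that holds for the convex sets of the charts and
is stable under Mayer-Vietoris and directed unions holds for every open set. -/
theorem open_ind {X E : Type} [TopologicalSpace X] [NormedAddCommGroup E] [NormedSpace ℝ E]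
    [ChartedSpace E X] {P : Set X → Prop} (h0 : P ∅)
    (hb : ∀ (x : X) (C : Set E), IsOpen C → Convex ℝ C → C.Nonempty → Bornology.IsBounded C →
      closure C ⊆ (chartAt E x).target → P ((chartAt E x).symm '' C))
    (hU : ∀ U V, IsOpen U → IsOpen V → P U → P V → P (U ∩ V) → P (U ∪ V))
    (hD : ∀ S : Set (Set X), S.Nonempty → DirectedOn (· ⊆ ·) S → (∀ U ∈ S, IsOpen U ∧ P U) →
      P (⋃₀ S))
    {O : Set X} (hO : IsOpen O) : P O := by
  have h1 : ∀ (x : X) (W : Set X), IsOpen W → W ⊆ (chartAt E x).source → P W := by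
    intro x W hW hs
    refine oi_basis (B := {b | ∃ C : Set E, IsOpen C ∧ Convex ℝ C ∧ Bornology.IsBounded C ∧
      closure C ⊆ (chartAt E x).target ∧ b = (chartAt E x).symm '' C}) ?_ ?_ ?_ h0 hU hD ?_
    · rintro _ ⟨C, h1, -, -, h3, rfl⟩
      exact (chartAt E x).symm.isOpen_image_of_subset_source h1 (subset_closure.trans h3)
    · rintro _ ⟨C, h1, h2, h2', h3, rfl⟩ _ ⟨D, g1, g2, -, g3, rfl⟩
      refine ⟨C ∩ D, h1.inter g1, h2.inter g2, h2'.subset inter_subset_left,
        (closure_mono inter_subset_left).trans h3, ?_⟩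
      exact ((chartAt E x).symm.injOn.image_inter (subset_closure.trans h3)
        (subset_closure.trans g3)).symm
    · rintro _ ⟨C, h1, h2, h2', h3, rfl⟩
      rcases C.eq_empty_or_nonempty with rfl | hne
      · simpa using h0
      · exact hb x C h1 h2 hne h2' h3
    · intro y hy
      have h2 : IsOpen ((chartAt E x).target ∩ (chartAt E x).symm ⁻¹' W) :=
        (chartAt E x).isOpen_inter_preimage_symm hW
      have h3 : chartAt E x y ∈ (chartAt E x).target ∩ (chartAt E x).symm ⁻¹' W :=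
        ⟨(chartAt E x).map_source (hs hy), by
          rw [mem_preimage, (chartAt E x).left_inv (hs hy)]; exact hy⟩
      obtain ⟨r, hr, h4⟩ := Metric.nhds_basis_closedBall.mem_iff.1 (h2.mem_nhds h3)
      refine ⟨_, ⟨Metric.ball (chartAt E x y) r, Metric.isOpen_ball, convex_ball _ _,
        Metric.isBounded_ball, Metric.closure_ball_subset_closedBall.trans
          (h4.trans inter_subset_left), rfl⟩,
        ⟨_, Metric.mem_ball_self hr, (chartAt E x).left_inv (hs hy)⟩, ?_⟩
      rintro _ ⟨z, hz, rfl⟩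
      exact (h4 (Metric.ball_subset_closedBall hz)).2
  refine oi_basis (B := {b | IsOpen b ∧ ∃ x, b ⊆ (chartAt E x).source}) (fun b h => h.1) ?_ ?_
    h0 hU hD ?_
  · rintro b ⟨h2, x, h3⟩ c ⟨g2, -⟩
    exact ⟨h2.inter g2, x, inter_subset_left.trans h3⟩
  · rintro b ⟨h2, x, h3⟩
    exact h1 x b h2 h3
  · intro x hx
    exact ⟨O ∩ (chartAt E x).source, ⟨hO.inter (chartAt E x).open_source, x, inter_subset_right⟩,
      ⟨hx, mem_chart_source E x⟩, inter_subset_left⟩

/-- a bounded open convex set inside the target of a chart is the range of an open cell -/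
theorem exists_cell {X E : Type} [TopologicalSpace X] [NormedAddCommGroup E] [NormedSpace ℝ E]
    (e : OpenPartialHomeomorph X E) {C : Set E} (h1 : IsOpen C) (h2 : Convex ℝ C) (h3 : C.Nonempty)
    (h4 : Bornology.IsBounded C) (h5 : C ⊆ e.target) :
    ∃ j : C(E, X), IsOpenEmbedding j ∧ range j = e.symm '' C := by
  obtain ⟨h, hh, -⟩ := exists_homeomorph_image_interior_closure_frontier_eq_unitBall h2
    (by rwa [h1.interior_eq]) h4
  rw [h1.interior_eq] at hh
  have e1 : IsOpenEmbedding fun x : E => h.symm (Homeomorph.unitBall x : E) :=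
    h.symm.isOpenEmbedding.comp
      (Metric.isOpen_ball.isOpenEmbedding_subtypeVal.comp Homeomorph.unitBall.isOpenEmbedding)
  have e2 : (range fun x : E => h.symm (Homeomorph.unitBall x : E)) = C := by
    ext y
    constructor
    · rintro ⟨x, rfl⟩
      have : (Homeomorph.unitBall x : E) ∈ h '' C := by rw [hh]; exact (Homeomorph.unitBall x).2
      obtain ⟨z, hz, e⟩ := this
      simp only [← e, Homeomorph.symm_apply_apply]
      exact hz
    · intro hy
      have : h y ∈ Metric.ball (0 : E) 1 := by rw [← hh]; exact ⟨y, hy, rfl⟩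
      exact ⟨Homeomorph.unitBall.symm ⟨h y, this⟩, by simp⟩
  have e3 : ∀ x : E, h.symm (Homeomorph.unitBall x : E) ∈ e.target := fun x =>
    h5 (e2 ▸ mem_range_self x)
  have e4 : IsOpenEmbedding fun x : E => e.symm (h.symm (Homeomorph.unitBall x : E)) := by
    have e5 : IsOpenEmbedding (codRestrict (fun x : E => h.symm (Homeomorph.unitBall x : E))
        e.symm.source e3) :=
      IsOpenEmbedding.of_comp _ e.symm.open_source.isOpenEmbedding_subtypeVal e1
    exact e.symm.isOpenEmbedding_restrict.comp e5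
  refine ⟨⟨_, e4.continuous⟩, e4, ?_⟩
  rw [← e2, ← range_comp]
  rfl

theorem openIndS_holds : OpenIndS := by
  intro d X _ _ P h0 hb hU hD U hO
  refine open_ind (E := EE d) h0 ?_ hU (fun S h1 h2 h3 => hD S h1 h3 h2) hO
  intro x C h1 h2 h3 h4 h5
  obtain ⟨j, hj, e⟩ := exists_cell (chartAt (EE d) x) h1 h2 h3 h4 (subset_closure.trans h5)
  exact e ▸ hb j hj

end Crest.Agent.N255.Tp
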