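import Crest.Agent.N255.Tp.Basic
import Crest.Agent.N255.Tp.OInd

/-!
# Row 255, block D (helper46): `VanS` and `NdS`
-/

set_option autoImplicit false
open Set Filter Topology

noncomputable section

namespace Crest.Agent.N255.Tp

variable {X : Type} [TopologicalSpace X] {n : ℕ} {k : Type} [CommRing k] {A : Type}
  [AddCommGroup A] [Module k A]

/-- a cocycle vanishing off `K` and off `L` is cohomologous, with the same supports, to a cocycle
vanishing off `K ∩ L` -/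
theorem inter_supp (hs : SmVanS) {K L : Set X} (hK : IsClosed K) (hL : IsClosed L)
    {w : Co A (n + 1) X} (hw : cob k w = 0) (h1 : w ∈ (On Kᶜ).van k A (n + 1))
    (h2 : w ∈ (On Lᶜ).van k A (n + 1)) :
    ∃ η : Co A n X, η ∈ (On Kᶜ).van k A n ∧ η ∈ (On Lᶜ).van k A n ∧
      w - cob k η ∈ (On (K ∩ L)ᶜ).van k A (n + 1) := by
  obtain ⟨η, e, hT⟩ := hs k A X (K ∩ L)ᶜ {Kᶜ, Lᶜ}
    (by rintro _ (rfl | rfl); exacts [hK.isOpen_compl, hL.isOpen_compl])
    (by rw [compl_inter, sUnion_pair]) n w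
    (by rw [Sb.mem_Z, hw]; exact Submodule.zero_mem _)
    (Sb.van_mono Sb.inf_le_right (by rw [Sm_pair, Sb.van_sup]; exact ⟨h1, h2⟩))
  refine ⟨η, hT _ (van_mono inter_subset_left h1), hT _ (van_mono inter_subset_left h2), ?_⟩
  rw [← neg_sub]
  exact Submodule.neg_mem _ e

/-- Mayer-Vietoris splitting of compactly supported cocycles -/
theorem mv_split [T2Space X] (hs : SmVanS) {U V : Set X} (hU : IsOpen U) (hV : IsOpen V)
    (h : ∀ w ∈ Cc k (U ∩ V) A (n + 1), cob k w = 0 → ∃ θ ∈ Cc k (U ∩ V) A n, cob k θ = w)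
    {φ : Co A n X} (hφ : φ ∈ Cc k (U ∪ V) A n) (hc : cob k φ = 0) :
    ∃ a ∈ Cc k U A n, ∃ b ∈ Cc k V A n, cob k a = 0 ∧ cob k b = 0 ∧ φ = a + b := by
  rw [Cc_union hU hV, Submodule.mem_sup] at hφ
  obtain ⟨a, ⟨K, hK, hKU, ha⟩, b, ⟨L, hL, hLV, hb⟩, rfl⟩ := hφ
  have e : cob k b = -cob k a := by rw [map_add] at hc; exact eq_neg_of_add_eq_zero_right hc
  obtain ⟨η, h1, h2, h3⟩ := inter_supp hs hK.isClosed hL.isClosed (cob_cob (k := k) a)
    (Sb.cob_mem ha) (by rw [← neg_neg (cob k a), ← e]; exact Submodule.neg_mem _ (Sb.cob_mem hb))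
  obtain ⟨θ, hθ, e2⟩ := h _ ⟨K ∩ L, hK.inter hL, inter_subset_inter hKU hLV, h3⟩ (by simp)
  refine ⟨a - η - θ, Submodule.sub_mem _ ⟨K, hK, hKU, Submodule.sub_mem _ ha h1⟩
    (Cc_mono inter_subset_left hθ), b + η + θ, Submodule.add_mem _
    ⟨L, hL, hLV, Submodule.add_mem _ hb h2⟩ (Cc_mono inter_subset_right hθ), ?_, ?_, by abel⟩
  · rw [map_sub, map_sub, e2]; abel
  · rw [map_add, map_add, e2, e]; abel

theorem exists_ball {d : ℕ} {j : C(EE d, X)} (hj : IsEmbedding j) (c : EE d) {K : Set X}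
    (hK : IsCompact K) (h : K ⊆ range j) : ∃ R : ℝ, 0 ≤ R ∧ K ⊆ j '' Metric.closedBall c R := by
  have h1 : IsCompact (j ⁻¹' K) := by
    rw [hj.isInducing.isCompact_iff, image_preimage_eq_of_subset h]; exact hK
  obtain ⟨R, hR, h2⟩ := h1.isBounded.subset_closedBall_lt 0 c
  refine ⟨R, hR.le, fun x hx => ?_⟩
  obtain ⟨y, rfl⟩ := h hx
  exact ⟨y, h2 hx, rfl⟩

theorem Cc_sUnion {𝒰 : Set (Set X)} (hne : 𝒰.Nonempty) (ho : ∀ U ∈ 𝒰, IsOpen U)
    (hd : DirectedOn (· ⊆ ·) 𝒰) {φ : Co A n X} (h : φ ∈ Cc k (⋃₀ 𝒰) A n) :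
    ∃ U ∈ 𝒰, φ ∈ Cc k U A n := by
  obtain ⟨K, hK, hKU, h⟩ := h
  have : Nonempty 𝒰 := hne.to_subtype
  obtain ⟨U, hU⟩ := hK.elim_directed_cover (fun U : 𝒰 => (U : Set X)) (fun U => ho U U.2)
    (by rwa [← sUnion_eq_iUnion]) hd.directed_val
  exact ⟨U, U.2, K, hK, hU, h⟩

theorem Cc_empty {φ : Co A n X} (h : φ ∈ Cc k (∅ : Set X) A n) : φ = 0 := by
  obtain ⟨K, -, hK, h⟩ := h
  rw [subset_empty_iff] at hK
  subst hK
  rw [compl_empty] at h
  exact eq_zero_of_van_univ h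

theorem vanS_of (hs : SmVanS) (hl : LocS) : VanS := by
  intro k _ d X _ _ _ U hU
  refine openIndS_holds (d + 1) X (fun U => ∀ i, d < i → ∀ φ ∈ Cc k U k (i + 1), cob k φ = 0 →
    ∃ ψ ∈ Cc k U k i, cob k ψ = φ) ?_ ?_ ?_ ?_ U hU
  · intro i _ φ h _
    exact ⟨0, Submodule.zero_mem _, by rw [Cc_empty h, map_zero]⟩
  · rintro j hj i hi φ ⟨K, hK, hKU, h⟩ hc
    obtain ⟨R, hR, h2⟩ := exists_ball hj.isEmbedding 0 hK hKU
    obtain ⟨ψ, h3, e⟩ := (hl k X d j hj 0).1 i (by omega) R hR φ hc (van_supp h2 h)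
    exact ⟨ψ, ⟨_, (isCompact_closedBall _ _).image j.continuous, image_subset_range _ _, h3⟩, e⟩
  · intro U V hU hV h1 h2 h3 i hi φ h hc
    obtain ⟨a, ha, b, hb, ca, cb, rfl⟩ := mv_split hs hU hV (h3 (i + 1) (by omega)) h hc
    obtain ⟨s, hs, e1⟩ := h1 i hi a ha ca
    obtain ⟨t, ht, e2⟩ := h2 i hi b hb cb
    exact ⟨s + t, Submodule.add_mem _ (Cc_mono subset_union_left hs)
      (Cc_mono subset_union_right ht), by rw [map_add, e1, e2]⟩
  · intro 𝒰 hne h hd i hi φ hφ hc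
    obtain ⟨U, hU, h1⟩ := Cc_sUnion hne (fun U hU => (h U hU).1) hd hφ
    obtain ⟨ψ, h2, e⟩ := (h U hU).2 i hi φ h1 hc
    exact ⟨ψ, Cc_mono (subset_sUnion_of_mem hU) h2, e⟩

/-- compactly supported top cocycles are generated by those supported in cells -/
theorem top_ind (hs : SmVanS) (hl : LocS) {d : ℕ} [T2Space X] [ChartedSpace (EE (d + 1)) X]
    {Q : Co k (d + 1) X → Prop} (h0 : Q 0)
    (hadd : ∀ a ∈ Cc k univ k (d + 1), ∀ b ∈ Cc k univ k (d + 1), cob k a = 0 → cob k b = 0 →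
      Q a → Q b → Q (a + b)) {U : Set X} (hU : IsOpen U)
    (hb : ∀ j : C(EE (d + 1), X), IsOpenEmbedding j → range j ⊆ U →
      ∀ φ ∈ Cc k (range j) k (d + 1), cob k φ = 0 → Q φ) :
    ∀ φ ∈ Cc k U k (d + 1), cob k φ = 0 → Q φ := by
  refine openIndS_holds (d + 1) X (fun W => W ⊆ U → ∀ φ ∈ Cc k W k (d + 1), cob k φ = 0 → Q φ)
    ?_ hb ?_ ?_ U hU le_rfl
  · intro _ φ h _
    rw [Cc_empty h]; exact h0
  · intro V W hV hW h1 h2 _ hsub φ h hc
    obtain ⟨a, ha, b, hb, ca, cb, rfl⟩ := mv_split hs hV hW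
      (vanS_of hs hl k d X _ (hV.inter hW) (d + 1) (by omega)) h hc
    exact hadd a (Cc_mono (subset_univ _) ha) b (Cc_mono (subset_univ _) hb) ca cb
      (h1 (subset_union_left.trans hsub) a ha ca) (h2 (subset_union_right.trans hsub) b hb cb)
  · intro 𝒰 hne h hd hsub φ hφ hc
    obtain ⟨W, hW, h1⟩ := Cc_sUnion hne (fun U hU => (h U hU).1) hd hφ
    exact (h W hW).2 ((subset_sUnion_of_mem hW).trans hsub) φ h1 hc

theorem exists_cell_mem {d : ℕ} [ChartedSpace (EE d) X] (x : X) {W : Set X} (hW : W ∈ 𝓝 x) :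
    ∃ j : C(EE d, X), IsOpenEmbedding j ∧ x ∈ range j ∧ range j ⊆ W := by
  have h1 : (chartAt (EE d) x).target ∩ (chartAt (EE d) x).symm ⁻¹' W ∈ 𝓝 (chartAt (EE d) x x) :=
    inter_mem (chart_target_mem_nhds _ x) (((chartAt (EE d) x).continuousAt_symm
      (mem_chart_target _ x)).preimage_mem_nhds
        (by rwa [(chartAt (EE d) x).left_inv (mem_chart_source _ x)]))
  obtain ⟨r, hr, h2⟩ := Metric.mem_nhds_iff.1 h1
  obtain ⟨j, hj, e⟩ := exists_cell (chartAt (EE d) x) Metric.isOpen_ball (convex_ball _ r)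
    ⟨_, Metric.mem_ball_self hr⟩ Metric.isBounded_ball (h2.trans inter_subset_left)
  refine ⟨j, hj, e ▸ ⟨_, Metric.mem_ball_self hr,
    (chartAt (EE d) x).left_inv (mem_chart_source _ x)⟩, ?_⟩
  rw [e]
  rintro _ ⟨y, hy, rfl⟩
  exact (h2 hy).2

namespace Ori

variable {d : ℕ} (O : Ori k d X) {K L : Set X}

theorem ev_mono (hK : IsCompact K) (hL : IsCompact L) (h : K ⊆ L) {φ : Co A (d + 1) X}
    (hφ : φ ∈ (On Kᶜ).van k A (d + 1)) (hc : cob k φ = 0) : ev k φ (O.μ L) = ev k φ (O.μ K) :=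
  ((O.fund_μ hL).mono hK hL h).ev_eq (O.fund_μ hK) hφ hc

theorem ev_indep (hK : IsCompact K) (hL : IsCompact L) {φ : Co A (d + 1) X}
    (hφ : φ ∈ (On Kᶜ).van k A (d + 1)) (hφ' : φ ∈ (On Lᶜ).van k A (d + 1)) (hc : cob k φ = 0) :
    ev k φ (O.μ K) = ev k φ (O.μ L) := by
  rw [← O.ev_mono hK (hK.union hL) subset_union_left hφ hc,
    O.ev_mono hL (hK.union hL) subset_union_right hφ' hc]

theorem ev_cob (hK : IsCompact K) {ψ : Co A d X} (hψ : ψ ∈ (On Kᶜ).van k A d) :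
    ev k (cob k ψ) (O.μ K) = 0 := by
  rw [← ev_bd]; exact Sb.ev_eq_zero hψ (O.rc K hK)

/-- the integral vanishes -/
def Z0 (φ : Co A (d + 1) X) : Prop :=
  ∀ K, IsCompact K → φ ∈ (On Kᶜ).van k A (d + 1) → ev k φ (O.μ K) = 0

theorem z0_of (hK : IsCompact K) {φ : Co A (d + 1) X} (hφ : φ ∈ (On Kᶜ).van k A (d + 1))
    (hc : cob k φ = 0) (h : ev k φ (O.μ K) = 0) : O.Z0 φ := fun _ hL hφ' => by
  rw [O.ev_indep hL hK hφ' hφ hc, h]

theorem z0_add {a b : Co A (d + 1) X} (ha : a ∈ Cc k univ A (d + 1)) (hb : b ∈ Cc k univ A (d + 1))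
    (ca : cob k a = 0) (cb : cob k b = 0) (h1 : O.Z0 a) (h2 : O.Z0 b) : O.Z0 (a + b) := by
  obtain ⟨K, hK, -, ha⟩ := ha
  obtain ⟨L, hL, -, hb⟩ := hb
  have h3 := van_supp (subset_union_left (t := L)) ha
  have h4 := van_supp (subset_union_right (s := K)) hb
  refine O.z0_of (hK.union hL) (Submodule.add_mem _ h3 h4) (by rw [map_add, ca, cb, add_zero]) ?_
  rw [ev_add, h1 _ (hK.union hL) h3, h2 _ (hK.union hL) h4, add_zero]

/-- if the local degree at one point of a cell vanishes, so do all integrals over the cell -/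
theorem z0_cell (hl : LocS) [T2Space X] {j : C(EE (d + 1), X)} (hj : IsOpenEmbedding j)
    {c : EE (d + 1)} (h : O.μ {j c} ∈ Nul k {j c}ᶜ (d + 1)) {φ : Co k (d + 1) X}
    (hφ : φ ∈ Cc k (range j) k (d + 1)) (hc : cob k φ = 0) : O.Z0 φ := by
  obtain ⟨K, hK, hKU, hφ⟩ := hφ
  obtain ⟨R, hR, h2⟩ := exists_ball hj.isEmbedding c hK hKU
  obtain ⟨φ₀, h3, c0, h4⟩ := (hl k X d j hj c).2
  obtain ⟨t, ψ, h5, e⟩ := h4 R hR φ hc (van_supp h2 hφ)
  have hB : IsCompact (j '' Metric.closedBall c R) := (isCompact_closedBall _ _).image j.continuous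
  refine O.z0_of hB (van_supp h2 hφ) hc ?_
  rw [e, ev_add, ev_smul, O.ev_cob hB h5, add_zero, O.ev_mono isCompact_singleton hB
    (singleton_subset_iff.2 ⟨c, Metric.mem_closedBall_self hR, rfl⟩) h3 c0, ev_Nul h3 c0 h,
    smul_zero]

end Ori

theorem exists_cocycle {k : Type} [Field k] {U : Set X} {c : Ch k n X} (h : c ∉ Nul k U n) :
    ∃ φ ∈ (On U).van k k n, cob k φ = 0 ∧ ev k φ c ≠ 0 := by
  obtain ⟨f, h1, h2⟩ := Submodule.exists_dual_map_eq_bot_of_notMem h inferInstance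
  have h3 : ∀ x ∈ Nul k U n, f x = 0 := fun x hx => by
    have : f x ∈ (Nul k U n).map f := ⟨x, hx, rfl⟩
    rwa [h2, Submodule.mem_bot] at this
  refine ⟨fun σ => f (sg k σ), fun σ hσ => h3 _ (ch_le_Nul (Sb.sg_mem hσ)), ?_, ?_⟩
  · funext σ
    rw [← ev_sg (k := k) (cob k _) σ, ← ev_bd, ← map_eq_ev]
    exact h3 _ (bd_mem_Nul U _)
  · rwa [← map_eq_ev]

theorem ndS_of (hs : SmVanS) (hl : LocS) : NdS := by
  intro k _ d X _ _ _ _ O K φ hK hφ hc hne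
  have key : ∀ j : C(EE (d + 1), X), IsOpenEmbedding j → ∀ x ∈ range j, ∀ y ∈ range j,
      O.μ {x} ∈ Nul k {x}ᶜ (d + 1) → O.μ {y} ∈ Nul k {y}ᶜ (d + 1) := by
    rintro j hj _ ⟨c, rfl⟩ y hy h
    by_contra h'
    obtain ⟨ψ, h1, h2, h3⟩ := exists_cocycle h'
    exact h3 (O.z0_cell hl hj h ⟨{y}, isCompact_singleton, singleton_subset_iff.2 hy, h1⟩ h2 _
      isCompact_singleton h1)
  have hcl : IsClopen {x | O.μ {x} ∈ Nul k {x}ᶜ (d + 1)} := by
    constructor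
    · rw [← isOpen_compl_iff, isOpen_iff_mem_nhds]
      intro x hx
      obtain ⟨j, hj, h1, -⟩ := exists_cell_mem (d := d + 1) x univ_mem
      exact mem_of_superset (hj.isOpen_range.mem_nhds h1) fun y hy h => hx (key j hj y hy x h1 h)
    · rw [isOpen_iff_mem_nhds]
      intro x hx
      obtain ⟨j, hj, h1, -⟩ := exists_cell_mem (d := d + 1) x univ_mem
      exact mem_of_superset (hj.isOpen_range.mem_nhds h1) fun y hy => key j hj x h1 y hy hx
  rcases isClopen_iff.1 hcl with h | h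
  · intro x hx
    exact eq_empty_iff_forall_notMem.1 h x hx
  · have h3 : O.Z0 φ := by
      refine top_ind (Q := fun ψ : Co k (d + 1) X => O.Z0 ψ) hs hl (fun _ _ _ => ev_zero _)
        (fun a ha b hb => O.z0_add ha hb) isOpen_univ ?_ φ ⟨K, hK, subset_univ _, hφ⟩ hc
      intro j hj _ ψ h1 h2
      have h4 : O.μ {j 0} ∈ Nul k {j 0}ᶜ (d + 1) := eq_univ_iff_forall.1 h (j 0)
      exact O.z0_cell hl hj h4 h1 h2
    exact (hne (h3 K hK hφ)).elim

end Crest.Agent.N255.Tp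

end
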