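import Crest.Agent.N255.Tp.Stm

/-!
# Row 255, block D (helper85): Leibniz rule for cup and cap products (`CupS`, `CapS`, `ev_cup`)
-/

set_option autoImplicit false
open Set Filter Topology

noncomputable section

namespace Crest.Agent.N255.Tp

variable {X Y : Type} [TopologicalSpace X] [TopologicalSpace Y] {m n r : ℕ}

namespace Cp

theorem sub_sub (σ : Sx n X) (v : Fin (m + 1) → Fin (n + 1)) (w : Fin (r + 1) → Fin (m + 1)) :
    sub (sub σ v) w = sub σ (v ∘ w) := by
  ext x
  show σ (stdSimplex.map v (stdSimplex.map w x)) = σ (stdSimplex.map (v ∘ w) x)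
  rw [stdSimplex.map_comp_apply]

theorem sub_id (σ : Sx n X) : sub σ id = σ := by
  ext x
  show σ (stdSimplex.map id x) = σ x
  rw [stdSimplex.map_id_apply]

/-- the simplex spanned by the vertices `f 0, …, f m` -/
def sb (σ : Sx n X) (m : ℕ) (f : ℕ → ℕ) : Sx m X := sub σ fun t => ⟨min (f t) n, by omega⟩

theorem sb_congr (σ : Sx n X) {f g : ℕ → ℕ} (h : ∀ t ≤ m, min (f t) n = min (g t) n) :
    sb σ m f = sb σ m g := by
  unfold sb
  congr 1
  funext t
  exact Fin.ext (h t (by omega))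

theorem sb_sb (σ : Sx n X) (f g : ℕ → ℕ) :
    sb (sb σ m f) r g = sb σ r fun t => f (min (g t) m) := sub_sub σ _ _

theorem sb_id (σ : Sx n X) : sb σ n (fun t => t) = σ := by
  conv_rhs => rw [← sub_id σ]
  unfold sb
  congr 1
  funext t
  exact Fin.ext (by simp; omega)

/-- skip `i` -/
def sk (i t : ℕ) : ℕ := if t < i then t else t + 1

theorem fc_eq (σ : Sx (n + 1) X) (i : Fin (n + 2)) : fc σ i = sb σ n (sk i) := by
  unfold fc sb
  congr 1
  funext t
  apply Fin.ext
  have := t.2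
  simp only [Fin.succAbove, sk, Fin.lt_def, Fin.val_castSucc]
  split_ifs
  · simp
  · simp; omega

theorem fr_eq (i : ℕ) (σ : Sx n X) : fr i σ = sb σ i fun t => t := rfl

theorem bk_eq (j : ℕ) (σ : Sx n X) : bk j σ = sb σ j fun t => t + (n - j) := rfl

theorem fr_self (σ : Sx n X) : fr n σ = σ := sb_id σ

theorem bk_self (σ : Sx n X) : bk n σ = σ := by
  rw [bk_eq]; simpa using sb_id σ

variable {k : Type} [CommRing k] {A A' A'' : Type} [AddCommGroup A] [Module k A] [AddCommGroup A']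
  [Module k A'] [AddCommGroup A''] [Module k A'']

theorem cob_eq (φ : Co A n X) (σ : Sx (n + 1) X) :
    cob k φ σ = ∑ t ∈ Finset.range (n + 2), (-1 : k) ^ t • φ (sb σ n (sk t)) := by
  rw [← Fin.sum_univ_eq_sum_range (fun t => (-1 : k) ^ t • φ (sb σ n (sk t))) (n + 2)]
  show ∑ i : Fin (n + 2), (-1 : k) ^ (i : ℕ) • φ (fc σ i) = _
  simp only [fc_eq]

theorem ev_sg (φ : Co A n X) (σ : Sx n X) (a : k) : ev k φ (Finsupp.single σ a) = a • φ σ :=
  Finsupp.linearCombination_single _ _ _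

theorem ev_bd (φ : Co A n X) (c : Ch k (n + 1) X) : ev k φ (bd k c) = ev k (cob k φ) c := by
  have : (ev k φ).comp (bd k) = ev k (cob k φ) := by
    apply Finsupp.lhom_ext
    intro σ a
    simp only [LinearMap.comp_apply, bd, Finsupp.linearCombination_single, map_smul, map_sum, ev_sg,
      one_smul]
    rfl
  exact LinearMap.congr_fun this c

theorem ev_map (L : A →ₗ[k] A') (φ : Co A n X) (c : Ch k n X) :
    L (ev k φ c) = ev k (fun σ => L (φ σ)) c := by
  have : L.comp (ev k φ) = ev k (fun σ => L (φ σ)) := by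
    apply Finsupp.lhom_ext
    intro σ a
    simp only [LinearMap.comp_apply, ev_sg, map_smul]
  exact LinearMap.congr_fun this c

theorem ev_add (φ ψ : Co A n X) (c : Ch k n X) : ev k (φ + ψ) c = ev k φ c + ev k ψ c := by
  have : ev k (φ + ψ) = ev k φ + ev k ψ := by
    apply Finsupp.lhom_ext
    intro σ a
    simp only [LinearMap.add_apply, ev_sg, Pi.add_apply, smul_add]
  exact LinearMap.congr_fun this c

theorem ev_smul (a : k) (φ : Co A n X) (c : Ch k n X) : ev k (a • φ) c = a • ev k φ c := by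
  have : ev k (a • φ) = a • ev k φ := by
    apply Finsupp.lhom_ext
    intro σ b
    simp only [LinearMap.smul_apply, ev_sg, Pi.smul_apply, smul_comm a b]
  exact LinearMap.congr_fun this c

theorem ev_mem (N : Submodule k A) (S : Set (Sx n X)) (φ : Co A n X) (h : ∀ σ ∈ S, φ σ ∈ N)
    {c : Ch k n X} (hc : c ∈ Finsupp.supported k k S) : ev k φ c ∈ N := by
  rw [ev, Finsupp.linearCombination_apply, Finsupp.sum]
  exact N.sum_mem fun σ hσ => N.smul_mem _ (h σ (hc hσ))

theorem sg_mem {S : Set (Sx n X)} {σ : Sx n X} (h : σ ∈ S) : sg k σ ∈ Finsupp.supported k k S :=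
  Finsupp.single_mem_supported k 1 h

theorem cob_sg (σ : Sx (n + 1) X) : cob k (fun τ : Sx n X => sg k τ) σ = bd k (sg k σ) := by
  simp only [bd, Finsupp.linearCombination_single, one_smul]
  rfl

end Cp

open Cp

/-- **Leibniz rule** -/
theorem cupS_holds : CupS := by
  intro k _ A A' A'' _ _ _ _ _ _ μ X _ i j n hn φ ψ
  subst hn
  funext σ
  have e1 : ∀ t ∈ Finset.range (i + 1), (-1 : k) ^ t • cup μ (i + j) φ ψ (sb σ (i + j) (sk t)) =
      (-1 : k) ^ t • μ (φ (sb (fr (i + 1) σ) i (sk t))) (ψ (bk j σ)) := by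
    intro t ht
    rw [Finset.mem_range] at ht
    simp only [cup, fr_eq, bk_eq, sb_sb]
    congr 3
    · congr 1
      refine sb_congr σ fun s hs => ?_
      simp only [sk]; split_ifs <;> omega
    · refine sb_congr σ fun s hs => ?_
      simp only [sk]; split_ifs <;> omega
  have e2 : ∀ t ∈ Finset.range (j + 1),
      (-1 : k) ^ (i + 1 + t) • cup μ (i + j) φ ψ (sb σ (i + j) (sk (i + 1 + t))) =
      (-1 : k) ^ i • (-1 : k) ^ (t + 1) • μ (φ (fr i σ)) (ψ (sb (bk (j + 1) σ) j (sk (t + 1)))) := by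
    intro t ht
    rw [Finset.mem_range] at ht
    simp only [cup, fr_eq, bk_eq, sb_sb, smul_smul, ← pow_add]
    rw [show i + 1 + t = i + (t + 1) by omega]
    congr 3
    · congr 1
      refine sb_congr σ fun s hs => ?_
      simp only [sk]; split_ifs <;> omega
    · refine sb_congr σ fun s hs => ?_
      simp only [sk]; split_ifs <;> omega
  have e3 : sb (fr (i + 1) σ) i (sk (i + 1)) = fr i σ := by
    simp only [fr_eq, sb_sb]
    refine sb_congr σ fun s hs => ?_
    simp only [sk]; split_ifs <;> omega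
  have e4 : sb (bk (j + 1) σ) j (sk 0) = bk j σ := by
    simp only [bk_eq, sb_sb]
    refine sb_congr σ fun s hs => ?_
    simp only [sk]; split_ifs <;> omega
  rw [cob_eq, show i + j + 2 = (i + 1) + (j + 1) by omega, Finset.sum_range_add,
    Finset.sum_congr rfl e1, Finset.sum_congr rfl e2]
  simp only [Pi.add_apply, Pi.smul_apply, cup, cob_eq, map_sum, map_smul, LinearMap.sum_apply,
    LinearMap.smul_apply]
  rw [Finset.sum_range_succ _ (i + 1), Finset.sum_range_succ' _ (j + 1), e3, e4, smul_add,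
    Finset.smul_sum, pow_succ]
  simp only [pow_zero, one_smul, mul_neg, mul_one, neg_smul]
  abel

variable {k : Type} [CommRing k]

theorem cap_eq (j : ℕ) {i : ℕ} (φ : Co k i X) :
    (cap j φ : Ch k n X →ₗ[k] Ch k j X) =
      ev k (cup (LinearMap.lsmul k (Ch k j X)) n φ fun τ : Sx j X => sg k τ) := rfl

theorem cap'_eq (j : ℕ) {i : ℕ} (φ : Co k i X) :
    (cap' j φ : Ch k n X →ₗ[k] Ch k j X) =
      ev k (cup (LinearMap.lsmul k (Ch k j X)).flip n (fun τ : Sx j X => sg k τ) φ) := rfl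

/-- `⟨φ ∪ b, z⟩ = ⟨b, φ ∩ z⟩` -/
theorem ev_cup {i j : ℕ} (φ : Co k i X) (b : Co k j X) (z : Ch k n X) :
    ev k (cup (LinearMap.mul k k) n φ b) z = ev k b (cap j φ z) := by
  rw [cap, ev_map]
  congr 2
  funext σ
  simp [cup, ev_sg]

/-- `⟨φ ∪ b, z⟩ = ⟨φ, b ∩' z⟩` -/
theorem ev_cup' {i j : ℕ} (φ : Co k i X) (b : Co k j X) (z : Ch k n X) :
    ev k (cup (LinearMap.mul k k) n φ b) z = ev k φ (cap' i b z) := by
  rw [cap', ev_map]
  congr 2
  funext σ
  simp [cup, ev_sg, mul_comm]

/-- boundary of a cap product -/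
theorem bd_cap {i j : ℕ} (h : i + j = n) (φ : Co k i X) (z : Ch k (n + 1) X) :
    bd k (cap (j + 1) φ z) =
      (-1 : k) ^ i • cap j φ (bd k z) - (-1 : k) ^ i • cap j (cob k φ) z := by
  have h1 := cupS_holds k k _ _ (LinearMap.lsmul k (Ch k j X)) X i j n h φ fun τ : Sx j X => sg k τ
  have h2 : bd k (cap (j + 1) φ z) = ev k (cup (LinearMap.lsmul k (Ch k j X)) (n + 1) φ
      (cob k fun τ : Sx j X => sg k τ)) z := by
    rw [cap, ev_map]
    congr 2
    funext σ
    simp only [cup, cob_sg, map_smul, LinearMap.lsmul_apply]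
  rw [cap_eq j φ, ev_bd, h1, ev_add, ev_smul, ← h2, ← cap_eq, smul_add, smul_smul, ← pow_add,
    Even.neg_one_pow ⟨i, rfl⟩, one_smul]
  abel

/-- boundary of the other cap product -/
theorem bd_cap' {i j : ℕ} (h : i + j = n) (φ : Co k i X) (z : Ch k (n + 1) X) :
    bd k (cap' (j + 1) φ z) = cap' j φ (bd k z) - (-1 : k) ^ j • cap' j (cob k φ) z := by
  have h1 := cupS_holds k _ k _ (LinearMap.lsmul k (Ch k j X)).flip X j i n (by omega)
    (fun τ : Sx j X => sg k τ) φ
  have h2 : bd k (cap' (j + 1) φ z) = ev k (cup (LinearMap.lsmul k (Ch k j X)).flip (n + 1)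
      (cob k fun τ : Sx j X => sg k τ) φ) z := by
    rw [cap', ev_map]
    congr 2
    funext σ
    simp only [cup, cob_sg, map_smul, LinearMap.flip_apply, LinearMap.lsmul_apply]
  rw [cap'_eq j φ, ev_bd, h1, ev_add, ev_smul, ← h2, ← cap'_eq]
  abel

theorem capS_holds : CapS := by
  intro k _ X _
  refine ⟨⟨?_, ?_, ?_, ?_, ?_, ?_⟩, ⟨?_, ?_, ?_, ?_, ?_, ?_⟩⟩
  · intro n j i φ ψ z
    rw [cap, cap, cap, ← ev_add]
    congr 2
    funext σ
    simp only [Pi.add_apply, add_smul]
  · intro n j i r φ z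
    rw [cap, cap, ← ev_smul]
    congr 2
    funext σ
    simp only [Pi.smul_apply, smul_eq_mul, mul_smul]
  · intro n j i U φ z hz
    exact ev_mem _ _ _ (fun σ hσ => Submodule.smul_mem _ _
      (sg_mem ((range_sub σ _).trans hσ))) hz
  · intro n j i U φ z hφ hz
    refine (Submodule.mem_bot k).1 (ev_mem ⊥ _ _ (fun σ hσ => ?_) hz)
    rw [hφ (fr i σ) ((range_sub σ _).trans hσ), zero_smul]
    exact Submodule.zero_mem _
  · intro n j i h
    refine ⟨(-1) ^ i, -(-1) ^ i, fun φ z => ?_⟩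
    rw [bd_cap h]
    simp [sub_eq_add_neg]
  · intro n φ z
    rw [cap, ev_map]
    congr 2
    funext σ
    simp [aug, ev_sg, fr_self]
  · intro n j i φ ψ z
    rw [cap', cap', cap', ← ev_add]
    congr 2
    funext σ
    simp only [Pi.add_apply, add_smul]
  · intro n j i r φ z
    rw [cap', cap', ← ev_smul]
    congr 2
    funext σ
    simp only [Pi.smul_apply, smul_eq_mul, mul_smul]
  · intro n j i U φ z hz
    exact ev_mem _ _ _ (fun σ hσ => Submodule.smul_mem _ _
      (sg_mem ((range_sub σ _).trans hσ))) hz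
  · intro n j i U φ z hφ hz
    refine (Submodule.mem_bot k).1 (ev_mem ⊥ _ _ (fun σ hσ => ?_) hz)
    rw [hφ (bk i σ) ((range_sub σ _).trans hσ), zero_smul]
    exact Submodule.zero_mem _
  · intro n j i h
    refine ⟨1, -(-1) ^ j, fun φ z => ?_⟩
    rw [bd_cap' h]
    simp [sub_eq_add_neg]
  · intro n φ z
    rw [cap', ev_map]
    congr 2
    funext σ
    simp [aug, ev_sg, bk_self]

end Crest.Agent.N255.Tp

end
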