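import Crest.Agent.N255.Tp.Uct

/-!
# Row 255, block D (helper17): detection from Poincaré duality
-/

set_option autoImplicit false
open Set

noncomputable section

namespace Crest.Agent.N255.Tp

namespace Det

open Uct

section ring

variable {k : Type} [CommRing k] {X : Type} [TopologicalSpace X] {n : ℕ} {A : Type}
  [AddCommGroup A] [Module k A]

theorem lin_ext {B : Type} [AddCommGroup B] [Module k B] {f g : Ch k n X →ₗ[k] B}
    (h : ∀ σ, f (sg k σ) = g (sg k σ)) : f = g :=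
  Finsupp.lhom_ext' fun σ => LinearMap.ext_ring (h σ)

theorem cob_ev (φ : Co A n X) (σ : Sx (n + 1) X) : cob k φ σ = ev k φ (bd k (sg k σ)) := by
  rw [← cob_lin]; simp only [ev_sg]

theorem ev_bd (φ : Co A n X) (c : Ch k (n + 1) X) : ev k φ (bd k c) = ev k (cob k φ) c := by
  have : ev k φ ∘ₗ bd k = ev k (cob k φ) := lin_ext fun σ => by
    rw [LinearMap.comp_apply, ev_sg, cob_ev]
  exact LinearMap.congr_fun this c

theorem ev_van {P : Sb X} {φ : Co A n X} (h : φ ∈ P.van k A n) {c : Ch k n X}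
    (hc : c ∈ P.ch k n) : ev k φ c = 0 := by
  rw [ev, Finsupp.linearCombination_apply, Finsupp.sum]
  exact Finset.sum_eq_zero fun σ hσ => by rw [h σ (hc hσ), smul_zero]

theorem ev_B {P : Sb X} {φ : Co A n X} (h : φ ∈ P.Z k A n) {c : Ch k n X}
    (hc : c ∈ P.B k n) : ev k φ c = 0 := by
  obtain ⟨x, hx, rfl⟩ := hc
  rw [ev_bd]; exact ev_van h hx

theorem mem_Z {P : Sb X} {φ : Co A n X} (h : ∀ c ∈ P.B k n, ev k φ c = 0) : φ ∈ P.Z k A n :=
  fun σ hσ => by
    rw [cob_ev]; exact h _ ⟨_, sg_mem P hσ, rfl⟩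

theorem ev_cup {i j : ℕ} (φ : Co k i X) (b : Co k j X) (z : Ch k n X) :
    ev k (cup (LinearMap.mul k k) n φ b) z = ev k b (cap j φ z) := by
  have : ev k (cup (LinearMap.mul k k) n φ b) = ev k b ∘ₗ cap j φ := lin_ext fun σ => by
    simp only [LinearMap.comp_apply, cap, ev_sg, map_smul, cup, LinearMap.mul_apply', smul_eq_mul]
  exact LinearMap.congr_fun this z

theorem ev_cup' {i j : ℕ} (φ : Co k i X) (b : Co k j X) (z : Ch k n X) :
    ev k (cup (LinearMap.mul k k) n b φ) z = ev k b (cap' j φ z) := by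
  have : ev k (cup (LinearMap.mul k k) n b φ) = ev k b ∘ₗ cap' j φ := lin_ext fun σ => by
    simp only [LinearMap.comp_apply, cap', ev_sg, map_smul, cup, LinearMap.mul_apply', smul_eq_mul,
      mul_comm]
  exact LinearMap.congr_fun this z

end ring

variable {k : Type} [Field k] {X : Type} [TopologicalSpace X] {n : ℕ} {A : Type}
  [AddCommGroup A] [Module k A]

/-- a cochain which kills the cycles of `P` is exact on `P` -/
theorem ex_of_cyc (P : Sb X) (b : Co A n X)
    (h : ∀ c ∈ P.ch k n, c ∈ cyc k X n → ev k b c = 0) : b ∈ P.Ex k A n := by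
  cases n with
  | zero => exact fun σ hσ => by rw [← ev_sg (k := k) b]; exact h _ (sg_mem P hσ) trivial
  | succ n =>
    obtain ⟨e, -, he⟩ := factor_rel (P.ch k (n + 1)) ⊥ (bd k) (ev k b) fun c hc h0 => h c hc h0
    refine Submodule.mem_sup.2 ⟨_, ⟨fun σ => e (sg k σ), rfl⟩, b - cob k fun σ => e (sg k σ),
      fun σ hσ => ?_, by abel⟩
    rw [Pi.sub_apply, cob_lin, he _ (sg_mem P hσ), ev_sg, sub_self]

/-- a chain which is killed by the cochains closed on `P` bounds in `P` -/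
theorem mem_B (P : Sb X) (c : Ch k n X) (h : ∀ b ∈ P.Z k k n, ev k b c = 0) : c ∈ P.B k n := by
  by_contra hc
  obtain ⟨b, hb, hne⟩ := (uctS_holds k X n).1 _ c hc
  exact hne (h b (mem_Z hb))

end Det

open Det in
theorem detS_of (hP : PdS) (hC : CapS) : DetS := by
  intro k _ d X _ _ _ O hO U hU pr hpr
  obtain ⟨D, hD, hev⟩ : ∃ D : ∀ {n : ℕ} (j : ℕ) {i : ℕ}, Co k i X → Ch k n X →ₗ[k] Ch k j X,
      CapLike k X D ∧ ∀ i j (φ : Co k i X) (b : Co k j X) (z : Ch k (d + 1) X),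
        ev k (pr φ b) z = ev k b (D j φ z) := by
    rcases hpr with h | h
    · exact ⟨fun j _ φ => cap j φ, (hC k X).1, fun i j φ b z => by rw [h, ev_cup]⟩
    · exact ⟨fun j _ φ => cap' j φ, (hC k X).2, fun i j φ b z => by rw [h, ev_cup']⟩
  obtain ⟨h1, h2⟩ := hP k d X O hO D hD U hU
  refine ⟨fun i j hij b hb h => ex_of_cyc _ b fun c hc hz => ?_,
    fun i j hij K φ z hK hKU hφ h0 hz hF h => h2 i φ ⟨K, hK, hKU, hφ⟩ h0 fun j' hj' => ?_⟩
  · obtain ⟨φ, -, h0, K, z, hK, hKU, hφ, hzU, hF, hB⟩ := h1 i j hij c hc hz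
    have e1 := h K φ z hK hKU hφ h0 hzU hF
    have e2 := ev_B hb hB
    rw [map_sub, ← hev, e1, zero_sub, neg_eq_zero] at e2
    exact e2
  · obtain rfl : j' = j := by omega
    refine ⟨K, z, hK, hKU, hφ, hz, hF, ?_⟩
    rw [sub_zero]
    exact mem_B _ _ fun b hb => by rw [← hev]; exact h b hb

end Crest.Agent.N255.Tp

end
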