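import Crest.Agent.N255.Tp.Pd
import Crest.Agent.N255.Tp.Sm
import Crest.Agent.N255.Tp.Cell
import Crest.Agent.N255.Tp.LocH
import Crest.Agent.N255.Tp.Uct
import Crest.Agent.N255.Tp.OInd
import Crest.Agent.N255.Tp.Det
import Crest.Agent.N255.Tp.Cap
import Crest.Agent.N255.Tp.Van

/-!
# Row 255, block D (helper72): the closed forms of the duality statements
-/

set_option autoImplicit false

namespace Crest.Agent.N255.Tp

theorem pdS_holds : PdS :=
  pdS_of smVanS_holds smChS_holds fundS_holds cellS_holds locS_holds uctS_holds openIndS_holds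

theorem detS_holds : DetS := detS_of pdS_holds capS_holds

theorem vanS_holds : VanS := vanS_of smVanS_holds locS_holds

theorem ndS_holds : NdS := ndS_of smVanS_holds locS_holds

end Crest.Agent.N255.Tp
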