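import Crest.Agent.N255.Tp.Cap
import Crest.Agent.N255.Tp.Basic

/-!
# Row 255, block D (helper85): the cup-one product and the commutativity of the cup product

Steenrod's join formula on lists; only faces of a simplex are used, so everything holds for any family
`P : Sb X`.
-/

set_option autoImplicit false
open Set Filter Topology
open Crest.Agent.R251.Sm (B B_add B_sub B_eq_sum B_hom B_zero)

noncomputable section

namespace Crest.Agent.N255.Tp

namespace Cp

section lists

variable {T T' M : Type} [AddCommGroup M]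

/-- sign of the degree -/
def sn (x : List T) : ℤ := (-1) ^ (x.length + 1)

theorem sn_cons (v : T) (x : List T) : sn (v :: x) = -sn x := by simp [sn, pow_succ]

theorem sn_sn (x : List T) (a : M) : sn x • sn x • a = a := by
  rw [smul_smul, sn, ← pow_add, Even.neg_one_pow ⟨_, rfl⟩, one_smul]

theorem sn_nil : sn ([] : List T) = -1 := by simp [sn]

theorem B_zsmul (z : ℤ) (φ : List T → M) (l : List T) : B (fun l' => z • φ l') l = z • B φ l :=
  B_hom (DistribSMul.toAddMonoidHom M z) φ l

theorem B_neg (φ : List T → M) (l : List T) : B (fun l' => -φ l') l = -B φ l :=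
  B_hom (negAddMonoidHom (α := M)) φ l

/-- value at a pair -/
def eb (x y : List T) : (List T → List T → M) →+ M where
  toFun Φ := Φ x y
  map_zero' := rfl
  map_add' _ _ := rfl

/-- cone in the first variable -/
def c1 (v : T) : (List T → List T → M) →+ (List T → List T → M) where
  toFun Φ x y := Φ (v :: x) y
  map_zero' := rfl
  map_add' _ _ := rfl

/-- cone in the second variable -/
def c2 (v : T) : (List T → List T → M) →+ (List T → List T → M) where
  toFun Φ x y := sn x • Φ x (v :: y)
  map_zero' := by funext x y; simp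
  map_add' _ _ := by funext x y; simp

/-- total coboundary -/
def BB (Φ : List T → List T → M) (x y : List T) : M := B (fun x' => Φ x' y) x + sn x • B (Φ x) y

theorem c1_BB (v : T) (Φ : List T → List T → M) : c1 v (BB Φ) = Φ - BB (c1 v Φ) := by
  funext x y
  show BB Φ (v :: x) y = Φ x y - BB (fun x y => Φ (v :: x) y) x y
  simp only [BB, B, sn_cons, neg_smul]
  abel

theorem c2_BB (v : T) (Φ : List T → List T → M) : c2 v (BB Φ) = Φ - BB (c2 v Φ) := by
  funext x y
  show sn x • BB Φ x (v :: y) = Φ x y - BB (fun x y => sn x • Φ x (v :: y)) x y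
  have h : B (fun x' => sn x' • Φ x' (v :: y)) x = -(sn x • B (fun x' => Φ x' (v :: y)) x) := by
    rw [← B_zsmul, ← B_neg]
    refine R251.Sm.B_congr _ _ _ fun l' hl' => ?_
    simp only [sn, hl'.length, pow_succ]
    simp
  simp only [BB, B, h, smul_add, smul_sub, B_zsmul, sn_sn]
  abel

/-- Alexander-Whitney diagonal -/
def DD : List T → (List T → List T → M) →+ M
  | [] => 0
  | v :: l => eb [v] (v :: l) + (DD l).comp (c1 v)

/-- the transposed diagonal -/
def DT : List T → (List T → List T → M) →+ M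
  | [] => 0
  | v :: l => eb (v :: l) [v] + (DT l).comp (c2 v)

/-- the homotopy -/
def HH : List T → (List T → List T → M) →+ M
  | [] => 0
  | v :: l => -(HH l).comp (c1 v) - (DT l).comp ((c2 v).comp (c1 v))

theorem DD_cons (v : T) (l : List T) (Φ : List T → List T → M) :
    DD (v :: l) Φ = Φ [v] (v :: l) + DD l (c1 v Φ) := rfl

theorem DT_cons (v : T) (l : List T) (Φ : List T → List T → M) :
    DT (v :: l) Φ = Φ (v :: l) [v] + DT l (c2 v Φ) := rfl

theorem HH_cons (v : T) (l : List T) (Φ : List T → List T → M) :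
    HH (v :: l) Φ = -HH l (c1 v Φ) - DT l (c2 v (c1 v Φ)) := rfl

theorem DT_BB (l : List T) (Φ : List T → List T → M) :
    DT l (BB Φ) = B (fun l' => DT l' Φ) l + sn l • Φ l [] + Φ [] l := by
  induction l generalizing Φ with
  | nil => simp [DT, B, sn_nil]
  | cons v l ih =>
    rw [DT_cons, c2_BB, map_sub, ih]
    have e1 : c2 v Φ l [] = sn l • Φ l [v] := rfl
    have e2 : c2 v Φ [] l = sn ([] : List T) • Φ [] (v :: l) := rfl
    simp only [B, BB, DT_cons, B_add, e1, e2, sn_sn, sn_nil, sub_zero, neg_smul, one_smul]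
    abel

theorem HH_BB (l : List T) (Φ : List T → List T → M) :
    HH l (BB Φ) + B (fun l' => HH l' Φ) l = DD l Φ - DT l Φ := by
  induction l generalizing Φ with
  | nil => simp [HH, DD, DT, B]
  | cons v l ih =>
    have e1 : c2 v (c1 v Φ) l [] = sn l • Φ (v :: l) [v] := rfl
    have e2 : c2 v (c1 v Φ) [] l = sn ([] : List T) • Φ [v] (v :: l) := rfl
    rw [HH_cons, c1_BB, map_sub, map_sub, c2_BB, map_sub, map_sub, DT_BB,
      eq_sub_of_add_eq (ih (c1 v Φ)), e1, e2]
    simp only [B, HH_cons, DD_cons, DT_cons, B_sub, B_neg, sn_sn, sn_nil, neg_smul, one_smul]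
    abel

theorem DD_eq (l : List T) (Φ : List T → List T → M) :
    DD l Φ = ∑ t ∈ Finset.range l.length, Φ (l.take (t + 1)) (l.drop t) := by
  induction l generalizing Φ with
  | nil => simp [DD]
  | cons v l ih =>
    rw [DD_cons, ih, List.length_cons, Finset.sum_range_succ', add_comm]
    simp only [List.take_succ_cons, List.drop_succ_cons, List.take_zero, List.drop_zero]
    rfl

theorem DT_eq (l : List T) (Φ : List T → List T → M) :
    DT l Φ = ∑ t ∈ Finset.range l.length,
      (-1 : ℤ) ^ (t * (l.length - 1 - t)) • Φ (l.drop t) (l.take (t + 1)) := by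
  induction l generalizing Φ with
  | nil => simp [DT]
  | cons v l ih =>
    rw [DT_cons, ih, List.length_cons, Finset.sum_range_succ', add_comm]
    simp only [List.take_succ_cons, List.drop_succ_cons, List.take_zero, List.drop_zero, zero_mul,
      pow_zero, one_smul]
    congr 1
    refine Finset.sum_congr rfl fun t ht => ?_
    rw [Finset.mem_range] at ht
    show _ • sn (l.drop t) • Φ (l.drop t) (v :: l.take (t + 1)) = _
    rw [smul_smul, sn, ← pow_add, List.length_drop]
    obtain ⟨s, hs⟩ : ∃ s, l.length = t + s + 1 := ⟨l.length - 1 - t, by omega⟩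
    rw [hs, show t + s + 1 - 1 - t = s by omega, show t + s + 1 - t + 1 = s + 2 by omega,
      show t + s + 1 + 1 - 1 - (t + 1) = s by omega, show t * s + (s + 2) = (t + 1) * s + 2 by ring,
      pow_add]
    simp

theorem DT_zero (l : List T) (Φ : List T → List T → M)
    (h : ∀ x y, x.Sublist l → y.Sublist l → Φ x y = 0) : DT l Φ = 0 := by
  rw [DT_eq]
  exact Finset.sum_eq_zero fun t _ => by
    rw [h _ _ (List.drop_sublist _ _) (List.take_sublist _ _), smul_zero]

theorem HH_zero (l : List T) (Φ : List T → List T → M)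
    (h : ∀ x y, x.Sublist l → y.Sublist l → Φ x y = 0) : HH l Φ = 0 := by
  induction l generalizing Φ with
  | nil => rfl
  | cons v l ih =>
    rw [HH_cons, ih (c1 v Φ) fun x y hx hy => h (v :: x) y (hx.cons_cons v) (hy.cons v), DT_zero]
    · simp
    · intro x y hx hy
      show sn x • Φ (v :: x) (v :: y) = 0
      rw [h _ _ (hx.cons_cons v) (hy.cons_cons v), smul_zero]

theorem HH_congr (l : List T) {Φ Ψ : List T → List T → M}
    (h : ∀ x y, x.Sublist l → y.Sublist l → Φ x y = Ψ x y) : HH l Φ = HH l Ψ := by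
  rw [← sub_eq_zero, ← map_sub]
  exact HH_zero _ _ fun x y hx hy => sub_eq_zero.2 (h x y hx hy)

theorem HH_map (f : T → T') (l : List T) (Φ : List T' → List T' → M) :
    HH (l.map f) Φ = HH l fun x y => Φ (x.map f) (y.map f) := by
  induction l generalizing Φ with
  | nil => rfl
  | cons v l ih =>
    rw [List.map_cons, HH_cons, HH_cons, ih, DT_eq, DT_eq, List.length_map]
    congr 1
    refine Finset.sum_congr rfl fun t _ => ?_
    show _ • sn _ • Φ _ _ = _ • sn _ • Φ _ _
    simp [sn, List.map_drop, List.map_take]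

theorem exists_erase {x l : List T} (h : x.Sublist l) (hl : x.length < l.length) :
    ∃ t < l.length, x.Sublist (l.eraseIdx t) := by
  induction h with
  | slnil => simp at hl
  | cons a h _ => exact ⟨0, by simp, h⟩
  | cons_cons a h ih =>
    obtain ⟨t, ht, h'⟩ := ih (by simpa using hl)
    exact ⟨t + 1, by simpa using ht, h'.cons_cons a⟩

theorem getD_erase (l : List ℕ) (t s : ℕ) : (l.eraseIdx t).getD s 0 = l.getD (sk t s) 0 := by
  simp only [List.getD_eq_getElem?_getD, List.getElem?_eraseIdx, sk]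
  split_ifs <;> rfl

end lists

variable {X : Type} [TopologicalSpace X] {m n i j : ℕ}
variable {k : Type} [CommRing k] {A A' A'' : Type} [AddCommGroup A] [Module k A] [AddCommGroup A']
  [Module k A'] [AddCommGroup A''] [Module k A'']

theorem neg_pow_smul (t : ℕ) (a : A) : (-1 : k) ^ t • a = (-1 : ℤ) ^ t • a := by
  rw [← Int.cast_smul_eq_zsmul k]; simp

theorem sb_erase (σ : Sx n X) (l : List ℕ) {t : ℕ} :
    sb σ m (fun s => (l.eraseIdx t).getD s 0) = sb (sb σ (m + 1) fun s => l.getD s 0) m (sk t) := by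
  rw [sb_sb]
  refine sb_congr σ fun s hs => ?_
  rw [getD_erase, min_eq_left (a := sk t s) (by simp only [sk]; split_ifs <;> omega)]

theorem sb_mem (P : Sb X) (σ : Sx n X) : ∀ (m : ℕ) (l : List ℕ), l.length = m + 1 →
    sb σ m (fun s => l.getD s 0) ∈ P.S m → ∀ x : List ℕ, x.Sublist l → x.length = i + 1 →
    sb σ i (fun s => x.getD s 0) ∈ P.S i := by
  intro m
  induction m with
  | zero =>
    intro l hl h x hx hi
    have := hx.length_le
    obtain rfl : i = 0 := by omega
    rwa [hx.eq_of_length (by omega)]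
  | succ m ih =>
    intro l hl h x hx hi
    rcases hx.length_le.eq_or_lt with e | e
    · obtain rfl : i = m + 1 := by omega
      rwa [hx.eq_of_length e]
    · obtain ⟨t, ht, h'⟩ := exists_erase hx e
      refine ih (l.eraseIdx t) (by rw [List.length_eraseIdx_of_lt ht]; omega) ?_ x h' hi
      rw [sb_erase σ l]
      have := P.fc_mem m _ ⟨t, by omega⟩ h
      rwa [fc_eq] at this

theorem sb_range (σ : Sx n X) : sb σ n (fun s => (List.range (n + 1)).getD s 0) = σ := by
  conv_rhs => rw [← sb_id σ]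
  refine sb_congr σ fun s hs => ?_
  simp [List.getD_eq_getElem?_getD, List.getElem?_range (show s < n + 1 by omega)]

/-- a cochain, read on lists of vertices of `σ` -/
def lc (σ : Sx n X) (φ : Co A i X) (x : List ℕ) : A :=
  if x.length = i + 1 then φ (sb σ i fun s => x.getD s 0) else 0

theorem B_lc (σ : Sx n X) (φ : Co A i X) (x : List ℕ) : B (lc σ φ) x = lc σ (cob k φ) x := by
  rw [B_eq_sum, Fin.sum_univ_eq_sum_range (fun t => (-1 : ℤ) ^ t • lc σ φ (x.eraseIdx t))]
  by_cases h : x.length = i + 1 + 1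
  · rw [lc, if_pos h, cob_eq, h]
    refine Finset.sum_congr rfl fun t ht => ?_
    rw [Finset.mem_range] at ht
    rw [lc, if_pos (by rw [List.length_eraseIdx_of_lt (by omega)]; omega), neg_pow_smul (k := k),
      sb_erase σ x (m := i)]
  · rw [lc, if_neg h]
    refine Finset.sum_eq_zero fun t ht => ?_
    rw [Finset.mem_range] at ht
    rw [lc, if_neg (by rw [List.length_eraseIdx_of_lt ht]; omega), smul_zero]

theorem lc_zero {P : Sb X} {σ : Sx n X} (hσ : σ ∈ P.S n) {φ : Co A i X} (h : φ ∈ P.van k A i)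
    {x : List ℕ} (hx : x.Sublist (List.range (n + 1))) : lc σ φ x = 0 := by
  unfold lc
  split_ifs with e
  · exact h _ (sb_mem P σ n _ (by simp) (by rwa [sb_range]) x hx e)
  · rfl

theorem lc_sb (σ : Sx n X) (f : ℕ → ℕ) (φ : Co A i X) {x : List ℕ}
    (hx : x.Sublist (List.range (m + 1))) : lc (sb σ m f) φ x = lc σ φ (x.map f) := by
  unfold lc
  rw [List.length_map]
  split_ifs with e
  · rw [sb_sb]
    congr 1
    refine sb_congr σ fun s hs => ?_
    have h1 : s < x.length := by omega
    have h2 : x[s] < m + 1 := List.mem_range.1 (hx.subset (List.getElem_mem h1))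
    simp only [List.getD_eq_getElem?_getD, List.getElem?_map, List.getElem?_eq_getElem h1,
      Option.getD_some, Option.map_some]
    rw [min_eq_left (a := x[s]) (by omega)]
  · rfl

theorem map_sk (n t : ℕ) (ht : t < n + 2) :
    (List.range (n + 1)).map (sk t) = (List.range (n + 2)).eraseIdx t := by
  apply List.ext_getElem?
  intro s
  rw [List.getElem?_eraseIdx, List.getElem?_map]
  by_cases hs : s < n + 1
  · rw [List.getElem?_range hs]
    simp only [sk, Option.map_some]
    split_ifs
    · rw [List.getElem?_range (by omega)]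
    · rw [List.getElem?_range (by omega)]
  · rw [List.getElem?_eq_none (by simp; omega), if_neg (by omega),
      List.getElem?_eq_none (by simp; omega)]
    rfl

theorem lc_take (σ : Sx n X) (φ : Co A i X) (h : i ≤ n) :
    lc σ φ ((List.range (n + 1)).take (i + 1)) = φ (fr i σ) := by
  rw [lc, if_pos (by simp; omega), fr_eq]
  congr 1
  refine sb_congr σ fun s hs => ?_
  rw [List.getD_eq_getElem?_getD, List.getElem?_take_of_lt (by omega),
    List.getElem?_range (by omega)]
  rfl

theorem lc_drop (σ : Sx n X) (φ : Co A j X) (h : i + j = n) :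
    lc σ φ ((List.range (n + 1)).drop i) = φ (bk j σ) := by
  rw [lc, if_pos (by simp; omega), bk_eq]
  congr 1
  refine sb_congr σ fun s hs => ?_
  rw [List.getD_eq_getElem?_getD, List.getElem?_drop, List.getElem?_range (by omega)]
  simp only [Option.getD_some]
  omega

end Cp

open Cp

variable {X Y : Type} [TopologicalSpace X] [TopologicalSpace Y] {m n i j : ℕ}
variable {k : Type} [CommRing k] {A A' A'' : Type} [AddCommGroup A] [Module k A] [AddCommGroup A']
  [Module k A'] [AddCommGroup A''] [Module k A'']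

/-- Steenrod's cup-one product (meant for `i + j = n + 1`) -/
def cup1 (μ : A →ₗ[k] A' →ₗ[k] A'') (n : ℕ) {i j : ℕ} (φ : Co A i X) (ψ : Co A' j X) :
    Co A'' n X :=
  fun σ => HH (List.range (n + 1)) fun x y => μ (lc σ φ x) (lc σ ψ y)

theorem cup1_van_left (μ : A →ₗ[k] A' →ₗ[k] A'') (n : ℕ) {P : Sb X} {φ : Co A i X}
    (h : φ ∈ P.van k A i) (ψ : Co A' j X) : cup1 μ n φ ψ ∈ P.van k A'' n := fun σ hσ =>
  HH_zero _ _ fun x y hx _ => by rw [lc_zero hσ h hx, map_zero, LinearMap.zero_apply]

theorem cup1_van_right (μ : A →ₗ[k] A' →ₗ[k] A'') (n : ℕ) {P : Sb X} (φ : Co A i X)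
    {ψ : Co A' j X} (h : ψ ∈ P.van k A' j) : cup1 μ n φ ψ ∈ P.van k A'' n := fun σ hσ =>
  HH_zero _ _ fun x y _ hy => by rw [lc_zero hσ h hy, map_zero]

/-- **coboundary of the cup-one product** -/
theorem cob_cup1 (μ : A →ₗ[k] A' →ₗ[k] A'') (h : i + j = n + 1) (φ : Co A i X) (ψ : Co A' j X) :
    cob k (cup1 μ n φ ψ) = cup μ (n + 1) φ ψ - (-1 : k) ^ (i * j) • cup μ.flip (n + 1) ψ φ -
      cup1 μ (n + 1) (cob k φ) ψ - (-1 : k) ^ i • cup1 μ (n + 1) φ (cob k ψ) := by
  funext σ
  set Φ : List ℕ → List ℕ → A'' := fun x y => μ (lc σ φ x) (lc σ ψ y) with hΦ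
  have h0 := HH_BB (List.range (n + 2)) Φ
  have h1 : B (fun l' => HH l' Φ) (List.range (n + 2)) = cob k (cup1 μ n φ ψ) σ := by
    rw [B_eq_sum, Fin.sum_univ_eq_sum_range
      (fun t => (-1 : ℤ) ^ t • HH ((List.range (n + 2)).eraseIdx t) Φ), cob_eq, List.length_range]
    refine Finset.sum_congr rfl fun t ht => ?_
    rw [neg_pow_smul (k := k), ← map_sk n t (Finset.mem_range.1 ht), HH_map]
    congr 1
    exact HH_congr _ fun x y hx hy => by rw [lc_sb σ _ φ hx, lc_sb σ _ ψ hy]
  have h2 : BB Φ = (fun x y => μ (lc σ (cob k φ) x) (lc σ ψ y)) +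
      (-1 : ℤ) ^ i • fun x y => μ (lc σ φ x) (lc σ (cob k ψ) y) := by
    funext x y
    have a1 := B_hom (μ.flip (lc σ ψ y)).toAddMonoidHom (lc σ φ) x
    have a2 := B_hom (μ (lc σ φ x)).toAddMonoidHom (lc σ ψ) y
    rw [B_lc (k := k)] at a1 a2
    show B (fun x' => μ (lc σ φ x') (lc σ ψ y)) x + sn x • B (fun y' => μ (lc σ φ x) (lc σ ψ y')) y =
      μ (lc σ (cob k φ) x) (lc σ ψ y) + (-1 : ℤ) ^ i • μ (lc σ φ x) (lc σ (cob k ψ) y)
    refine congrArg₂ (· + ·) a1 ?_
    rw [show B (fun y' => μ (lc σ φ x) (lc σ ψ y')) y = μ (lc σ φ x) (lc σ (cob k ψ) y) from a2]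
    by_cases e : x.length = i + 1
    · rw [sn, e, add_assoc, pow_add]; simp
    · rw [lc, if_neg e]; simp
  have h3 : DD (List.range (n + 2)) Φ = cup μ (n + 1) φ ψ σ := by
    rw [DD_eq, List.length_range, Finset.sum_eq_single i]
    · simp only [hΦ]
      rw [lc_take σ φ (by omega), lc_drop σ ψ h]
      rfl
    · intro t ht hti
      rw [Finset.mem_range] at ht
      simp only [hΦ]
      rw [lc, if_neg (by simp; omega)]
      simp
    · intro hi
      exact absurd (Finset.mem_range.2 (by omega)) hi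
  have h4 : DT (List.range (n + 2)) Φ = (-1 : k) ^ (i * j) • cup μ.flip (n + 1) ψ φ σ := by
    rw [DT_eq, List.length_range, Finset.sum_eq_single j]
    · simp only [hΦ]
      rw [lc_take σ ψ (by omega), lc_drop σ φ (i := j) (by omega), neg_pow_smul (k := k),
        show n + 2 - 1 - j = i by omega, mul_comm]
      rfl
    · intro t ht hti
      rw [Finset.mem_range] at ht
      simp only [hΦ]
      rw [lc, if_neg (by simp; omega)]
      simp
    · intro hi
      exact absurd (Finset.mem_range.2 (by omega)) hi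
  rw [h1, h2, h3, h4, map_add, map_zsmul] at h0
  simp only [Pi.sub_apply, Pi.smul_apply]
  rw [← h0, neg_pow_smul (k := k) i]
  simp only [cup1]
  abel

/-- **commutativity of the cup product** on any family; the primitive vanishes where a factor does -/
theorem cup_comm (μ : A →ₗ[k] A' →ₗ[k] A'') (h : i + j = n + 1) {P : Sb X} {φ : Co A i X}
    {ψ : Co A' j X} (hφ : φ ∈ P.Z k A i) (hψ : ψ ∈ P.Z k A' j) :
    cup μ (n + 1) φ ψ - (-1 : k) ^ (i * j) • cup μ.flip (n + 1) ψ φ - cob k (cup1 μ n φ ψ) ∈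
      P.van k A'' (n + 1) := by
  rw [cob_cup1 μ h]
  have := (P.van k A'' (n + 1)).add_mem (cup1_van_left μ (n + 1) hφ ψ)
    ((P.van k A'' (n + 1)).smul_mem ((-1 : k) ^ i) (cup1_van_right μ (n + 1) φ hψ))
  convert this using 1
  abel

theorem cup_comm_ex (μ : A →ₗ[k] A' →ₗ[k] A'') (h : i + j = n) {P : Sb X} {φ : Co A i X}
    {ψ : Co A' j X} (hφ : φ ∈ P.Z k A i) (hψ : ψ ∈ P.Z k A' j) :
    cup μ n φ ψ - (-1 : k) ^ (i * j) • cup μ.flip n ψ φ ∈ P.Ex k A'' n := by
  cases n with
  | zero =>
    obtain rfl : i = 0 := by omega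
    obtain rfl : j = 0 := by omega
    intro σ _
    simp [cup, Tp.fr_self, Tp.bk_self]
  | succ n =>
    have := (P.Ex k A'' (n + 1)).add_mem (Submodule.mem_sup_right (cup_comm μ h hφ hψ))
      (Submodule.mem_sup_left ⟨cup1 μ n φ ψ, rfl⟩)
    rwa [sub_add_cancel] at this

/-- evaluated form: `z` a chain in `P` whose boundary lies in a family `Q` on which one factor vanishes -/
theorem ev_cup_comm (μ : A →ₗ[k] A' →ₗ[k] A'') (h : i + j = n + 1) {P Q : Sb X} {φ : Co A i X}
    {ψ : Co A' j X} (hφ : φ ∈ P.Z k A i) (hψ : ψ ∈ P.Z k A' j)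
    (hQ : φ ∈ Q.van k A i ∨ ψ ∈ Q.van k A' j) {z : Ch k (n + 1) X} (hz : z ∈ P.ch k (n + 1))
    (hb : bd k z ∈ Q.ch k n) :
    ev k (cup μ (n + 1) φ ψ) z = (-1 : k) ^ (i * j) • ev k (cup μ.flip (n + 1) ψ φ) z := by
  have h1 := Sb.ev_eq_zero (cup_comm μ h hφ hψ) hz
  have h2 : ev k (cup1 μ n φ ψ) (bd k z) = 0 :=
    Sb.ev_eq_zero (hQ.elim (fun a => cup1_van_left μ n a ψ) fun a => cup1_van_right μ n φ a) hb
  rw [Tp.ev_sub, Tp.ev_sub, ← Tp.ev_bd, h2, sub_zero, Tp.ev_smul] at h1
  exact sub_eq_zero.1 h1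

theorem mul_flip : (LinearMap.mul k k).flip = LinearMap.mul k k := by
  ext; simp

end Crest.Agent.N255.Tp

end
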