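import Crest.Agent.N255.Tp.Du
import Crest.Agent.N255.Tp.Sm
import Crest.Agent.N255.Tp.Cell
import Crest.Agent.N255.Wi.All
import Crest.Agent.N255.Gs.Wc

/-!
# Row 255, block D (helper83): the K-trick

`Kt 𝒱 𝒲 A`: simplices in `A`, or with vertices in `A`, inside a member of `𝒲`, every edge inside `A` or a
member of `𝒱`.  `Kt L ⊓ Kt R = Kt (L ∩ R)`, `Kt L ⊔ Kt R = Sm {L, R}`, and `H_0, H_1, H^0, H^1` of `Kt N` are
finitely generated when the finite family `𝒱` covers `N`.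
-/

set_option autoImplicit false
open Set Filter Topology

noncomputable section

namespace Crest.Agent.N255.Tp

open Wi (FR)

variable {X : Type} [TopologicalSpace X] {n m : ℕ}

/-- vertices -/
def vx (σ : Sx n X) (t : Fin (n + 1)) : X := σ (stdSimplex.vertex t)

theorem vx_sub (σ : Sx n X) (v : Fin (m + 1) → Fin (n + 1)) (t : Fin (m + 1)) :
    vx (sub σ v) t = vx σ (v t) := congrArg σ (stdSimplex.map_vertex v t)

theorem vx_mem {A : Set X} {σ : Sx n X} (h : range σ ⊆ A) (t : Fin (n + 1)) : vx σ t ∈ A :=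
  h ⟨_, rfl⟩

theorem eq_cst (p : Sx 0 X) : p = cst 0 (vx p 0) := by
  have : Subsingleton (Dn 0) := inferInstanceAs (Subsingleton (stdSimplex ℝ (Fin 1)))
  exact ContinuousMap.ext fun t => congrArg p (Subsingleton.elim _ _)

theorem fc_edge (e : Sx 1 X) (i : Fin 2) : fc e i = cst 0 (vx e (i.succAbove 0)) := by
  rw [eq_cst (fc e i), fc, vx_sub]

theorem bd_edge (k : Type) [CommRing k] (e : Sx 1 X) :
    bd k (sg k e) = sg k (cst 0 (vx e 1)) - sg k (cst 0 (vx e 0)) := by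
  rw [bd_sg, Fin.sum_univ_two, fc_edge, fc_edge]
  simp [sub_eq_add_neg]

theorem bd_tri (k : Type) [CommRing k] (σ : Sx 2 X) :
    bd k (sg k σ) = sg k (fc σ 0) - sg k (fc σ 1) + sg k (fc σ 2) := by
  rw [bd_sg, Fin.sum_univ_three]
  simp [sub_eq_add_neg]

/-- the K-trick family -/
def Kt (𝒱 𝒲 : Set (Set X)) (A : Set X) : Sb X where
  S n := {σ | range σ ⊆ A ∨ ((∀ t, vx σ t ∈ A) ∧ (∃ W ∈ 𝒲, range σ ⊆ W) ∧
    ∀ v : Fin 2 → Fin (n + 1), range (sub σ v) ⊆ A ∨ ∃ V ∈ 𝒱, range (sub σ v) ⊆ V)}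
  fc_mem n σ i h := h.imp (range_fc σ i).trans fun ⟨a, ⟨W, hW, b⟩, c⟩ =>
    ⟨fun t => by rw [fc, vx_sub]; exact a _, ⟨W, hW, (range_fc σ i).trans b⟩,
      fun v => by rw [fc, sub_sub]; exact c _⟩

variable {𝒱 𝒲 : Set (Set X)} {A L R N : Set X}

theorem On_le_Kt : (On A).Le (Kt 𝒱 𝒲 A) := fun _ _ h => Or.inl h

theorem Kt_le_sup : (Kt 𝒱 𝒲 A).Le ((On A).sup (Sm 𝒲)) := fun _ _ h => h.imp id fun h => h.2.1

theorem Kt_le_On : (Kt 𝒱 𝒲 A).Le (On (A ∪ ⋃₀ 𝒲)) := fun _ _ h =>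
  h.elim (fun h => h.trans subset_union_left) fun ⟨_, ⟨_, hW, h⟩, _⟩ =>
    h.trans ((subset_sUnion_of_mem hW).trans subset_union_right)

theorem Kt_vx {σ : Sx n X} (h : σ ∈ (Kt 𝒱 𝒲 A).S n) (t : Fin (n + 1)) : vx σ t ∈ A :=
  h.elim (fun h => vx_mem h t) fun h => h.1 t

theorem Kt_zero : (Kt 𝒱 𝒲 A).S 0 = (On A).S 0 :=
  Set.ext fun σ => ⟨fun h => by
    rw [mem_On, range_zero, singleton_subset_iff]; exact Kt_vx h 0, Or.inl⟩

theorem Kt_mono (h : L ⊆ R) : (Kt 𝒱 𝒲 L).Le (Kt 𝒱 𝒲 R) := fun _ _ hσ =>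
  hσ.imp (·.trans h) fun ⟨a, b, c⟩ => ⟨fun t => h (a t), b, fun v => (c v).imp (·.trans h) id⟩

theorem Kt_inter : Kt 𝒱 𝒲 (L ∩ R) = (Kt 𝒱 𝒲 L).inf (Kt 𝒱 𝒲 R) := by
  have key : ∀ n, (Kt 𝒱 𝒲 (L ∩ R)).S n = ((Kt 𝒱 𝒲 L).inf (Kt 𝒱 𝒲 R)).S n := fun n => by
    refine Subset.antisymm (fun σ h => ⟨Kt_mono inter_subset_left n h,
      Kt_mono inter_subset_right n h⟩) ?_
    rintro σ ⟨h | ⟨a, b, c⟩, h' | ⟨a', b', c'⟩⟩
    · exact Or.inl (subset_inter h h')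
    · exact Or.inr ⟨fun t => ⟨vx_mem h t, a' t⟩, b', fun v =>
        (c' v).imp (subset_inter ((range_sub σ v).trans h)) id⟩
    · exact Or.inr ⟨fun t => ⟨a t, vx_mem h' t⟩, b, fun v =>
        (c v).imp (fun e => subset_inter e ((range_sub σ v).trans h')) id⟩
    · exact Or.inr ⟨fun t => ⟨a t, a' t⟩, b, fun v => (c v).elim
        (fun e => (c' v).imp (subset_inter e) id) Or.inr⟩
  cases h1 : Kt 𝒱 𝒲 (L ∩ R)
  cases h2 : (Kt 𝒱 𝒲 L).inf (Kt 𝒱 𝒲 R)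
  rw [h1, h2] at key
  obtain rfl := funext key
  rfl

theorem Kt_sup (h : ∀ W ∈ 𝒲, W ⊆ L ∨ W ⊆ R) : (Kt 𝒱 𝒲 L).sup (Kt 𝒱 𝒲 R) = Sm {L, R} := by
  have h1 : ∀ {A : Set X}, A ∈ ({L, R} : Set (Set X)) → (Kt 𝒱 𝒲 A).Le (Sm {L, R}) := fun hA =>
    Kt_le_sup.trans (Sb.sup_le (On_le_Sm hA) (Sm_le fun W hW =>
      (h W hW).elim (fun e => ⟨L, Or.inl rfl, e⟩) fun e => ⟨R, Or.inr rfl, e⟩))
  have key : ∀ n, ((Kt 𝒱 𝒲 L).sup (Kt 𝒱 𝒲 R)).S n = (Sm {L, R}).S n := fun n =>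
    Subset.antisymm (Sb.sup_le (h1 (Or.inl rfl)) (h1 (Or.inr rfl)) n) (by
      rintro σ ⟨_, rfl | rfl, e⟩
      exacts [Or.inl (Or.inl e), Or.inr (Or.inl e)])
  cases h1 : (Kt 𝒱 𝒲 L).sup (Kt 𝒱 𝒲 R)
  cases h2 : Sm ({L, R} : Set (Set X))
  rw [h1, h2] at key
  obtain rfl := funext key
  rfl

section abs

variable {k : Type} [Field k]

/-- abstract finiteness of `H_1` from a finite family of local chain modules -/
theorem fr_one_abs {ι : Type} [Finite ι] (V : ι → Set X) (E : ι → Submodule k (Ch k 1 X))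
    (C B : Submodule k (Ch k 1 X)) (hB : B ≤ cyc k X 1)
    (hE : C ≤ (⨆ i, E i ⊓ ((On (V i)).ch k 0).comap (bd k)) ⊔ B)
    (hp : ∀ i, ∀ x ∈ V i, ∀ y ∈ V i, ∃ a ∈ E i, bd k a = sg k (cst 0 y) - sg k (cst 0 x))
    (hf : ∀ i j, (V i ∩ V j).Nonempty ∨ i = j → (E i ⊔ E j) ⊓ cyc k X 1 ≤ B) :
    FR (C ⊓ cyc k X 1) B := by
  classical
  have h1 : ∀ i, ∃ (a : X → Ch k 1 X) (b : Ch k 0 X), ∀ x ∈ V i, a x ∈ E i ∧
      bd k (a x) = sg k (cst 0 x) - b := fun i => by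
    rcases (V i).eq_empty_or_nonempty with h | ⟨x0, h⟩
    · exact ⟨0, 0, by simp [h]⟩
    · choose! a ha using hp i x0 h
      exact ⟨a, _, ha⟩
  choose a b hab using h1
  let g : ι × ι → Ch k 1 X := fun q =>
    if h : (V q.1 ∩ V q.2).Nonempty then a q.1 h.some - a q.2 h.some else 0
  let F := Submodule.span k (range g)
  have c1 : ∀ i j, ∀ x ∈ V i, x ∈ V j → a i x - a j x ∈ F ⊔ B := fun i j x hi hj => by
    have hne : (V i ∩ V j).Nonempty := ⟨x, hi, hj⟩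
    have h0 := hne.some_mem
    have e : g (i, j) = a i hne.some - a j hne.some := dif_pos hne
    have h2 : a i x - a j x - g (i, j) ∈ B := hf i j (Or.inl hne) ⟨by
      rw [e]
      exact Submodule.sub_mem _ (Submodule.sub_mem _ (Submodule.mem_sup_left (hab i x hi).1)
        (Submodule.mem_sup_right (hab j x hj).1)) (Submodule.sub_mem _
        (Submodule.mem_sup_left (hab i _ h0.1).1) (Submodule.mem_sup_right (hab j _ h0.2).1)), by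
      change bd k _ = 0
      rw [e, map_sub, map_sub, map_sub, (hab i x hi).2, (hab j x hj).2, (hab i _ h0.1).2,
        (hab j _ h0.2).2]
      abel⟩
    rw [show a i x - a j x = g (i, j) + (a i x - a j x - g (i, j)) by abel]
    exact Submodule.add_mem_sup (Submodule.subset_span ⟨_, rfl⟩) h2
  let T : Ch k 0 X →ₗ[k] Ch k 1 X := ev k fun p =>
    if h : ∃ i, vx p 0 ∈ V i then a h.choose (vx p 0) else 0
  have c2 : ∀ i, E i ⊓ ((On (V i)).ch k 0).comap (bd k) ≤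
      (F ⊔ B).comap (LinearMap.id - T.comp (bd k)) := by
    rintro i c ⟨hc, hb⟩
    let Ti : Ch k 0 X →ₗ[k] Ch k 1 X := ev k fun p => a i (vx p 0)
    have d1 : Ti (bd k c) ∈ E i := Sb.ev_mem _ _ (fun p hp => (hab i _ (vx_mem hp 0)).1) hb
    have d2 : ((bd k).comp Ti - LinearMap.id + (aug k).smulRight (b i) : Ch k 0 X →ₗ[k] Ch k 0 X)
        (bd k c) ∈
        (⊥ : Submodule k (Ch k 0 X)) := Sb.map_mem _ _ (fun p hp => by
      simp only [Ti, LinearMap.add_apply, LinearMap.sub_apply, LinearMap.comp_apply, ev_sg,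
        LinearMap.id_apply, LinearMap.smulRight_apply, aug_sg, one_smul,
        (hab i _ (vx_mem hp 0)).2, ← eq_cst]
      simp) hb
    simp only [LinearMap.add_apply, LinearMap.sub_apply, LinearMap.comp_apply, LinearMap.id_apply,
      LinearMap.smulRight_apply, aug_bd, zero_smul, add_zero, Submodule.mem_bot] at d2
    have d3 : c - Ti (bd k c) ∈ B := hf i i (Or.inr rfl) ⟨Submodule.mem_sup_left
      (Submodule.sub_mem _ hc d1), by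
        change bd k _ = 0
        rw [map_sub, ← neg_sub, d2, neg_zero]⟩
    have d4 : (Ti - T) (bd k c) ∈ F ⊔ B := Sb.map_mem _ _ (fun p hp => by
      have hx : ∃ i, vx p 0 ∈ V i := ⟨i, vx_mem hp 0⟩
      simp only [Ti, T, LinearMap.sub_apply, ev_sg, dif_pos hx]
      exact c1 i _ _ (vx_mem hp 0) hx.choose_spec) hb
    have := Submodule.add_mem _ (Submodule.mem_sup_right (S := F) d3) d4
    rw [LinearMap.sub_apply, sub_add_sub_cancel] at this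
    exact this
  have c3 : C ≤ (F ⊔ B).comap (LinearMap.id - T.comp (bd k)) := hE.trans (sup_le (iSup_le c2)
    fun c hc => by
      have : bd k c = 0 := hB hc
      simpa [this] using Submodule.mem_sup_right (S := F) hc)
  refine ⟨F, Submodule.fg_span (finite_range g), fun c hc => ?_⟩
  have h0 : bd k c = 0 := hc.2
  simpa [h0] using c3 hc.1

end abs

/-- edges and triangles with prescribed boundary exist in `W` -/
structure Fil (W : Set X) : Prop where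
  edge : ∀ x ∈ W, ∀ y ∈ W, ∃ e : Sx 1 X, range e ⊆ W ∧ vx e 0 = x ∧ vx e 1 = y
  tri : ∀ a b c : Sx 1 X, range a ⊆ W → range b ⊆ W → range c ⊆ W → vx b 0 = vx c 0 →
    vx c 1 = vx a 0 → vx b 1 = vx a 1 →
    ∃ σ : Sx 2 X, range σ ⊆ W ∧ fc σ 0 = a ∧ fc σ 1 = b ∧ fc σ 2 = c

theorem wc_normed (E : Type) [NormedAddCommGroup E] [NormedSpace ℝ E] : N222.C.WC E :=
  fun _ x => ⟨fun a b => Quotient.inductionOn₂ a b fun f g => Quotient.sound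
    ⟨{ toFun := fun p => (1 - (p.1 : ℝ)) • f p.2 + (p.1 : ℝ) • g p.2
       continuous_toFun := by fun_prop
       map_zero_left := fun y => by simp
       map_one_left := fun y => by simp
       prop' := fun t y hy => by
        have h1 : f y = x := f.2 y hy
        have h2 : g y = x := g.2 y hy
        change (1 - (t : ℝ)) • f y + (t : ℝ) • g y = f y
        rw [h1, h2, ← add_smul]; simp }⟩⟩

theorem vx_comp {Y : Type} [TopologicalSpace Y] (j : C(Y, X)) (σ : Sx n Y) (t : Fin (n + 1)) :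
    vx (j.comp σ) t = j (vx σ t) := rfl

theorem fil_of_wc {Y : Type} [TopologicalSpace Y] (h : N222.C.WC Y) {j : C(Y, X)}
    (hj : IsEmbedding j) : Fil (range j) := by
  have hr : ∀ {n} (σ : Sx n Y), range (j.comp σ) ⊆ range j := fun σ => by
    rintro _ ⟨t, rfl⟩; exact ⟨_, rfl⟩
  constructor
  · rintro _ ⟨x, rfl⟩ _ ⟨y, rfl⟩
    obtain ⟨e, he⟩ := Gs.ext_zero h ![cst 0 y, cst 0 x]
    have h0 := congrArg (vx · 0) ((fc_edge e 0).symm.trans (he 0))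
    have h1 := congrArg (vx · 0) ((fc_edge e 1).symm.trans (he 1))
    exact ⟨j.comp e, hr e, congrArg j h1, congrArg j h0⟩
  · intro a b c ha hb hc e1 e2 e3
    rw [← image_univ (f := j)] at ha hb hc
    obtain ⟨a, -, rfl⟩ := exists_lift hj ha
    obtain ⟨b, -, rfl⟩ := exists_lift hj hb
    obtain ⟨c, -, rfl⟩ := exists_lift hj hc
    replace e1 : vx b 0 = vx c 0 := hj.injective e1
    replace e2 : vx c 1 = vx a 0 := hj.injective e2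
    replace e3 : vx b 1 = vx a 1 := hj.injective e3
    obtain ⟨σ, hσ⟩ := Gs.ext_succ h ![a, b, c] fun i j => by
      rw [fc_edge, fc_edge]
      fin_cases i <;> fin_cases j
      all_goals first
        | exact congrArg _ e1 | exact congrArg _ e1.symm | exact congrArg _ e2
        | exact congrArg _ e2.symm | exact congrArg _ e3 | exact congrArg _ e3.symm
    exact ⟨j.comp σ, hr σ, congrArg j.comp (hσ 0), congrArg j.comp (hσ 1), congrArg j.comp (hσ 2)⟩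

theorem fil_cell {d : ℕ} {j : C(EE d, X)} (hj : IsEmbedding j) : Fil (range j) :=
  fil_of_wc (wc_normed _) hj

/-- admissible pairs of families for the K-trick -/
structure KF (𝒱 𝒲 : Set (Set X)) : Prop where
  fin : 𝒱.Finite
  op : ∀ V ∈ 𝒱, IsOpen V
  fil : ∀ V ∈ 𝒱, Fil V
  star : ∀ V ∈ 𝒱, ∀ V' ∈ 𝒱, (V ∩ V').Nonempty → ∃ W ∈ 𝒲, V ∪ V' ⊆ W ∧ Fil W

/-- existence of admissible families along a compact set, subordinate to open covers -/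
theorem exists_KF {d : ℕ} [T2Space X] [ChartedSpace (EE d) X] {K : Set X} (hK : IsCompact K)
    (𝒞 : Set (Set X)) (hC : ∀ C ∈ 𝒞, IsOpen C) (hKC : K ⊆ ⋃₀ 𝒞) :
    ∃ 𝒱 𝒲 : Set (Set X), KF 𝒱 𝒲 ∧ K ⊆ ⋃₀ 𝒱 ∧ 𝒲.Finite ∧
      ∀ W ∈ 𝒲, IsOpen W ∧ Fil W ∧ ∃ C ∈ 𝒞, W ⊆ C := by
  classical
  have := ChartedSpace.locallyCompactSpace (EE d) X
  have h1 : ∀ x : K, ∃ W Q : Set X, (IsOpen W ∧ Fil W ∧ ∃ C ∈ 𝒞, W ⊆ C) ∧ IsCompact Q ∧
      x.1 ∈ interior Q ∧ Q ⊆ W := fun x => by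
    obtain ⟨C, h1, h2⟩ := hKC x.2
    obtain ⟨j, a, b, c⟩ := Wi.exists_cell (d := d) (hC C h1) h2
    obtain ⟨Q, e, f, g⟩ := exists_compact_subset a.isOpen_range (⟨0, b⟩ : x.1 ∈ range j)
    exact ⟨_, Q, ⟨a.isOpen_range, fil_cell a.isEmbedding, C, h1, c⟩, e, f, g⟩
  choose W Q hW hQ hx hQW using h1
  obtain ⟨t, ht⟩ := hK.elim_finite_subcover (fun x : K => interior (Q x))
    (fun _ => isOpen_interior) fun x h => mem_iUnion.2 ⟨⟨x, h⟩, hx ⟨x, h⟩⟩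
  have h2 : ∀ x : K, ∃ V : Set X, IsOpen V ∧ Fil V ∧ x.1 ∈ V ∧ (∃ a ∈ t, V ⊆ Q a) ∧
      ∀ a ∈ t, (V ∩ Q a).Nonempty → V ⊆ W a := fun x => by
    obtain ⟨a, ha, hxa⟩ := mem_iUnion₂.1 (ht x.2)
    have ho : IsOpen (interior (Q a) ∩ ⋂ b ∈ t, if x.1 ∈ Q b then W b else (Q b)ᶜ) :=
      isOpen_interior.inter (isOpen_biInter_finset fun b _ => by
        split_ifs
        exacts [(hW b).1, (hQ b).isClosed.isOpen_compl])
    obtain ⟨j, e1, e2, e3⟩ := Wi.exists_cell (d := d) ho (x := x.1) ⟨hxa, mem_iInter₂.2 fun b _ => by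
      split_ifs with h
      exacts [hQW b h, h]⟩
    refine ⟨_, e1.isOpen_range, fil_cell e1.isEmbedding, ⟨0, e2⟩,
      ⟨a, ha, fun y hy => interior_subset (e3 hy).1⟩, fun b hb ⟨y, hy, hy'⟩ z hz => ?_⟩
    have f1 := mem_iInter₂.1 (e3 hy).2 b hb
    have f2 := mem_iInter₂.1 (e3 hz).2 b hb
    split_ifs at f1 f2
    exacts [f2, (f1 hy').elim]
  choose V hVo hVf hxV hVQ hVW using h2
  obtain ⟨s, hs⟩ := hK.elim_finite_subcover V hVo fun x h => mem_iUnion.2 ⟨⟨x, h⟩, hxV ⟨x, h⟩⟩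
  refine ⟨V '' s, W '' t, ⟨s.finite_toSet.image _, ?_, ?_, ?_⟩, fun x h => ?_,
    t.finite_toSet.image _, ?_⟩
  · rintro _ ⟨x, -, rfl⟩; exact hVo x
  · rintro _ ⟨x, -, rfl⟩; exact hVf x
  · rintro _ ⟨x, -, rfl⟩ _ ⟨y, -, rfl⟩ ⟨z, h1, h2⟩
    obtain ⟨a, ha, e⟩ := hVQ x
    exact ⟨W a, ⟨a, ha, rfl⟩, union_subset (e.trans (hQW a)) (hVW y a ha ⟨z, h2, e h1⟩), (hW a).2.1⟩
  · obtain ⟨y, hy, e⟩ := mem_iUnion₂.1 (hs h)
    exact ⟨_, ⟨y, hy, rfl⟩, e⟩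
  · rintro _ ⟨a, -, rfl⟩; exact hW a

/-- edges in `V` with vertices in `N` -/
def Ed (N V : Set X) : Set (Sx 1 X) := {e | range e ⊆ V ∧ ∀ t, vx e t ∈ N}

theorem tri_mem {W : Set X} (hW : W ∈ 𝒲) {σ : Sx 2 X} (h : range σ ⊆ W)
    (hf : ∀ i, ∃ V ∈ 𝒱, fc σ i ∈ Ed N V) : σ ∈ (Kt 𝒱 𝒲 N).S 2 := by
  refine Or.inr ⟨fun t => ?_, ⟨W, hW, h⟩, fun v => Or.inr ?_⟩
  · obtain ⟨i, w, rfl⟩ : ∃ (i : Fin 3) (w : Fin 2), t = i.succAbove w := by revert t; decide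
    obtain ⟨V, -, e⟩ := hf i
    have := e.2 w
    rwa [fc, vx_sub] at this
  · obtain ⟨i, w, rfl⟩ : ∃ (i : Fin 3) (w : Fin 2 → Fin 2), v = i.succAbove ∘ w := by
      revert v; decide
    obtain ⟨V, hV, e⟩ := hf i
    exact ⟨V, hV, by rw [← sub_sub]; exact (range_sub _ w).trans e.1⟩

namespace KF

variable (h : KF 𝒱 𝒲) {k : Type} [Field k]
include h

theorem ed_mem {V : Set X} (hV : V ∈ 𝒱) {e : Sx 1 X} (he : e ∈ Ed N V) : e ∈ (Kt 𝒱 𝒲 N).S 1 := by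
  obtain ⟨W, hW, a, -⟩ := h.star V hV V hV ⟨vx e 0, vx_mem he.1 0, vx_mem he.1 0⟩
  exact Or.inr ⟨he.2, ⟨W, hW, he.1.trans (subset_union_left.trans a)⟩,
    fun v => Or.inr ⟨V, hV, (range_sub e v).trans he.1⟩⟩

theorem fill {V V' : Set X} (hV : V ∈ 𝒱) (hV' : V' ∈ 𝒱) (hne : (V ∩ N ∩ (V' ∩ N)).Nonempty) :
    (Finsupp.supported k k (Ed N V) ⊔ Finsupp.supported k k (Ed N V')) ⊓ cyc k X 1 ≤
      (Kt 𝒱 𝒲 N).B k 1 := by
  obtain ⟨x0, ⟨h1, h2⟩, h3, -⟩ := hne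
  obtain ⟨W, hW, hVW, hf⟩ := h.star V hV V' hV' ⟨x0, h1, h3⟩
  have h4 : ∀ x, ∃ e : Sx 1 X, x ∈ (V ∪ V') ∩ N → (∃ U ∈ 𝒱, U ⊆ W ∧ e ∈ Ed N U) ∧ vx e 0 = x0 ∧
      vx e 1 = x := fun x => by
    by_cases hx : x ∈ (V ∪ V') ∩ N
    · obtain ⟨U, a, b, c, d⟩ : ∃ U ∈ 𝒱, U ⊆ W ∧ x0 ∈ U ∧ x ∈ U := hx.1.elim
        (fun e => ⟨V, hV, subset_union_left.trans hVW, h1, e⟩)
        fun e => ⟨V', hV', subset_union_right.trans hVW, h3, e⟩
      obtain ⟨e, e1, e2, e3⟩ := (h.fil U a).edge x0 c x d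
      exact ⟨e, fun _ => ⟨⟨U, a, b, e1, fun t => by
        fin_cases t
        exacts [e2 ▸ h2, e3 ▸ hx.2]⟩, e2, e3⟩⟩
    · exact ⟨cst 1 x, fun h => (hx h).elim⟩
  choose c hc using h4
  let T : Ch k 0 X →ₗ[k] Ch k 1 X := ev k fun p => sg k (c (vx p 0))
  have key : ∀ U ∈ 𝒱, U ⊆ V ∪ V' → Finsupp.supported k k (Ed N U) ≤
      ((Kt 𝒱 𝒲 N).B k 1).comap (LinearMap.id - T.comp (bd k)) := fun U hU hUV => by
    rw [Finsupp.supported_eq_span_single, Submodule.span_le]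
    rintro _ ⟨e, he, rfl⟩
    obtain ⟨⟨U0, a1, a2, a3⟩, a4, a5⟩ := hc (vx e 0) ⟨hUV (vx_mem he.1 0), he.2 0⟩
    obtain ⟨⟨U1, b1, b2, b3⟩, b4, b5⟩ := hc (vx e 1) ⟨hUV (vx_mem he.1 1), he.2 1⟩
    obtain ⟨σ, s1, s2, s3, s4⟩ := hf.tri e (c (vx e 1)) (c (vx e 0)) (he.1.trans (hUV.trans hVW))
      (b3.1.trans b2) (a3.1.trans a2) (b4.trans a4.symm) a5 b5
    refine ⟨sg k σ, Sb.sg_mem (tri_mem hW s1 fun i => ?_), ?_⟩
    · fin_cases i
      exacts [⟨U, hU, s2 ▸ he⟩, ⟨U1, b1, s3 ▸ b3⟩, ⟨U0, a1, s4 ▸ a3⟩]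
    · change _ = sg k e - T (bd k (sg k e))
      rw [bd_tri, bd_edge, map_sub, s2, s3, s4]
      simp only [T, ev_sg]
      change _ = _ - (sg k (c (vx e 1)) - sg k (c (vx e 0)))
      abel
  rintro z ⟨hz, h0⟩
  have h0' : bd k z = 0 := h0
  simpa [h0'] using sup_le (key V hV subset_union_left) (key V' hV' subset_union_right) hz

/-- **K-trick**: `H_1` is finitely generated -/
theorem fr_one (hN : N ⊆ ⋃₀ 𝒱) : FR ((Kt 𝒱 𝒲 N).ch k 1 ⊓ cyc k X 1) ((Kt 𝒱 𝒲 N).B k 1) := by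
  have := h.fin.to_subtype
  refine fr_one_abs (ι := 𝒱) (fun V => V.1 ∩ N) (fun V => Finsupp.supported k k (Ed N V.1)) _ _
    Sb.B_le_cyc ?_ ?_ ?_
  · have e1 : ∀ V ∈ 𝒱, ∀ e ∈ Ed N V, sg k e ∈ ⨆ V : 𝒱, Finsupp.supported k k (Ed N V.1) ⊓
        ((On (V.1 ∩ N)).ch k 0).comap (bd k) := fun V hV e he =>
      Submodule.mem_iSup_of_mem ⟨V, hV⟩ ⟨Finsupp.single_mem_supported k 1 he, by
        change bd k (sg k e) ∈ (On (V ∩ N)).ch k 0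
        rw [bd_edge]
        exact Submodule.sub_mem _ (Sb.sg_mem (range_cst ⟨vx_mem he.1 1, he.2 1⟩))
          (Sb.sg_mem (range_cst ⟨vx_mem he.1 0, he.2 0⟩))⟩
    have e2 : ∀ e : Sx 1 X, range e ⊆ N → sg k e ∈ (⨆ V : 𝒱, Finsupp.supported k k (Ed N V.1) ⊓
        ((On (V.1 ∩ N)).ch k 0).comap (bd k)) ⊔ (Kt 𝒱 𝒲 N).B k 1 := fun e he => by
      have h1 := Sml.rho_inf k h.op hN (Sb.sg_mem (P := On N) he)
      have h2 := Sb.map_mem (P := (On N).inf (Sm 𝒱)) LinearMap.id _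
        (fun f ⟨hf, V, hV, hf'⟩ => e1 V hV f ⟨hf', vx_mem hf⟩) h1
      have h3 := Sb.B_mono (On_le_Kt (𝒱 := 𝒱) (𝒲 := 𝒲))
        (Sb.bd_mem_B (Sml.DD_mem k 𝒱 N (Sb.sg_mem (P := On N) he)))
      have h4 := Submodule.add_mem_sup h2 h3
      rwa [LinearMap.id_apply, Sml.rho_succ, Sml.DD_zero, sub_zero, sub_add_cancel] at h4
    intro c hc
    refine Sb.map_mem LinearMap.id _ (fun e he => ?_) hc
    rcases he with he | ⟨a, -, b⟩
    · exact e2 e he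
    · have b1 := b id
      rw [sub_id] at b1
      rcases b1 with b1 | ⟨V, hV, b1⟩
      exacts [e2 e b1, Submodule.mem_sup_left (e1 V hV e ⟨b1, a⟩)]
  · rintro ⟨V, hV⟩ x hx y hy
    obtain ⟨e, e1, e2, e3⟩ := (h.fil V hV).edge x hx.1 y hy.1
    refine ⟨sg k e, Finsupp.single_mem_supported k 1 ⟨e1, fun t => ?_⟩, by rw [bd_edge, e2, e3]⟩
    fin_cases t
    exacts [e2 ▸ hx.2, e3 ▸ hy.2]
  · rintro ⟨V, hV⟩ ⟨V', hV'⟩ (hne | e)
    · exact h.fill hV hV' hne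
    · obtain rfl : V = V' := congrArg Subtype.val e
      rcases (V ∩ N).eq_empty_or_nonempty with h0 | h0
      · have : Ed N V = ∅ := eq_empty_of_forall_notMem fun e he =>
          (h0 ▸ (⟨vx_mem he.1 0, he.2 0⟩ : vx e 0 ∈ V ∩ N) : vx e 0 ∈ (∅ : Set X))
        simp [this]
      · exact h.fill hV hV (by rwa [inter_self])

/-- `H_0` is finitely generated -/
theorem fr_zero (hN : N ⊆ ⋃₀ 𝒱) : FR ((Kt 𝒱 𝒲 N).ch k 0 ⊓ cyc k X 0) ((Kt 𝒱 𝒲 N).B k 0) := by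
  classical
  have := h.fin.to_subtype
  let g : 𝒱 → Ch k 0 X := fun V => if h : (V.1 ∩ N).Nonempty then sg k (cst 0 h.some) else 0
  refine ⟨Submodule.span k (range g), Submodule.fg_span (finite_range g), fun c hc =>
    Sb.map_mem LinearMap.id _ (fun p hp => ?_) hc.1⟩
  have hx := Kt_vx hp 0
  obtain ⟨V, hV, hxV⟩ := hN hx
  have hne : (V ∩ N).Nonempty := ⟨_, hxV, hx⟩
  obtain ⟨e, e1, e2, e3⟩ := (h.fil V hV).edge _ hne.some_mem.1 _ hxV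
  have h1 : bd k (sg k e) ∈ (Kt 𝒱 𝒲 N).B k 0 := Sb.bd_mem_B (Sb.sg_mem (h.ed_mem hV ⟨e1, fun t => by
    fin_cases t
    exacts [e2 ▸ hne.some_mem.2, e3 ▸ hx]⟩))
  have h2 : g ⟨V, hV⟩ = sg k (cst 0 hne.some) := dif_pos hne
  have h3 := Submodule.add_mem_sup (Submodule.subset_span (R := k) (mem_range_self (f := g) ⟨V, hV⟩)) h1
  rwa [h2, bd_edge, e2, e3, add_sub_cancel, ← eq_cst] at h3

/-- **K-trick**: `H^1` is finite dimensional -/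
theorem fr_co_one (hN : N ⊆ ⋃₀ 𝒱) : FR ((Kt 𝒱 𝒲 N).Z k k 1) ((Kt 𝒱 𝒲 N).Ex k k 1) :=
  Wi.fr_dual uctS_holds 1 (h.fr_one hN)

theorem fr_co_zero (hN : N ⊆ ⋃₀ 𝒱) : FR ((Kt 𝒱 𝒲 N).Z k k 0) ((Kt 𝒱 𝒲 N).Ex k k 0) :=
  Wi.fr_dual uctS_holds 0 (h.fr_zero hN)

end KF

end Crest.Agent.N255.Tp

end
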