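import Crest.Agent.N255.Tp.All

/-!
# Row 255, block D (helper83): cap cycles detect the cycles of a window

`Dl O D U ψ c`: `ψ` has compact support in `X`, its coboundary has compact support in `U` and is dual to
`c`.  `Dl.cut`: `c` is homologous to the caps of `ψ` with the cuts of a fundamental chain.
-/

set_option autoImplicit false
open Set Filter Topology

noncomputable section

namespace Crest.Agent.N255.Tp

variable {X : Type} [TopologicalSpace X] {k : Type} [Field k] {d : ℕ} {U V K K' : Set X}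

/-- `ψ` is a compactly supported primitive of the dual of `c` in `U` -/
structure Ori.Dl (O : Ori k d X) (D : ∀ {n : ℕ} (j : ℕ) {i : ℕ}, Co k i X → Ch k n X →ₗ[k] Ch k j X)
    (U : Set X) {i j : ℕ} (ψ : Co k i X) (c : Ch k j X) : Prop where
  cc : ψ ∈ Cc k univ k i
  du : O.Du D U (cob k ψ) c

variable {O : Ori k d X} {D : ∀ {n : ℕ} (j : ℕ) {i : ℕ}, Co k i X → Ch k n X →ₗ[k] Ch k j X}
  {i j : ℕ}

namespace Ori.Dl

variable {ψ ψ' : Co k i X} {c c' : Ch k j X}

theorem mono (h : O.Dl D U ψ c) (hUV : U ⊆ V) : O.Dl D V ψ c := ⟨h.cc, h.du.mono hUV⟩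

theorem congr (h : O.Dl D U ψ c) (e : c - c' ∈ (On U).B k j) : O.Dl D U ψ c' := ⟨h.cc, h.du.congr e⟩

theorem zero : O.Dl D U (0 : Co k i X) (0 : Ch k j X) :=
  ⟨Submodule.zero_mem _, by rw [map_zero]; exact du_zero⟩

theorem smul (hD : CapLike k X D) (h : O.Dl D U ψ c) (r : k) : O.Dl D U (r • ψ) (r • c) :=
  ⟨Submodule.smul_mem _ r h.cc, by rw [map_smul]; exact h.du.smul hD r⟩

theorem cob_mem (h : O.Dl D U ψ c) : cob k ψ ∈ Cc k U k (i + 1) := h.du.mem_Cc

variable [T2Space X] (hD : CapLike k X D) (hU : IsOpen U) (hij : i + j = d)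
include hD hU hij

theorem add (h : O.Dl D U ψ c) (h' : O.Dl D U ψ' c') : O.Dl D U (ψ + ψ') (c + c') :=
  ⟨Submodule.add_mem _ h.cc h'.cc, by
    rw [map_add]
    exact h.du.add smChS_holds fundS_holds hD (by omega) hU h'.du (cob_cob _) (cob_cob _)⟩

theorem sub (h : O.Dl D U ψ c) (h' : O.Dl D U ψ' c') : O.Dl D U (ψ - ψ') (c - c') := by
  simpa [sub_eq_add_neg] using h.add hD hU hij (h'.smul hD (-1))

theorem sum {ι : Type} (s : Finset ι) {f : ι → Co k i X} {g : ι → Ch k j X}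
    (h : ∀ a ∈ s, O.Dl D U (f a) (g a)) : O.Dl D U (∑ a ∈ s, f a) (∑ a ∈ s, g a) := by
  classical
  induction s using Finset.induction_on with
  | empty => simpa using zero
  | insert a s ha ih =>
    rw [Finset.sum_insert ha, Finset.sum_insert ha]
    exact (h a (Finset.mem_insert_self _ _)).add hD hU hij
      (ih fun b hb => h b (Finset.mem_insert_of_mem hb))

omit hU in
/-- **cut formula**: `z = zL + zM + zR` fundamental along a compact set `K'` which carries `ψ`, the outer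
parts miss the support `K` of `cob ψ` -/
theorem cut : ∃ u : kˣ, ∀ (U K K' : Set X) (ψ : Co k i X) (c : Ch k j X) (zL zM zR : Ch k (d + 1) X),
    IsOpen U → O.Dl D U ψ c → IsCompact K → K ⊆ U → IsCompact K' → K ⊆ K' →
    cob k ψ ∈ (On Kᶜ).van k k (i + 1) → ψ ∈ (On K'ᶜ).van k k i → O.Fund K' (zL + zM + zR) →
    zL ∈ (On Kᶜ).ch k (d + 1) → zM ∈ (On U).ch k (d + 1) → zR ∈ (On Kᶜ).ch k (d + 1) →
    c - (u : k) • (D j ψ (bd k zL) + D j ψ (bd k zR)) ∈ (On U).B k j := by
  obtain ⟨s, t, e⟩ := hD.bd hij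
  refine ⟨t⁻¹ * s, fun U K K' ψ c zL zM zR hU h hK hKU hK' hKK h1 h2 hf hL hM hR => ?_⟩
  have fM : O.Fund K zM := (hf.mono hK hK' hKK).of_sub (by
    rw [show zL + zM + zR - zM = zL + zR by abel]; exact Submodule.add_mem _ hL hR)
  have a1 := h.du.spec smChS_holds fundS_holds hD (by omega) hU (cob_cob _) hK hKU h1 hM fM
  have a2 := hD.zero (j := j) _ ψ _ h2 hf.rc
  rw [map_add, map_add, map_add, map_add] at a2
  have a3 : D j ψ (bd k zL) + D j ψ (bd k zR) = -D j ψ (bd k zM) := by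
    rw [eq_neg_iff_add_eq_zero, ← a2]; abel
  have a4 := Submodule.smul_mem _ ((t⁻¹ : kˣ) : k) (Sb.bd_mem_B (hD.mem (j := j + 1) U ψ zM hM))
  rw [e, smul_add, smul_smul, smul_smul, Units.inv_mul, one_smul] at a4
  have := Submodule.sub_mem _ a4 a1
  rw [a3, smul_neg, sub_neg_eq_add, Units.val_mul]
  convert this using 1
  abel

end Ori.Dl

/-- a cap with a cut is a cycle which bounds on the side of the cut -/
theorem CapLike.cap_bd (hD : CapLike k X D) {n : ℕ} (hij : i + j = n) {ψ : Co k i X}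
    (h : ψ ∈ (On U).Z k k i) {z : Ch k (n + 1) X} (hz : z ∈ (On U).ch k (n + 1)) :
    D j ψ (Tp.bd k z) ∈ (On U).B k j := by
  obtain ⟨s, t, e⟩ := hD.bd hij
  have h1 := e ψ z
  rw [hD.zero U _ z h hz, smul_zero, add_zero] at h1
  have : D j ψ (Tp.bd k z) = ((s⁻¹ : kˣ) : k) • Tp.bd k (D (j + 1) ψ z) := by
    rw [h1, smul_smul, Units.inv_mul, one_smul]
  rw [this]
  exact Submodule.smul_mem _ _ (Sb.bd_mem_B (hD.mem U ψ z hz))

/-- caps with a coboundary: `σ` a chain in `U` on whose boundary `η` vanishes -/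
theorem CapLike.cob_mem_B (hD : CapLike k X D) {n : ℕ} (hij : i + j = n) {η : Co k i X}
    (h : η ∈ (On V).van k k i) {σ : Ch k (n + 1) X} (hσ : σ ∈ (On U).ch k (n + 1))
    (hb : Tp.bd k σ ∈ (On V).ch k n) : D j (cob k η) σ ∈ (On U).B k j := by
  obtain ⟨s, t, e⟩ := hD.bd hij
  have h1 := e η σ
  rw [hD.zero V _ _ h hb, smul_zero, zero_add] at h1
  have : D j (cob k η) σ = ((t⁻¹ : kˣ) : k) • Tp.bd k (D (j + 1) η σ) := by
    rw [h1, smul_smul, Units.inv_mul, one_smul]
  rw [this]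
  exact Submodule.smul_mem _ _ (Sb.bd_mem_B (hD.mem U η σ hσ))

variable [T2Space X] [ChartedSpace (EE (d + 1)) X] (hO : O.ND) (hD : CapLike k X D) (hU : IsOpen U)
include hO hD hU

/-- every cycle of `U` which bounds in `X` has a primitive -/
theorem exists_dl (hij : i + j = d) {c : Ch k j X} (hc : c ∈ (On U).ch k j)
    (hb : c ∈ (On univ).B k j) : ∃ ψ : Co k i X, O.Dl D U ψ c := by
  obtain ⟨φ, h1, h2, h3⟩ := (pdS_holds k d X O hO D hD U hU).1 (i + 1) j (by omega) c hc
    (Sb.B_le_cyc hb)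
  obtain ⟨ψ, a, b⟩ := (pdS_holds k d X O hO D hD univ isOpen_univ).2 i φ
    (Cc_mono (subset_univ _) h1) h2 fun j' hj => by
      obtain rfl : j' = j := by omega
      exact (h3.mono (subset_univ _)).congr (by simpa using hb)
  exact ⟨ψ, a, b ▸ h3⟩

/-- the primitive of a boundary of `U` is closed up to a cochain with compact support in `U` -/
theorem Ori.Dl.of_B (hij : i + j = d) {ψ : Co k i X} {c : Ch k j X} (h : O.Dl D U ψ c)
    (hb : c ∈ (On U).B k j) : ∃ θ ∈ Cc k U k i, cob k (ψ - θ) = 0 := by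
  obtain ⟨θ, a, b⟩ := (pdS_holds k d X O hO D hD U hU).2 i _ h.cob_mem (cob_cob _) fun j' hj => by
    obtain rfl : j' = j := by omega
    exact h.du.congr (by simpa using hb)
  exact ⟨θ, a, by rw [map_sub, b, sub_self]⟩

omit hU in
/-- compactly supported cocycles of an acyclic manifold -/
theorem Cc_exact (hij : i + j = d) (hA : cyc k X j ≤ (On univ).B k j) {φ : Co k (i + 1) X}
    (h : φ ∈ Cc k univ k (i + 1)) (hc : cob k φ = 0) : ∃ η ∈ Cc k univ k i, cob k η = φ :=
  (pdS_holds k d X O hO D hD univ isOpen_univ).2 i φ h hc fun j' hj => by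
    obtain rfl : j' = j := by omega
    obtain ⟨c, -, c1, c2⟩ := Ori.du_exists (O := O) fundS_holds hD hj isOpen_univ h hc
    exact c2.congr (by simpa using hA c1)

/-- primitives of homologous cycles are cohomologous off a compact subset of `U` -/
theorem Ori.Dl.uniq (hij : i + 1 + j = d) (hA : cyc k X (j + 1) ≤ (On univ).B k (j + 1))
    {ψ : Co k (i + 1) X} {c : Ch k j X} (h : O.Dl D U ψ c) (hb : c ∈ (On U).B k j) :
    ∃ θ ∈ Cc k U k (i + 1), ∃ η ∈ Cc k univ k i, ψ = θ + cob k η := by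
  obtain ⟨θ, a, b⟩ := h.of_B hO hD hU hij hb
  obtain ⟨η, c1, c2⟩ := Cc_exact (O := O) (j := j + 1) hO hD (by omega) hA
    (Submodule.sub_mem _ h.cc (Cc_mono (subset_univ _) a)) b
  exact ⟨θ, a, η, c1, by rw [c2]; abel⟩

omit hO [ChartedSpace (EE (d + 1)) X] in
/-- conversely every compactly supported cochain whose coboundary has compact support in `U` is a
primitive -/
theorem dl_of (hij : i + j = d) {ψ : Co k i X} (h : ψ ∈ Cc k univ k i)
    (h' : cob k ψ ∈ Cc k U k (i + 1)) :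
    ∃ c ∈ (On U).ch k j, c ∈ cyc k X j ∧ O.Dl D U ψ c := by
  obtain ⟨c, a, b, e⟩ := Ori.du_exists (O := O) (j := j) fundS_holds hD (by omega) hU h' (cob_cob _)
  exact ⟨c, a, b, h, e⟩

end Crest.Agent.N255.Tp

end
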