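import Crest.Agent.R251.Sm82C
import Crest.Agent.R251.Pr963

/-!
# Row 255, block D (helper72): singular chains and cochains with supports, FROZEN definitions

`Sx n X` singular simplices, `Ch k n X` chains, `Co A n X` cochains, `Sb X` families of simplices closed
under faces (`On A` = simplices in `A`, `Sm 𝒰` = small simplices).  `P.ch`, `P.B`, `P.van` are submodules.
-/

set_option autoImplicit false
open Set Filter Topology

noncomputable section

namespace Crest.Agent.N255.Tp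

/-- standard simplex -/
abbrev Dn (n : ℕ) : Type := stdSimplex ℝ (Fin (n + 1))

/-- Euclidean space -/
abbrev EE (n : ℕ) : Type := EuclideanSpace ℝ (Fin n)

/-- the affine map given by a map of the vertices -/
def vm {m n : ℕ} (v : Fin (m + 1) → Fin (n + 1)) : C(Dn m, Dn n) :=
  ⟨stdSimplex.map v, stdSimplex.continuous_map _⟩

/-- singular simplices -/
abbrev Sx (n : ℕ) (X : Type) [TopologicalSpace X] : Type := C(Dn n, X)

/-- chains -/
abbrev Ch (k : Type) [CommRing k] (n : ℕ) (X : Type) [TopologicalSpace X] : Type := Sx n X →₀ k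

/-- cochains -/
abbrev Co (A : Type) (n : ℕ) (X : Type) [TopologicalSpace X] : Type := Sx n X → A

variable {X Y : Type} [TopologicalSpace X] [TopologicalSpace Y] {m n : ℕ}

/-- the simplex spanned by the vertices `v 0, …, v m` -/
def sub (σ : Sx n X) (v : Fin (m + 1) → Fin (n + 1)) : Sx m X := σ.comp (vm v)

/-- faces -/
def fc (σ : Sx (n + 1) X) (i : Fin (n + 2)) : Sx n X := sub σ i.succAbove

/-- front face `[0, …, i]` -/
def fr (i : ℕ) (σ : Sx n X) : Sx i X := sub σ fun t => ⟨min t n, by omega⟩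

/-- back face `[n - j, …, n]` -/
def bk (j : ℕ) (σ : Sx n X) : Sx j X := sub σ fun t => ⟨min (t + (n - j)) n, by omega⟩

variable (k : Type) [CommRing k] {A A' A'' : Type} [AddCommGroup A] [Module k A] [AddCommGroup A']
  [Module k A'] [AddCommGroup A''] [Module k A'']

/-- a simplex as a chain -/
abbrev sg (σ : Sx n X) : Ch k n X := Finsupp.single σ 1

/-- boundary -/
def bd : Ch k (n + 1) X →ₗ[k] Ch k n X :=
  Finsupp.linearCombination k fun σ => ∑ i : Fin (n + 2), (-1 : k) ^ (i : ℕ) • sg k (fc σ i)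

/-- coboundary -/
def cob : Co A n X →ₗ[k] Co A (n + 1) X where
  toFun φ σ := ∑ i : Fin (n + 2), (-1 : k) ^ (i : ℕ) • φ (fc σ i)
  map_add' φ ψ := by funext σ; simp [Finset.sum_add_distrib]
  map_smul' r φ := by funext σ; simp [Finset.smul_sum, smul_smul, mul_comm]

/-- evaluation of a cochain on chains -/
def ev (φ : Co A n X) : Ch k n X →ₗ[k] A := Finsupp.linearCombination k φ

/-- augmentation -/
def aug : Ch k n X →ₗ[k] k := ev k fun _ => 1

/-- push forward -/
def push (f : C(X, Y)) : Ch k n X →ₗ[k] Ch k n Y := Finsupp.lmapDomain k k fun σ => f.comp σ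

/-- pull back -/
def pull (f : C(X, Y)) : Co A n Y →ₗ[k] Co A n X where
  toFun φ σ := φ (f.comp σ)
  map_add' _ _ := rfl
  map_smul' _ _ := rfl

variable {k} in
/-- cup product for a bilinear map (meant for `i + j = n`) -/
def cup (μ : A →ₗ[k] A' →ₗ[k] A'') (n : ℕ) {i j : ℕ} (φ : Co A i X) (ψ : Co A' j X) :
    Co A'' n X :=
  fun σ => μ (φ (fr i σ)) (ψ (bk j σ))

variable {k} in
/-- cap product, the cochain eats the front face (meant for `i + j = n`) -/
def cap (j : ℕ) {i : ℕ} (φ : Co k i X) : Ch k n X →ₗ[k] Ch k j X :=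
  ev k fun σ => φ (fr i σ) • sg k (bk j σ)

variable {k} in
/-- cap product, the cochain eats the back face (meant for `i + j = n`) -/
def cap' (j : ℕ) {i : ℕ} (φ : Co k i X) : Ch k n X →ₗ[k] Ch k j X :=
  ev k fun σ => φ (bk i σ) • sg k (fr j σ)

/-- cycles (all chains in degree `0`) -/
def cyc (X : Type) [TopologicalSpace X] : ∀ n, Submodule k (Ch k n X)
  | 0 => ⊤
  | _ + 1 => LinearMap.ker (bd k)

/-- a family of simplices closed under faces -/
structure Sb (X : Type) [TopologicalSpace X] where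
  S : ∀ n, Set (Sx n X)
  fc_mem : ∀ n (σ : Sx (n + 1) X) i, σ ∈ S (n + 1) → fc σ i ∈ S n

theorem range_sub (σ : Sx n X) (v : Fin (m + 1) → Fin (n + 1)) : range (sub σ v) ⊆ range σ := by
  rintro _ ⟨t, rfl⟩; exact ⟨_, rfl⟩

/-- simplices in `U` -/
def On (U : Set X) : Sb X := ⟨fun _ => {σ | range σ ⊆ U}, fun _ σ _ h => (range_sub σ _).trans h⟩

/-- small simplices -/
def Sm (𝒰 : Set (Set X)) : Sb X :=
  ⟨fun _ => {σ | ∃ U ∈ 𝒰, range σ ⊆ U}, fun _ σ _ ⟨U, hU, h⟩ => ⟨U, hU, (range_sub σ _).trans h⟩⟩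

namespace Sb

variable (P Q : Sb X)

/-- intersection -/
def inf : Sb X := ⟨fun n => P.S n ∩ Q.S n, fun n σ i h => ⟨P.fc_mem n σ i h.1, Q.fc_mem n σ i h.2⟩⟩

/-- union -/
def sup : Sb X :=
  ⟨fun n => P.S n ∪ Q.S n, fun n σ i h => h.imp (P.fc_mem n σ i) (Q.fc_mem n σ i)⟩

/-- inclusion -/
def Le : Prop := ∀ n, P.S n ⊆ Q.S n

/-- chains in `P` -/
def ch (n : ℕ) : Submodule k (Ch k n X) := Finsupp.supported k k (P.S n)

/-- boundaries of chains in `P` -/
def B (n : ℕ) : Submodule k (Ch k n X) := (P.ch k (n + 1)).map (bd k)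

/-- cochains which vanish on `P` -/
def van (A : Type) [AddCommGroup A] [Module k A] (n : ℕ) : Submodule k (Co A n X) where
  carrier := {φ | ∀ σ ∈ P.S n, φ σ = 0}
  add_mem' ha hb σ h := by simp [ha σ h, hb σ h]
  zero_mem' _ _ := rfl
  smul_mem' r φ ha σ h := by simp [ha σ h]

/-- cochains which are closed on `P` -/
def Z (A : Type) [AddCommGroup A] [Module k A] (n : ℕ) : Submodule k (Co A n X) :=
  (P.van k A (n + 1)).comap (cob k)

/-- cochains which are exact on `P` (zero on `P` in degree `0`) -/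
def Ex (A : Type) [AddCommGroup A] [Module k A] : ∀ n, Submodule k (Co A n X)
  | 0 => P.van k A 0
  | n + 1 => LinearMap.range (cob k) ⊔ P.van k A (n + 1)

end Sb

/-- chains which are null modulo `U`: boundaries plus chains in `U` -/
def Nul (U : Set X) (n : ℕ) : Submodule k (Ch k n X) := LinearMap.range (bd k) ⊔ (On U).ch k n

/-- cochains with compact support in `U` -/
def Cc (U : Set X) (A : Type) [AddCommGroup A] [Module k A] (n : ℕ) : Submodule k (Co A n X) where
  carrier := {φ | ∃ K, IsCompact K ∧ K ⊆ U ∧ φ ∈ (On Kᶜ).van k A n}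
  add_mem' := by
    rintro φ ψ ⟨K, hK, hKU, h⟩ ⟨L, hL, hLU, h'⟩
    exact ⟨K ∪ L, hK.union hL, union_subset hKU hLU, Submodule.add_mem _
      (fun σ hσ => h σ (hσ.trans (compl_subset_compl.2 subset_union_left)))
      fun σ hσ => h' σ (hσ.trans (compl_subset_compl.2 subset_union_right))⟩
  zero_mem' := ⟨∅, isCompact_empty, empty_subset _, Submodule.zero_mem _⟩
  smul_mem' r φ := fun ⟨K, hK, hKU, h⟩ => ⟨K, hK, hKU, Submodule.smul_mem _ r h⟩

/-- a compatible family of relative cycles (dimension `d + 1`) -/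
structure Ori (d : ℕ) (X : Type) [TopologicalSpace X] where
  μ : Set X → Ch k (d + 1) X
  rc : ∀ K, IsCompact K → bd k (μ K) ∈ (On Kᶜ).ch k d
  cmp : ∀ K L, IsCompact K → IsCompact L → K ⊆ L → μ L - μ K ∈ Nul k Kᶜ (d + 1)

variable {k} {d : ℕ}

/-- non zero local degree at every point -/
def Ori.ND (O : Ori k d X) : Prop := ∀ x, O.μ {x} ∉ Nul k {x}ᶜ (d + 1)

/-- `z` represents the fundamental class along `K` -/
structure Ori.Fund (O : Ori k d X) (K : Set X) (z : Ch k (d + 1) X) : Prop where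
  rc : bd k z ∈ (On Kᶜ).ch k d
  eq : z - O.μ K ∈ Nul k Kᶜ (d + 1)

/-- `c` is dual to `φ` in `U` with respect to the cap product `D` -/
def Ori.Du (O : Ori k d X) (D : ∀ {n : ℕ} (j : ℕ) {i : ℕ}, Co k i X → Ch k n X →ₗ[k] Ch k j X)
    (U : Set X) {i j : ℕ} (φ : Co k i X) (c : Ch k j X) : Prop :=
  ∃ K z, IsCompact K ∧ K ⊆ U ∧ φ ∈ (On Kᶜ).van k k i ∧ z ∈ (On U).ch k (d + 1) ∧ O.Fund K z ∧
    D j φ z - c ∈ (On U).B k j

/-- reduced cycles: augmentation zero in degree `0` -/
def rcyc (k : Type) [CommRing k] (X : Type) [TopologicalSpace X] : ∀ n, Submodule k (Ch k n X)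
  | 0 => LinearMap.ker (aug k)
  | _ + 1 => LinearMap.ker (bd k)

/-- reduced cycles in `U` bound in `V` -/
def Acy (k : Type) [CommRing k] (U V : Set X) : Prop :=
  ∀ n, (On U).ch k n ⊓ rcyc k X n ≤ (On V).B k n

/-- what the duality proof uses of a cap product `D j φ z` (`cap` and `cap'`) -/
structure CapLike (k : Type) [CommRing k] (X : Type) [TopologicalSpace X]
    (D : ∀ {n : ℕ} (j : ℕ) {i : ℕ}, Co k i X → Ch k n X →ₗ[k] Ch k j X) : Prop where
  add : ∀ {n j i} (φ ψ : Co k i X) (z : Ch k n X), D j (φ + ψ) z = D j φ z + D j ψ z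
  smul : ∀ {n j i} (r : k) (φ : Co k i X) (z : Ch k n X), D j (r • φ) z = r • D j φ z
  mem : ∀ {n j i} (U : Set X) (φ : Co k i X) (z : Ch k n X), z ∈ (On U).ch k n →
    D j φ z ∈ (On U).ch k j
  zero : ∀ {n j i} (U : Set X) (φ : Co k i X) (z : Ch k n X), φ ∈ (On U).van k k i →
    z ∈ (On U).ch k n → D j φ z = 0
  bd : ∀ {n j i}, i + j = n → ∃ s t : kˣ, ∀ (φ : Co k i X) (z : Ch k (n + 1) X),
    bd k (D (j + 1) φ z) = (s : k) • D j φ (bd k z) + (t : k) • D j (cob k φ) z
  aug : ∀ {n} (φ : Co k n X) (z : Ch k n X), aug k (D 0 φ z) = ev k φ z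

end Crest.Agent.N255.Tp

end
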