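import Crest.Agent.N255.Tp.Basic

/-!
# Row 255, block D (helper72): consequences of the small simplices theorem, the relation `Du`
-/

set_option autoImplicit false
open Set Filter Topology

noncomputable section

namespace Crest.Agent.N255.Tp

variable {X : Type} [TopologicalSpace X] {n : ℕ} {k : Type} [CommRing k] {A : Type} [AddCommGroup A]
  [Module k A] {U V K L : Set X}

theorem open_pair (hU : IsOpen U) (hV : IsOpen V) : ∀ W ∈ ({U, V} : Set (Set X)), IsOpen W := by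
  rintro W (rfl | rfl) <;> assumption

theorem split_ch (hC : SmChS) (hU : IsOpen U) (hV : IsOpen V) {c : Ch k (n + 1) X}
    (hc : c ∈ (On (U ∪ V)).ch k (n + 1)) (hb : bd k c ∈ (On U).ch k n ⊔ (On V).ch k n) :
    ∃ a ∈ (On U).ch k (n + 1), ∃ b ∈ (On V).ch k (n + 1), c - (a + b) ∈ (On (U ∪ V)).B k (n + 1) := by
  obtain ⟨s, hs, h⟩ := hC k X (U ∪ V) {U, V} (open_pair hU hV) (by simp) n c hc
    (by rwa [Sm_pair, Sb.ch_sup])
  have := Sb.ch_mono Sb.inf_le_right hs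
  rw [Sm_pair, Sb.ch_sup] at this
  obtain ⟨a, ha, b, hb, rfl⟩ := Submodule.mem_sup.1 this
  exact ⟨a, ha, b, hb, h⟩

theorem range_zero (σ : Sx 0 X) : range σ = {σ (stdSimplex.vertex 0)} := by
  have : Subsingleton (Dn 0) := inferInstanceAs (Subsingleton (stdSimplex ℝ (Fin 1)))
  ext x
  exact ⟨fun ⟨t, h⟩ => h ▸ congrArg σ (Subsingleton.elim _ _), fun h => ⟨_, h.symm⟩⟩

theorem ch_zero_union : (On (U ∪ V)).ch k 0 = (On U).ch k 0 ⊔ (On V).ch k 0 := by
  rw [← Sb.ch_sup]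
  refine congrArg (Finsupp.supported k k) (Set.ext fun σ => ?_)
  change range σ ⊆ U ∪ V ↔ range σ ⊆ U ∨ range σ ⊆ V
  simp [range_zero]

theorem split_B (hC : SmChS) (hU : IsOpen U) (hV : IsOpen V) {c : Ch k n X}
    (hc : c ∈ (On (U ∪ V)).B k n) (h : c ∈ (On U).ch k n ⊔ (On V).ch k n) :
    ∃ a ∈ (On U).ch k (n + 1), ∃ b ∈ (On V).ch k (n + 1), c = bd k a + bd k b := by
  obtain ⟨w, hw, rfl⟩ := hc
  obtain ⟨a, ha, b, hb, e, -, he⟩ := split_ch hC hU hV hw h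
  refine ⟨a, ha, b, hb, ?_⟩
  have := congrArg (bd k) he
  rw [bd_bd, map_sub, map_add] at this
  exact (sub_eq_zero.1 this.symm)

/-- excision for null chains -/
theorem nul_exc (hC : SmChS) (hU : IsOpen U) (hK : IsClosed K) (hKU : K ⊆ U) {z : Ch k n X}
    (hz : z ∈ (On U).ch k n) (h : z ∈ Nul k Kᶜ n) :
    ∃ b ∈ (On U).ch k (n + 1), z - bd k b ∈ (On Kᶜ).ch k n := by
  obtain ⟨w, hw⟩ := mem_Nul.1 h
  have hu : U ∪ Kᶜ = univ := eq_univ_of_forall fun x => (em (x ∈ K)).imp (hKU ·) id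
  obtain ⟨a, ha, b, hb, e⟩ := split_B hC hU hK.isOpen_compl (c := bd k w)
    (Sb.bd_mem_B (hu ▸ mem_ch_univ w))
    (Submodule.mem_sup.2 ⟨z, hz, _, Submodule.neg_mem _ hw, by abel⟩)
  refine ⟨a, ha, ?_⟩
  have := Submodule.add_mem _ hw (Sb.bd_mem hb)
  rwa [e, show z - (bd k a + bd k b) + bd k b = z - bd k a by abel] at this

/-- a cocycle supported in `K` and in `L` is cohomologous to one supported in `K ∩ L` -/
theorem supp_inter (hS : SmVanS) (hK : IsClosed K) (hL : IsClosed L) {φ : Co A (n + 1) X}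
    (h1 : φ ∈ (On Kᶜ).van k A (n + 1)) (h2 : φ ∈ (On Lᶜ).van k A (n + 1))
    (hc : φ ∈ (On (K ∩ L)ᶜ).Z k A (n + 1)) :
    ∃ χ ∈ (On Kᶜ).van k A n ⊓ (On Lᶜ).van k A n, φ - cob k χ ∈ (On (K ∩ L)ᶜ).van k A (n + 1) := by
  obtain ⟨ψ, a, b⟩ := hS k A X (K ∩ L)ᶜ {Kᶜ, Lᶜ} (open_pair hK.isOpen_compl hL.isOpen_compl)
    (by simp [compl_inter]) n φ hc (Sb.van_mono Sb.inf_le_right (by
      rw [Sm_pair, Sb.van_sup]; exact ⟨h1, h2⟩))
  exact ⟨ψ, ⟨b _ (van_mono inter_subset_left h1), b _ (van_mono inter_subset_left h2)⟩,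
    by simpa using Submodule.neg_mem _ a⟩

theorem fund_in [T2Space X] (hF : FundS) {d : ℕ} (O : Ori k d X) (hK : IsCompact K) (hU : IsOpen U)
    (hKU : K ⊆ U) : ∃ z ∈ (On U).ch k (d + 1), O.Fund K z := by
  obtain ⟨z, hz, h⟩ := hF k X d O K {U} hK (by simpa) (by simpa)
  exact ⟨z, by rwa [Sm_single] at hz, h⟩

variable {D : ∀ {n : ℕ} (j : ℕ) {i : ℕ}, Co k i X → Ch k n X →ₗ[k] Ch k j X}

namespace CapLike

variable (hD : CapLike k X D) {i j : ℕ}
include hD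

theorem zero' (z : Ch k n X) : D j (0 : Co k i X) z = 0 := by
  simpa using hD.smul (j := j) 0 (0 : Co k i X) z

theorem neg (φ : Co k i X) (z : Ch k n X) : D j (-φ) z = -D j φ z := by
  simpa using hD.smul (j := j) (-1) φ z

theorem bd_mem_B (h : i + j = n) {φ : Co k i X} (hφ : cob k φ = 0) {b : Ch k (n + 1) X}
    (hb : b ∈ (On U).ch k (n + 1)) : D j φ (Tp.bd k b) ∈ (On U).B k j := by
  obtain ⟨s, t, e⟩ := hD.bd h
  have h1 := e φ b
  rw [hφ, hD.zero', smul_zero, add_zero] at h1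
  have : D j φ (Tp.bd k b) = ((s⁻¹ : kˣ) : k) • Tp.bd k (D (j + 1) φ b) := by
    rw [h1, smul_smul, Units.inv_mul, one_smul]
  rw [this]
  exact Submodule.smul_mem _ _ (Sb.bd_mem_B (hD.mem U φ b hb))

theorem mem_cyc {d : ℕ} (h : i + j = d + 1) {φ : Co k i X} (hφ : cob k φ = 0)
    (hK : φ ∈ (On U).van k k i) {z : Ch k (d + 1) X} (hz : Tp.bd k z ∈ (On U).ch k d) :
    D j φ z ∈ cyc k X j := by
  cases j with
  | zero => trivial
  | succ j =>
    obtain ⟨s, t, e⟩ := hD.bd (i := i) (j := j) (n := d) (by omega)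
    change Tp.bd k _ = 0
    rw [e, hφ, hD.zero', hD.zero U φ _ hK hz]; simp

end CapLike

namespace Ori

variable {d : ℕ} {O : Ori k d X} {i j : ℕ} {φ ψ : Co k i X} {c c' : Ch k j X}

theorem Du.mono (h : O.Du D U φ c) (hUV : U ⊆ V) : O.Du D V φ c :=
  let ⟨K, z, a, b, c, d, e, f⟩ := h
  ⟨K, z, a, b.trans hUV, c, ch_mono hUV d, e, B_mono hUV f⟩

theorem Du.congr (h : O.Du D U φ c) (e : c - c' ∈ (On U).B k j) : O.Du D U φ c' :=
  let ⟨K, z, a, b, c, d, e', f⟩ := h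
  ⟨K, z, a, b, c, d, e', by simpa using Submodule.add_mem _ f e⟩

theorem du_zero : O.Du D U (0 : Co k i X) (0 : Ch k j X) :=
  ⟨∅, 0, isCompact_empty, empty_subset _, Submodule.zero_mem _, Submodule.zero_mem _,
    ⟨by simp, ch_le_Nul (by rw [compl_empty]; exact mem_ch_univ _)⟩, by simp⟩

theorem Du.smul (hD : CapLike k X D) (h : O.Du D U φ c) (r : k) : O.Du D U (r • φ) (r • c) :=
  let ⟨K, z, a, b, c, d, e, f⟩ := h
  ⟨K, z, a, b, Submodule.smul_mem _ r c, d, e, by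
    rw [hD.smul, ← smul_sub]; exact Submodule.smul_mem _ r f⟩

theorem Du.neg (hD : CapLike k X D) (h : O.Du D U φ c) : O.Du D U (-φ) (-c) := by
  simpa using h.smul hD (-1)

theorem Du.mem_Cc (h : O.Du D U φ c) : φ ∈ Cc k U k i :=
  let ⟨K, _, a, b, c, _⟩ := h; ⟨K, a, b, c⟩

variable [T2Space X]

theorem indep (hC : SmChS) (hD : CapLike k X D) (hij : i + j = d + 1) (hU : IsOpen U)
    (hK : IsCompact K) (hKU : K ⊆ U) (hφ : φ ∈ (On Kᶜ).van k k i) (hc : cob k φ = 0)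
    {z z' : Ch k (d + 1) X} (hz : z ∈ (On U).ch k (d + 1)) (hz' : z' ∈ (On U).ch k (d + 1))
    (h : O.Fund K z) (h' : O.Fund K z') : D j φ z - D j φ z' ∈ (On U).B k j := by
  obtain ⟨b, hb, e⟩ := nul_exc hC hU hK.isClosed hKU (Submodule.sub_mem _ hz hz') (h.sub_mem h')
  have := hD.zero (j := j) _ φ _ hφ e
  rw [map_sub, sub_eq_zero, map_sub] at this
  rw [this]
  exact hD.bd_mem_B hij hc hb

theorem Du.spec (hC : SmChS) (hF : FundS) (hD : CapLike k X D) (hij : i + j = d + 1) (hU : IsOpen U)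
    (h : O.Du D U φ c) (hc : cob k φ = 0) (hK : IsCompact K) (hKU : K ⊆ U)
    (hφ : φ ∈ (On Kᶜ).van k k i) {z : Ch k (d + 1) X} (hz : z ∈ (On U).ch k (d + 1))
    (hf : O.Fund K z) : D j φ z - c ∈ (On U).B k j := by
  obtain ⟨L, y, hL, hLU, hφ', hy, hf', e⟩ := h
  obtain ⟨w, hw, hg⟩ := fund_in hF O (hK.union hL) hU (union_subset hKU hLU)
  have h1 := indep hC hD hij hU hK hKU hφ hc hz hw hf (hg.mono hK (hK.union hL) subset_union_left)
  have h2 := indep hC hD hij hU hL hLU hφ' hc hw hy (hg.mono hL (hK.union hL) subset_union_right) hf'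
  simpa using Submodule.add_mem _ (Submodule.add_mem _ h1 h2) e

theorem Du.unique (hC : SmChS) (hF : FundS) (hD : CapLike k X D) (hij : i + j = d + 1)
    (hU : IsOpen U) (h : O.Du D U φ c) (h' : O.Du D U φ c') (hc : cob k φ = 0) :
    c - c' ∈ (On U).B k j := by
  obtain ⟨L, y, hL, hLU, hφ', hy, hf', e⟩ := h'
  simpa using Submodule.sub_mem _ e (h.spec hC hF hD hij hU hc hL hLU hφ' hy hf')

theorem Du.add (hC : SmChS) (hF : FundS) (hD : CapLike k X D) (hij : i + j = d + 1) (hU : IsOpen U)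
    (h : O.Du D U φ c) (h' : O.Du D U ψ c') (hc : cob k φ = 0) (hc' : cob k ψ = 0) :
    O.Du D U (φ + ψ) (c + c') := by
  obtain ⟨K, hK, hKU, h1⟩ := h.mem_Cc
  obtain ⟨L, hL, hLU, h2⟩ := h'.mem_Cc
  have hKL := union_subset hKU hLU
  obtain ⟨w, hw, hg⟩ := fund_in hF O (hK.union hL) hU hKL
  have h1' := van_supp (subset_union_left (t := L)) h1
  have h2' := van_supp (subset_union_right (s := K)) h2
  refine ⟨K ∪ L, w, hK.union hL, hKL, Submodule.add_mem _ h1' h2', hw, hg, ?_⟩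
  have := Submodule.add_mem _ (h.spec hC hF hD hij hU hc (hK.union hL) hKL h1' hw hg)
    (h'.spec hC hF hD hij hU hc' (hK.union hL) hKL h2' hw hg)
  rwa [hD.add, add_sub_add_comm]

theorem du_exists (hF : FundS) (hD : CapLike k X D) (hij : i + j = d + 1) (hU : IsOpen U)
    (h : φ ∈ Cc k U k i) (hc : cob k φ = 0) :
    ∃ c ∈ (On U).ch k j, c ∈ cyc k X j ∧ O.Du D U φ c := by
  obtain ⟨K, hK, hKU, h1⟩ := h
  obtain ⟨w, hw, hg⟩ := fund_in hF O hK hU hKU
  exact ⟨D j φ w, hD.mem U φ w hw, hD.mem_cyc hij hc h1 hg.rc, K, w, hK, hKU, h1, hw, hg, by simp⟩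

theorem du_cob (hF : FundS) (hD : CapLike k X D) (hij : i + j = d) (hU : IsOpen U)
    (h : φ ∈ Cc k U k i) : O.Du D U (cob k φ) (0 : Ch k j X) := by
  obtain ⟨K, hK, hKU, h1⟩ := h
  obtain ⟨w, hw, hg⟩ := fund_in hF O hK hU hKU
  refine ⟨K, w, hK, hKU, Sb.cob_mem h1, hw, hg, ?_⟩
  obtain ⟨s, t, e⟩ := hD.bd hij
  have h2 := e φ w
  rw [hD.zero _ φ _ h1 hg.rc, smul_zero, zero_add] at h2
  have : D j (cob k φ) w = ((t⁻¹ : kˣ) : k) • bd k (D (j + 1) φ w) := by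
    rw [h2, smul_smul, Units.inv_mul, one_smul]
  rw [sub_zero, this]
  exact Submodule.smul_mem _ _ (Sb.bd_mem_B (hD.mem U φ w hw))

/-- compatibility with the connecting maps -/
theorem du_mv (hF : FundS) (hD : CapLike k X D) (hij : i + j = d) (hU : IsOpen U) (hV : IsOpen V) :
    ∃ u : k, IsUnit u ∧ ∀ a ∈ Cc k U k i, ∀ b ∈ Cc k V k i, cob k a ∈ Cc k (U ∩ V) k (i + 1) →
      ∃ cU ∈ (On U).ch k (j + 1), ∃ cV ∈ (On V).ch k (j + 1),
        O.Du D (U ∪ V) (a + b) (cU + cV) ∧ O.Du D (U ∩ V) (cob k a) (u • bd k cU) := by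
  obtain ⟨s, t, e⟩ := hD.bd hij
  refine ⟨((t⁻¹ : kˣ) : k), Units.isUnit _, ?_⟩
  rintro a ⟨K0, hK0, hK0U, ha⟩ b ⟨L0, hL0, hL0V, hb⟩ ⟨N, hN, hNU, hθ⟩
  have hK := hK0.union hN
  have hL := hL0.union hN
  have hKU : K0 ∪ N ⊆ U := union_subset hK0U (hNU.trans inter_subset_left)
  have hLV : L0 ∪ N ⊆ V := union_subset hL0V (hNU.trans inter_subset_right)
  replace ha := van_supp (subset_union_left (t := N)) ha
  replace hb := van_supp (subset_union_left (t := N)) hb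
  have hNK : N ⊆ K0 ∪ N := subset_union_right
  have hNL : N ⊆ L0 ∪ N := subset_union_right
  generalize K0 ∪ N = K at *
  generalize L0 ∪ N = L at *
  obtain ⟨z, hz, hf⟩ := hF k X d O (K ∪ L) {U ∩ Lᶜ, U ∩ V, V ∩ Kᶜ} (hK.union hL)
    (by
      rintro W (rfl | rfl | rfl)
      exacts [hU.inter hL.isClosed.isOpen_compl, hU.inter hV, hV.inter hK.isClosed.isOpen_compl])
    (by
      intro x hx
      simp only [sUnion_insert, sUnion_singleton, mem_union, mem_inter_iff, mem_compl_iff]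
      have h1 := @hKU x
      have h2 := @hLV x
      rw [mem_union] at hx
      tauto)
  rw [Sm_insert, Sb.ch_sup, Sm_pair, Sb.ch_sup] at hz
  obtain ⟨z1, h1, _, hz', rfl⟩ := Submodule.mem_sup.1 hz
  obtain ⟨z2, h2, z3, h3, rfl⟩ := Submodule.mem_sup.1 hz'
  have h1U := ch_mono inter_subset_left h1
  have h1L := ch_mono inter_subset_right h1
  have h3V := ch_mono inter_subset_left h3
  have h3K := ch_mono inter_subset_right h3
  have h12 := Submodule.add_mem _ h1U (ch_mono inter_subset_left h2)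
  have h23 := Submodule.add_mem _ (ch_mono inter_subset_right h2) h3V
  have fK : O.Fund K (z1 + z2) :=
    (hf.mono hK (hK.union hL) subset_union_left).of_sub (by simpa [add_assoc] using h3K)
  have fN : O.Fund N z2 := (hf.mono hN (hK.union hL) (hNK.trans subset_union_left)).of_sub (by
    have := Submodule.add_mem _ (ch_mono (compl_subset_compl.2 hNL) h1L)
      (ch_mono (compl_subset_compl.2 hNK) h3K)
    rwa [show z1 + (z2 + z3) - z2 = z1 + z3 by abel])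
  refine ⟨_, hD.mem U a _ h12, _, hD.mem V b _ h23, ⟨K ∪ L, _, hK.union hL, union_subset_union hKU hLV,
    Submodule.add_mem _ (van_supp subset_union_left ha) (van_supp subset_union_right hb),
    Submodule.add_mem _ (ch_mono subset_union_left h1U) (ch_mono subset_union_right h23), hf, ?_⟩,
    N, z2, hN, hNU, hθ, h2, fN, ?_⟩
  · have e1 := hD.zero (j := j + 1) _ a z3 ha h3K
    have e2 := hD.zero (j := j + 1) _ b z1 hb h1L
    rw [hD.add]
    simp [map_add, e1, e2]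
  · rw [e, hD.zero _ a _ ha fK.rc, map_add,
      hD.zero _ (cob k a) z1 hθ (ch_mono (compl_subset_compl.2 hNL) h1L)]
    simp [smul_smul]

omit [T2Space X] in
theorem cpt_dir {𝒰 : Set (Set X)} (hne : 𝒰.Nonempty) (ho : ∀ U ∈ 𝒰, IsOpen U)
    (hd : DirectedOn (· ⊆ ·) 𝒰) (hK : IsCompact K) (h : K ⊆ ⋃₀ 𝒰) : ∃ U ∈ 𝒰, K ⊆ U := by
  have := hne.to_subtype
  obtain ⟨U, hU⟩ := hK.elim_directed_cover (fun U : 𝒰 => U.1) (fun U => ho U U.2)
    (by rwa [← sUnion_eq_iUnion]) hd.directed_val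
  exact ⟨U, U.2, hU⟩

omit [T2Space X] in
theorem Du.dir {𝒰 : Set (Set X)} (hne : 𝒰.Nonempty) (ho : ∀ U ∈ 𝒰, IsOpen U)
    (hd : DirectedOn (· ⊆ ·) 𝒰) (h : O.Du D (⋃₀ 𝒰) φ c) : ∃ U ∈ 𝒰, O.Du D U φ c := by
  obtain ⟨K, z, h1, h2, h3, h4, h5, b, h6, h7⟩ := h
  obtain ⟨U, hU, e⟩ := cpt_dir hne ho hd (h1.union ((isCompact_car z).union (isCompact_car b)))
    (union_subset h2 (union_subset (mem_ch_iff_car.1 h4) (mem_ch_iff_car.1 h6)))
  rw [union_subset_iff, union_subset_iff] at e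
  exact ⟨U, hU, K, z, h1, e.1, h3, mem_ch_iff_car.2 e.2.1, h5, b, mem_ch_iff_car.2 e.2.2, h7⟩

end Ori

end Crest.Agent.N255.Tp

end
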