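import Crest.Agent.N255.Tp.Cell

/-!
# Row 255, block D (helper88): local cohomology along a ball, abstract part
-/

set_option autoImplicit false
open Set Filter Topology

noncomputable section

namespace Crest.Agent.N255.Tp

open R251.Pr

variable {X Y : Type} [TopologicalSpace X] [TopologicalSpace Y] {n : ℕ}
variable {k : Type} [CommRing k] {A : Type} [AddCommGroup A] [Module k A]

/-- coboundaries of cochains supported in `K` -/
def Exa (k : Type) [CommRing k] (A : Type) [AddCommGroup A] [Module k A] (K : Set X) :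
    ∀ n, Submodule k (Co A n X)
  | 0 => ⊥
  | n + 1 => ((On Kᶜ).van k A n).map (cob k)

/-- the cohomology with supports in `K` is generated by the family `g` -/
def GenBy (k : Type) [CommRing k] {A : Type} [AddCommGroup A] [Module k A] (K : Set X)
    (g : ∀ n, Co A n X) : Prop :=
  ∀ n (φ : Co A n X), cob k φ = 0 → φ ∈ (On Kᶜ).van k A n → ∃ t : k, φ - t • g n ∈ Exa k A K n

/-- no cohomology with supports in `K` -/
def AcS (k : Type) [CommRing k] (A : Type) [AddCommGroup A] [Module k A] (K : Set X) : Prop :=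
  ∀ n (φ : Co A n X), cob k φ = 0 → φ ∈ (On Kᶜ).van k A n → φ ∈ Exa k A K n

/-- a set which can be pushed off itself is acyclic -/
theorem acS_of_push (H : C(X × unitInterval, X)) {K : Set X} (h0 : ∀ x, H (x, 0) = x)
    (h : ∀ x ∈ Kᶜ, ∀ t, H (x, t) ∈ Kᶜ) (h1 : ∀ x, H (x, 1) ∈ Kᶜ) : AcS k A K := by
  have e0 : end0 H = ContinuousMap.id X := ContinuousMap.ext h0
  have e1 : ∀ {n} {φ : Co A n X}, φ ∈ (On Kᶜ).van k A n → pull k (end1 H) φ = 0 := fun hφ =>
    eq_zero_of_van_univ (pull_mem (fun x _ => h1 x) hφ)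
  intro n φ hc hφ
  cases n with
  | zero =>
    have e := pc_cob_zero k H φ
    rw [hc, map_zero, e1 hφ, e0, zero_sub] at e
    exact neg_eq_zero.1 e.symm
  | succ n =>
    have e := cob_pc k H φ
    rw [hc, map_zero, add_zero, e1 hφ, e0, zero_sub] at e
    refine ⟨-pc k H φ, Submodule.neg_mem _ (pc_van k H h hφ), ?_⟩
    rw [map_neg, e, neg_neg]
    rfl

/-- a cochain which vanishes on `U` and on `V` and is closed on `U ∪ V` -/
theorem van_union (hS : SmVanS) {U V : Set X} (hU : IsOpen U) (hV : IsOpen V) :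
    ∀ {n} {a : Co A n X}, a ∈ (On U).van k A n → a ∈ (On V).van k A n →
      cob k a ∈ (On (U ∪ V)).van k A (n + 1) →
      ∃ b ∈ (On (U ∪ V)).van k A n, cob k b = cob k a
  | 0, a, h1, h2, _ => ⟨a, fun σ hσ => by
      have hs : ∀ t, σ t = σ (stdSimplex.vertex 0) := fun t => congrArg σ (Subsingleton.elim _ _)
      rcases hσ ⟨stdSimplex.vertex 0, rfl⟩ with h | h
      · exact h1 σ (by rintro _ ⟨t, rfl⟩; rwa [hs])
      · exact h2 σ (by rintro _ ⟨t, rfl⟩; rwa [hs]), rfl⟩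
  | n + 1, a, h1, h2, hc => by
    obtain ⟨ψ, hψ, -⟩ := hS k A X (U ∪ V) {U, V} (by rintro _ (rfl | rfl) <;> assumption)
      (by simp) n a hc (by
        rintro σ ⟨-, _, rfl | rfl, h⟩
        exacts [h1 σ h, h2 σ h])
    refine ⟨a - cob k ψ, ?_, by simp⟩
    rw [← neg_sub]
    exact Submodule.neg_mem _ hψ

/-- a cocycle which vanishes on `U` and on `V` -/
theorem van_prim (hS : SmVanS) {U V : Set X} (hU : IsOpen U) (hV : IsOpen V) {a : Co A (n + 1) X}
    (hc : cob k a = 0) (h1 : a ∈ (On U).van k A (n + 1)) (h2 : a ∈ (On V).van k A (n + 1)) :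
    ∃ ψ ∈ (On U).van k A n ⊓ (On V).van k A n, cob k ψ - a ∈ (On (U ∪ V)).van k A (n + 1) := by
  obtain ⟨ψ, hψ, hT⟩ := hS k A X (U ∪ V) {U, V} (by rintro _ (rfl | rfl) <;> assumption)
    (by simp) n a (by rw [Sb.mem_Z, hc]; exact Submodule.zero_mem _) (by
      rintro σ ⟨-, _, rfl | rfl, h⟩
      exacts [h1 σ h, h2 σ h])
  exact ⟨ψ, ⟨hT U (van_mono inter_subset_left h1), hT V (van_mono inter_subset_left h2)⟩, hψ⟩

theorem van_split {K L : Set X} {b : Co A n X} (h : b ∈ (On (K ∪ L)ᶜ).van k A n) :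
    ∃ p ∈ (On Kᶜ).van k A n, ∃ m ∈ (On Lᶜ).van k A n, b = p - m := by
  rw [compl_union, van_inter] at h
  obtain ⟨p, hp, m, hm, rfl⟩ := Submodule.mem_sup.1 h
  exact ⟨p, hp, -m, Submodule.neg_mem _ hm, by abel⟩

/-- the connecting map -/
theorem exists_conn (hS : SmVanS) {K L : Set X} (hK : IsClosed K) (hL : IsClosed L) (g : Co A n X)
    (hc : cob k g = 0) (hg : g ∈ (On (K ∪ L)ᶜ).van k A n) :
    ∃ p ∈ (On Kᶜ).van k A n, p - g ∈ (On Lᶜ).van k A n ∧
      cob k p ∈ (On (K ∩ L)ᶜ).van k A (n + 1) ∧ (g = 0 → p = 0) := by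
  by_cases h0 : g = 0
  · exact ⟨0, Submodule.zero_mem _, by simp [h0], by simp, fun _ => rfl⟩
  obtain ⟨p, hp, m, hm, rfl⟩ := van_split hg
  rw [map_sub, sub_eq_zero] at hc
  obtain ⟨ψ, ⟨h1, h2⟩, hψ⟩ := van_prim hS hK.isOpen_compl hL.isOpen_compl (cob_cob p)
    (Sb.cob_mem hp) (hc ▸ Sb.cob_mem hm)
  refine ⟨p - ψ, Submodule.sub_mem _ hp h1, ?_, ?_, fun h => absurd h h0⟩
  · rw [show p - ψ - (p - m) = m - ψ by abel]
    exact Submodule.sub_mem _ hm h2
  · rw [compl_inter, map_sub, ← neg_sub]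
    exact Submodule.neg_mem _ hψ

theorem Exa.split {K L : Set X} : ∀ {n} {e : Co A n X}, e ∈ Exa k A (K ∪ L) n →
    ∃ p ∈ (On Kᶜ).van k A n, p - e ∈ (On Lᶜ).van k A n ∧ cob k p = 0
  | 0, e, h => ⟨0, Submodule.zero_mem _, by
      rw [(Submodule.mem_bot k).1 h, sub_zero]; exact Submodule.zero_mem _, map_zero _⟩
  | n + 1, _, ⟨b, hb, rfl⟩ => by
    obtain ⟨p, hp, m, hm, rfl⟩ := van_split hb
    refine ⟨cob k p, Sb.cob_mem hp, ?_, cob_cob p⟩
    rw [map_sub, sub_sub_cancel]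
    exact Sb.cob_mem hm

/-- Mayer-Vietoris: the generators move up by one degree -/
theorem GenBy.inter (hS : SmVanS) {K L : Set X} (hK : IsClosed K) (hL : IsClosed L)
    (aK : AcS k A K) (aL : AcS k A L) {g p : ∀ n, Co A n X} (hg : GenBy k (K ∪ L) g)
    (hp : ∀ n, p n ∈ (On Kᶜ).van k A n) (hm : ∀ n, p n - g n ∈ (On Lᶜ).van k A n)
    (hc : ∀ n, cob k (p n) ∈ (On (K ∩ L)ᶜ).van k A (n + 1)) :
    GenBy k (K ∩ L) fun n => Nat.casesOn n 0 fun n => cob k (p n) := by
  intro n φ hφ hv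
  cases n with
  | zero =>
    refine ⟨0, ?_⟩
    rw [zero_smul, sub_zero]
    exact aK 0 φ hφ (van_supp inter_subset_left hv)
  | succ n =>
    obtain ⟨a, ha, rfl⟩ := aK _ φ hφ (van_supp inter_subset_left hv)
    obtain ⟨a', ha', e⟩ := aL _ _ hφ (van_supp inter_subset_right hv)
    obtain ⟨t, ht⟩ := hg n (a - a') (by rw [map_sub, e, sub_self]) (Submodule.sub_mem _
      (van_supp subset_union_left ha) (van_supp subset_union_right ha'))
    obtain ⟨q, hq, hq', hq0⟩ := Exa.split ht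
    have e1 : cob k (a - t • p n - q) = cob k a - t • cob k (p n) := by
      rw [map_sub, map_sub, map_smul, hq0, sub_zero]
    obtain ⟨b, hb, hb'⟩ := van_union hS hK.isOpen_compl hL.isOpen_compl (a := a - t • p n - q)
      (Submodule.sub_mem _ (Submodule.sub_mem _ ha (Submodule.smul_mem _ _ (hp n))) hq)
      (by
        rw [show a - t • p n - q = a' - t • (p n - g n) - (q - (a - a' - t • g n)) by
          rw [smul_sub]; abel]
        exact Submodule.sub_mem _ (Submodule.sub_mem _ ha' (Submodule.smul_mem _ _ (hm n))) hq')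
      (by
        rw [e1, ← compl_inter]
        exact Submodule.sub_mem _ hv (Submodule.smul_mem _ _ (hc n)))
    exact ⟨t, b, by rwa [compl_inter], hb'.trans e1⟩

/-- a contractible space -/
theorem genBy_univ (H : C(X × unitInterval, X)) (x₀ : X) (h1 : ∀ x, H (x, 1) = x)
    (h0 : ∀ x, H (x, 0) = x₀) :
    GenBy k (univ : Set X) fun n => Nat.casesOn n (fun _ => (1 : k)) fun _ => 0 := by
  have e1 : end1 H = ContinuousMap.id X := ContinuousMap.ext h1
  have e0 : end0 H = ContinuousMap.const X x₀ := ContinuousMap.ext h0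
  have hv : ∀ {n} (ψ : Co k n X), ψ ∈ (On (univ : Set X)ᶜ).van k k n := fun ψ σ hσ =>
    absurd (hσ ⟨stdSimplex.vertex 0, rfl⟩) (by simp)
  intro n φ hc _
  cases n with
  | zero =>
    have e := pc_cob_zero k H φ
    rw [hc, map_zero, e1, e0] at e
    refine ⟨φ (cst 0 x₀), (Submodule.mem_bot k).2 (e.symm ▸ ?_)⟩
    funext σ
    change φ σ - φ (cst 0 x₀) * 1 = φ σ - φ (cst 0 x₀)
    rw [mul_one]
  | succ n =>
    have e := cob_pc k H φ
    rw [hc, map_zero, add_zero, e1, e0] at e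
    refine ⟨0, pc k H φ + fun _ => φ (cst (n + 1) x₀), hv _, ?_⟩
    have h2 := congrFun hc (cst (n + 2) x₀)
    rw [cob_apply] at h2
    simp only [fc_cst] at h2
    rw [← Finset.sum_smul, alt_sum] at h2
    rw [map_add, e, cob_const, zero_smul, sub_zero]
    funext σ
    change φ σ - φ (cst (n + 1) x₀) + _ • φ (cst (n + 1) x₀) = φ σ
    by_cases hn : Even n
    · rw [if_neg (by simp [Nat.even_add, hn]), one_smul] at h2
      rw [h2]
      simp
    · rw [if_neg hn, one_smul, sub_add_cancel]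

/-! ### excision along an open embedding -/

open Classical in
/-- extension by zero -/
def exz (j : C(X, Y)) (ψ : Co A n X) : Co A n Y :=
  fun σ => if h : ∃ τ : Sx n X, j.comp τ = σ then ψ h.choose else 0

theorem pull_exz {j : C(X, Y)} (hj : Function.Injective j) (ψ : Co A n X) :
    pull k j (exz j ψ) = ψ := by
  funext τ
  have h : ∃ τ' : Sx n X, j.comp τ' = j.comp τ := ⟨τ, rfl⟩
  rw [pull_apply, exz, dif_pos h, comp_injective hj h.choose_spec]

theorem exz_van {j : C(X, Y)} {K : Set X} {ψ : Co A n X} (h : ψ ∈ (On Kᶜ).van k A n) :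
    exz j ψ ∈ (On (j '' K)ᶜ).van k A n := by
  intro σ hσ
  unfold exz
  split_ifs with h'
  · refine h _ ?_
    rintro _ ⟨t, rfl⟩ hK
    exact hσ ⟨t, ContinuousMap.congr_fun h'.choose_spec.symm t⟩ ⟨_, hK, rfl⟩
  · rfl

theorem van_range {j : C(X, Y)} (hj : IsEmbedding j) {φ : Co A n Y} (h : pull k j φ = 0) :
    φ ∈ (On (range j)).van k A n := by
  intro σ hσ
  rw [← image_univ] at hσ
  obtain ⟨τ, -, rfl⟩ := exists_lift hj hσ
  exact congrFun h τ

theorem pull_van {j : C(X, Y)} (hj : Function.Injective j) {K : Set X} {φ : Co A n Y}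
    (h : φ ∈ (On (j '' K)ᶜ).van k A n) : pull k j φ ∈ (On Kᶜ).van k A n :=
  pull_mem (U := Kᶜ) (V := (j '' K)ᶜ) (fun _ hx hx' => hx ((hj.mem_set_image).1 hx')) h

theorem range_union_compl (j : C(X, Y)) (K : Set X) : range j ∪ (j '' K)ᶜ = univ := by
  refine eq_univ_of_forall fun y => ?_
  by_cases h : y ∈ j '' K
  · exact Or.inl (image_subset_range _ _ h)
  · exact Or.inr h

/-- a cocycle with support in `K` extends to a cocycle with support in `j '' K` -/
theorem exists_extend (hS : SmVanS) {j : C(X, Y)} (hj : IsOpenEmbedding j) {K : Set X}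
    (hK : IsClosed (j '' K)) {g : Co A n X} (hc : cob k g = 0) (hg : g ∈ (On Kᶜ).van k A n) :
    ∃ g' ∈ (On (j '' K)ᶜ).van k A n, cob k g' = 0 ∧ pull k j g' = g := by
  obtain ⟨ψ, ⟨h1, h2⟩, hψ⟩ := van_prim hS hj.isOpen_range hK.isOpen_compl (cob_cob (exz j g))
    (van_range hj.isEmbedding (by rw [← cob_pull, pull_exz hj.injective, hc]))
    (Sb.cob_mem (exz_van hg))
  rw [range_union_compl] at hψ
  refine ⟨exz j g - ψ, Submodule.sub_mem _ (exz_van hg) h2, ?_, ?_⟩
  · rw [map_sub, ← neg_sub, eq_zero_of_van_univ hψ, neg_zero]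
  · rw [map_sub, pull_exz hj.injective,
      eq_zero_of_van_univ (pull_mem (mapsTo_univ_iff_range_subset.2 subset_rfl) h1), sub_zero]

/-- a cocycle supported in `j '' K` whose restriction is exact is exact -/
theorem exa_of_pull (hS : SmVanS) {j : C(X, Y)} (hj : IsOpenEmbedding j) {K : Set X}
    (hK : IsClosed (j '' K)) {φ : Co A (n + 1) Y} (hc : cob k φ = 0)
    (hφ : φ ∈ (On (j '' K)ᶜ).van k A (n + 1)) (h : pull k j φ ∈ Exa k A K (n + 1)) :
    φ ∈ Exa k A (j '' K) (n + 1) := by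
  obtain ⟨b, hb, e⟩ := h
  obtain ⟨ψ, ⟨-, h2⟩, hψ⟩ := van_prim hS hj.isOpen_range hK.isOpen_compl
    (a := φ - cob k (exz j b)) (by simp [hc])
    (van_range hj.isEmbedding (by rw [map_sub, ← cob_pull, pull_exz hj.injective, e, sub_self]))
    (Submodule.sub_mem _ hφ (Sb.cob_mem (exz_van hb)))
  rw [range_union_compl] at hψ
  refine ⟨exz j b + ψ, Submodule.add_mem _ (exz_van hb) h2, ?_⟩
  rw [map_add, sub_eq_zero.1 (eq_zero_of_van_univ hψ), add_sub_cancel]

end Crest.Agent.N255.Tp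

end
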