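import Crest.Agent.N255.Tp.Loc

/-!
# Row 255, block D (helper88): local cohomology along a ball (`LocS`)

`KK c j R = B^j × ℝ^(n-j)`; it is the union of two sets which can be pushed off themselves and which
intersect in `KK c (j + 1) R`.
-/

set_option autoImplicit false
open Set Filter Topology

noncomputable section

namespace Crest.Agent.N255.Tp

variable {N : ℕ}

/-- square of the distance in the first `j` coordinates -/
def qq (c : EE N) (j : ℕ) (x : EE N) : ℝ := ∑ l : Fin N, if (l : ℕ) < j then (x l - c l) ^ 2 else 0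

/-- cylinders -/
def KK (c : EE N) (j : ℕ) (R : ℝ) : Set (EE N) := {x | qq c j x ≤ R ^ 2}

/-- half cylinders -/
def KH (c : EE N) (l : Fin N) (s R : ℝ) : Set (EE N) :=
  {x | qq c l x + min (s * (x l - c l)) 0 ^ 2 ≤ R ^ 2}

theorem continuous_qq (c : EE N) (j : ℕ) : Continuous (qq c j) := by
  refine continuous_finsetSum _ fun l _ => ?_
  split_ifs <;> fun_prop

theorem qq_nonneg (c : EE N) (j : ℕ) (x : EE N) : 0 ≤ qq c j x :=
  Finset.sum_nonneg fun l _ => by split_ifs <;> positivity

theorem qq_succ (c : EE N) (l : Fin N) (x : EE N) :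
    qq c (l + 1) x = qq c l x + (x l - c l) ^ 2 := by
  have h : (x l - c l) ^ 2 = ∑ m : Fin N, if m = l then (x m - c m) ^ 2 else 0 := by simp
  rw [h, qq, qq, ← Finset.sum_add_distrib]
  refine Finset.sum_congr rfl fun m _ => ?_
  by_cases h1 : m = l
  · simp [h1]
  · have h2 : (m : ℕ) ≠ l := fun e => h1 (Fin.ext e)
    by_cases h3 : (m : ℕ) < l
    · rw [if_pos h3, if_pos (by omega), if_neg h1, add_zero]
    · rw [if_neg h3, if_neg (by omega), if_neg h1, add_zero]

theorem qq_single (c : EE N) (l : Fin N) (x : EE N) (a : ℝ) :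
    qq c l (x + EuclideanSpace.single l a) = qq c l x := by
  refine Finset.sum_congr rfl fun m _ => ?_
  split_ifs with h
  · have : m ≠ l := by rintro rfl; exact lt_irrefl _ h
    simp [this]
  · rfl

theorem isClosed_KH (c : EE N) (l : Fin N) (s R : ℝ) : IsClosed (KH c l s R) :=
  isClosed_le ((continuous_qq c l).add (by fun_prop)) continuous_const

theorem KH_union (c : EE N) (l : Fin N) (R : ℝ) : KH c l 1 R ∪ KH c l (-1) R = KK c l R := by
  ext x
  simp only [KH, KK, mem_union, mem_ofPred_eq]
  constructor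
  · rintro (h | h) <;> exact le_trans (le_add_of_nonneg_right (sq_nonneg _)) h
  · intro h
    rcases le_total 0 (x l - c l) with h1 | h1
    · left; rw [min_eq_right (by linarith)]; simpa using h
    · right; rw [min_eq_right (by linarith)]; simpa using h

theorem KH_inter (c : EE N) (l : Fin N) (R : ℝ) : KH c l 1 R ∩ KH c l (-1) R = KK c (l + 1) R := by
  ext x
  simp only [KH, KK, mem_inter_iff, mem_ofPred_eq, qq_succ]
  rcases le_total 0 (x l - c l) with h1 | h1
  · rw [min_eq_right (by linarith), min_eq_left (by linarith)]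
    constructor
    · rintro ⟨-, h⟩; nlinarith
    · intro h; constructor <;> nlinarith [sq_nonneg (x l - c l)]
  · rw [min_eq_left (by linarith), min_eq_right (by linarith)]
    constructor
    · rintro ⟨h, -⟩; nlinarith
    · intro h; constructor <;> nlinarith [sq_nonneg (x l - c l)]

theorem KH_mono (c : EE N) (l : Fin N) (s R : ℝ) : KH c l s 0 ⊆ KH c l s R := fun _ h =>
  le_trans (b := (0 : ℝ) ^ 2) h (by simpa using sq_nonneg R)

theorem KK_mono (c : EE N) (j : ℕ) (R : ℝ) : KK c j 0 ⊆ KK c j R := fun _ h =>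
  le_trans (b := (0 : ℝ) ^ 2) h (by simpa using sq_nonneg R)

theorem KK_zero (c : EE N) (R : ℝ) : KK c 0 R = univ :=
  eq_univ_of_forall fun x => by simpa [KK, qq] using sq_nonneg R

theorem KK_top (c : EE N) {R : ℝ} (hR : 0 ≤ R) : KK c N R = Metric.closedBall c R := by
  ext x
  rw [Metric.mem_closedBall, EuclideanSpace.dist_eq, Real.sqrt_le_left hR]
  simp [KK, qq, Real.dist_eq]

variable {k : Type} [CommRing k] {A : Type} [AddCommGroup A] [Module k A]

theorem acS_KH (c : EE N) (l : Fin N) {s : ℝ} (hs : s * s = 1) (R : ℝ) :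
    AcS k A (KH c l s R) := by
  have key : ∀ (x : EE N) (a : ℝ), x + EuclideanSpace.single l (-(a * s)) ∈ KH c l s R ↔
      qq c l x + min (s * (x l - c l) - a) 0 ^ 2 ≤ R ^ 2 := by
    intro x a
    have : s * (x l + -(a * s) - c l) = s * (x l - c l) - a := by linear_combination (-a) * hs
    simp only [KH, mem_ofPred_eq, qq_single, PiLp.add_apply, PiLp.single_apply, if_true,
      this]
  refine acS_of_push ⟨fun p : EE N × unitInterval => p.1 + EuclideanSpace.single l
    (-((p.2 : ℝ) * (|s * (p.1 l - c l)| + |R| + 1) * s)), ?_⟩ (fun x => by simp) ?_ ?_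
  · refine continuous_fst.add ?_
    have h : Continuous fun a : ℝ => (EuclideanSpace.single l a : EE N) :=
      (continuous_id.smul (continuous_const (y := (EuclideanSpace.single l 1 : EE N)))).congr
        fun a => by ext m; by_cases hm : m = l <;> simp [hm]
    exact h.comp (by fun_prop)
  · intro x hx t h
    refine hx (le_trans ?_ ((key x _).1 h))
    have h0 : 0 ≤ (t : ℝ) * (|s * (x l - c l)| + |R| + 1) := mul_nonneg t.2.1 (by positivity)
    have h1 := min_le_min_right (0 : ℝ) (sub_le_self (s * (x l - c l)) h0)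
    have h2 := min_le_right (s * (x l - c l)) 0
    nlinarith
  · intro x h
    have h1 := (key x _).1 h
    have h2 := le_abs_self (s * (x l - c l))
    have h3 := abs_nonneg R
    have h4 := qq_nonneg c l x
    simp only [Icc.coe_one, one_mul] at h1
    rw [min_eq_left (by linarith), ← sq_abs R] at h1
    nlinarith

theorem genBy_KK (hS : SmVanS) (c : EE N) : ∀ j ≤ N, ∃ g : ∀ n, Co k n (EE N),
    (∀ n, n ≠ j → g n = 0) ∧ (∀ n, cob k (g n) = 0 ∧ g n ∈ (On (KK c j 0)ᶜ).van k k n) ∧
      ∀ R, GenBy k (KK c j R) g := by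
  intro j
  induction j with
  | zero =>
    intro _
    refine ⟨fun n => Nat.casesOn n (fun _ => (1 : k)) fun _ => 0, ?_, ?_, fun R => ?_⟩
    · rintro (_ | n) h
      · exact absurd rfl h
      · rfl
    · rintro (_ | n)
      · refine ⟨?_, fun σ hσ => absurd (hσ ⟨stdSimplex.vertex 0, rfl⟩) (by simp [KK_zero])⟩
        exact (cob_const (1 : k)).trans (by funext σ; simp)
      · exact ⟨map_zero _, Submodule.zero_mem _⟩
    · rw [KK_zero]
      exact genBy_univ (linH 0) 0 (fun x => by simp [linH_apply]) fun x => by simp [linH_apply]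
  | succ j ih =>
    intro hj
    obtain ⟨g, g0, g1, g2⟩ := ih (by omega)
    let l : Fin N := ⟨j, hj⟩
    choose p hp hm hc h0 using fun n => exists_conn hS (isClosed_KH c l 1 0)
      (isClosed_KH c l (-1) 0) (g n) (g1 n).1 (by rw [KH_union]; exact (g1 n).2)
    refine ⟨fun n => Nat.casesOn n 0 fun n => cob k (p n), ?_, ?_, fun R => ?_⟩
    · rintro (_ | n) h
      · rfl
      · change cob k (p n) = 0
        rw [h0 n (g0 n (by omega)), map_zero]
    · rintro (_ | n)
      · exact ⟨map_zero _, Submodule.zero_mem _⟩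
      · refine ⟨cob_cob _, ?_⟩
        have := hc n
        rwa [KH_inter] at this
    · have := GenBy.inter hS (isClosed_KH c l 1 R) (isClosed_KH c l (-1) R)
        (acS_KH c l (by norm_num) R) (acS_KH c l (by norm_num) R) (g := g) (p := p)
        (by rw [KH_union]; exact g2 R) (fun n => van_supp (KH_mono c l 1 R) (hp n))
        (fun n => van_supp (KH_mono c l (-1) R) (hm n))
        fun n => van_supp (inter_subset_inter (KH_mono c l 1 R) (KH_mono c l (-1) R)) (hc n)
      rwa [KH_inter] at this

theorem locS_of (hS : SmVanS) : LocS := by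
  intro k _ X _ _ d j hj c
  obtain ⟨g, g0, g1, g2⟩ := genBy_KK (k := k) hS c (d + 1) le_rfl
  have hcl : ∀ R, IsClosed (j '' Metric.closedBall c R) := fun R =>
    ((isCompact_closedBall c R).image j.continuous).isClosed
  have hg : ∀ R, 0 ≤ R → GenBy k (Metric.closedBall c R) g := fun R hR => KK_top c hR ▸ g2 R
  refine ⟨fun i hi R hR φ hc hφ => ?_, ?_⟩
  · obtain ⟨t, ht⟩ := hg R hR _ (pull k j φ) (by rw [cob_pull, hc, map_zero])
      (pull_van hj.injective hφ)
    rw [g0 _ (by omega), smul_zero, sub_zero] at ht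
    exact exa_of_pull hS hj (hcl R) hc hφ ht
  · obtain ⟨φ₀, h1, h2, h3⟩ := exists_extend hS hj (hcl 0) (g1 (d + 1)).1
      (KK_top c le_rfl ▸ (g1 (d + 1)).2)
    refine ⟨φ₀, by simpa using h1, h2, fun R hR φ hc hφ => ?_⟩
    obtain ⟨t, ht⟩ := hg R hR _ (pull k j φ) (by rw [cob_pull, hc, map_zero])
      (pull_van hj.injective hφ)
    obtain ⟨ψ, hψ, e⟩ := exa_of_pull hS hj (hcl R) (φ := φ - t • φ₀) (by simp [hc, h2])
      (Submodule.sub_mem _ hφ (Submodule.smul_mem _ _
        (van_supp (image_mono (Metric.closedBall_subset_closedBall hR)) h1)))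
      (by rwa [map_sub, map_smul, h3])
    exact ⟨t, ψ, hψ, by rw [e, add_sub_cancel]⟩

end Crest.Agent.N255.Tp

end
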