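import Crest.Agent.N255.Tp.Du
import Crest.Agent.N255.Tp.Sm
import Crest.Agent.N255.Tp.Det
import Crest.Agent.N255.Tp.Cap

/-!
# Row 255, block D (helper83): Poincaré–Lefschetz duality for pairs `V ⊆ U` of open sets

`H^i (Cc U / Cc V) = H_{n-i} (U, V)`; the left side is the Čech cohomology with compact supports of the
closed subset `U \ V` of `U`.
-/

set_option autoImplicit false
open Set Filter Topology

noncomputable section

namespace Crest.Agent.N255.Tp

variable {X : Type} [TopologicalSpace X] {n : ℕ} {U V K L K' L' : Set X}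

section ring

variable {k : Type} [CommRing k] {d : ℕ}

/-- null chains of the pair -/
def RN (k : Type) [CommRing k] (U V : Set X) (n : ℕ) : Submodule k (Ch k n X) :=
  (On U).B k n ⊔ (On V).ch k n

/-- relative cycles -/
def rcy (k : Type) [CommRing k] (V : Set X) : ∀ n, Submodule k (Ch k n X)
  | 0 => ⊤
  | n + 1 => ((On V).ch k n).comap (bd k)

/-- cochains with compact support in `U` whose coboundary has compact support in `V` -/
def RZ (k : Type) [CommRing k] (U V : Set X) (A : Type) [AddCommGroup A] [Module k A] (n : ℕ) :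
    Submodule k (Co A n X) := Cc k U A n ⊓ (Cc k V A (n + 1)).comap (cob k)

/-- admissible data for the relative cap product -/
structure Ori.RAd (O : Ori k d X) (U V : Set X) {A : Type} [AddCommGroup A] [Module k A] {i : ℕ}
    (φ : Co A i X) (K L : Set X) (z : Ch k (d + 1) X) : Prop where
  hK : IsCompact K
  hL : IsCompact L
  KU : K ⊆ U
  LV : L ⊆ V
  LK : L ⊆ K
  hφ : φ ∈ (On Kᶜ).van k A i
  hθ : cob k φ ∈ (On Lᶜ).van k A (i + 1)
  hz : z ∈ (On (U ∩ Lᶜ)).ch k (d + 1) ⊔ (On V).ch k (d + 1)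
  hf : O.Fund K z

/-- relative duality relation -/
def Ori.RDu (O : Ori k d X) (D : ∀ {n : ℕ} (j : ℕ) {i : ℕ}, Co k i X → Ch k n X →ₗ[k] Ch k j X)
    (U V : Set X) {i j : ℕ} (φ : Co k i X) (c : Ch k j X) : Prop :=
  ∃ K L z, O.RAd U V φ K L z ∧ D j φ z - c ∈ RN k U V j

theorem B_le_RN : (On U).B k n ≤ RN k U V n := le_sup_left

theorem ch_le_RN : (On V).ch k n ≤ RN k U V n := le_sup_right

variable {D : ∀ {n : ℕ} (j : ℕ) {i : ℕ}, Co k i X → Ch k n X →ₗ[k] Ch k j X}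

namespace Ori

variable {O : Ori k d X} {i j : ℕ} {z z' : Ch k (d + 1) X}

section coef

variable {A : Type} [AddCommGroup A] [Module k A] {φ ψ : Co A i X}

theorem RAd.mem_RZ (h : O.RAd U V φ K L z) : φ ∈ RZ k U V A i :=
  ⟨⟨K, h.hK, h.KU, h.hφ⟩, L, h.hL, h.LV, h.hθ⟩

theorem RAd.on (h : O.RAd U V φ K L z) (hVU : V ⊆ U) : z ∈ (On U).ch k (d + 1) := by
  obtain ⟨a, ha, b, hb, rfl⟩ := Submodule.mem_sup.1 h.hz
  exact Submodule.add_mem _ (ch_mono inter_subset_left ha) (ch_mono hVU hb)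

theorem RAd.shrink (h : O.RAd U V φ K L z) (h' : O.RAd U V ψ K' L' z') (hK : K ⊆ K') (hL : L ⊆ L') :
    O.RAd U V φ K L z' :=
  { h with
    hz := by
      obtain ⟨a, ha, b, hb, rfl⟩ := Submodule.mem_sup.1 h'.hz
      exact Submodule.add_mem_sup
        (ch_mono (inter_subset_inter_right _ (compl_subset_compl.2 hL)) ha) hb
    hf := h'.hf.mono h.hK h'.hK hK }

theorem exists_z [T2Space X] (O : Ori k d X) (hU : IsOpen U) (hV : IsOpen V) (hK : IsCompact K)
    (hL : IsCompact L) (KU : K ⊆ U) (LV : L ⊆ V) :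
    ∃ z ∈ (On (U ∩ Lᶜ)).ch k (d + 1) ⊔ (On V).ch k (d + 1), O.Fund K z := by
  obtain ⟨z, hz, hf⟩ := fundS_holds k X d O K {U ∩ Lᶜ, V} hK
    (open_pair (hU.inter hL.isClosed.isOpen_compl) hV) fun x hx => by
      by_cases h : x ∈ L
      · exact ⟨V, Or.inr rfl, LV h⟩
      · exact ⟨_, Or.inl rfl, KU hx, h⟩
  exact ⟨z, by rwa [Sm_pair, Sb.ch_sup] at hz, hf⟩

/-- admissible data exist, with arbitrarily large compact sets -/
theorem exists_rad [T2Space X] (O : Ori k d X) (hU : IsOpen U) (hV : IsOpen V) (hVU : V ⊆ U)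
    (h : φ ∈ RZ k U V A i) (hK : IsCompact K) (hL : IsCompact L) (KU : K ⊆ U) (LV : L ⊆ V) :
    ∃ K' L' z, K ⊆ K' ∧ L ⊆ L' ∧ O.RAd U V φ K' L' z := by
  obtain ⟨⟨K0, a1, a2, a3⟩, L0, b1, b2, b3⟩ := h
  have c1 := b1.union hL
  have c2 : L0 ∪ L ⊆ V := union_subset b2 LV
  have c3 := (a1.union hK).union c1
  have c4 : K0 ∪ K ∪ (L0 ∪ L) ⊆ U := union_subset (union_subset a2 KU) (c2.trans hVU)
  obtain ⟨z, hz, hf⟩ := O.exists_z hU hV c3 c1 c4 c2
  exact ⟨_, _, z, subset_union_right.trans subset_union_left, subset_union_right,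
    c3, c1, c4, c2, subset_union_right, van_supp (subset_union_left.trans subset_union_left) a3,
    van_supp subset_union_left b3, hz, hf⟩

/-- two admissible chains differ by the boundary of a small chain -/
theorem RAd.sub_eq [T2Space X] (hU : IsOpen U) (hV : IsOpen V) (h : O.RAd U V φ K L z)
    (h' : O.RAd U V φ K L z') : ∃ w ∈ (On (U ∩ Lᶜ)).ch k (d + 2), ∃ y ∈ (On V).ch k (d + 2),
      z - z' - bd k w - bd k y ∈ (On Kᶜ).ch k (d + 1) := by
  obtain ⟨w, hw⟩ := mem_Nul.1 (h.hf.sub_mem h'.hf)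
  have e : (Sm {U ∩ Lᶜ, V, Kᶜ}).ch k (d + 1) =
      (On (U ∩ Lᶜ)).ch k (d + 1) ⊔ ((On V).ch k (d + 1) ⊔ (On Kᶜ).ch k (d + 1)) := by
    rw [Sm_insert, Sb.ch_sup, Sm_pair, Sb.ch_sup]
  obtain ⟨s, hs, b, -, hb⟩ := smChS_holds k X univ {U ∩ Lᶜ, V, Kᶜ}
    (by
      rintro W (rfl | rfl | rfl)
      exacts [hU.inter h.hL.isClosed.isOpen_compl, hV, h.hK.isClosed.isOpen_compl])
    (fun x _ => by
      by_cases h1 : x ∈ K
      · by_cases h2 : x ∈ L
        · exact ⟨V, by simp, h.LV h2⟩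
        · exact ⟨U ∩ Lᶜ, by simp, h.KU h1, h2⟩
      · exact ⟨Kᶜ, by simp, h1⟩) (d + 1) w (mem_ch_univ w) (by
      rw [e, show bd k w = z - z' - (z - z' - bd k w) by abel]
      refine Submodule.sub_mem _ ?_ (Submodule.mem_sup_right (Submodule.mem_sup_right hw))
      rw [← sup_assoc]
      exact Submodule.mem_sup_left (Submodule.sub_mem _ h.hz h'.hz))
  have hs' := Sb.ch_mono Sb.inf_le_right hs
  rw [Sm_insert, Sb.ch_sup, Sm_pair, Sb.ch_sup] at hs'
  obtain ⟨w1, h1, _, hs2, rfl⟩ := Submodule.mem_sup.1 hs'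
  obtain ⟨w2, h2, w3, h3, rfl⟩ := Submodule.mem_sup.1 hs2
  have e2 := congrArg (bd k) hb
  rw [bd_bd, map_sub, map_add, map_add] at e2
  refine ⟨w1, h1, w2, h2, ?_⟩
  have := Submodule.add_mem _ hw (Sb.bd_mem h3)
  rwa [sub_eq_zero.1 e2.symm, show z - z' - (bd k w1 + (bd k w2 + bd k w3)) + bd k w3 =
    z - z' - bd k w1 - bd k w2 by abel] at this

end coef

variable {φ ψ : Co k i X} {c c' : Ch k j X}

theorem RDu.congr (h : O.RDu D U V φ c) (e : c - c' ∈ RN k U V j) : O.RDu D U V φ c' :=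
  let ⟨K, L, z, a, f⟩ := h
  ⟨K, L, z, a, by simpa using Submodule.add_mem _ f e⟩

theorem RDu.mem_RZ (h : O.RDu D U V φ c) : φ ∈ RZ k U V k i :=
  let ⟨_, _, _, a, _⟩ := h; a.mem_RZ

theorem Du.rdu (h : O.Du D U φ c) (hc : cob k φ = 0) : O.RDu D U V φ c :=
  let ⟨K, z, a, b, c, d, e, f⟩ := h
  ⟨K, ∅, z, ⟨a, isCompact_empty, b, empty_subset _, empty_subset _, c,
    hc ▸ Submodule.zero_mem _, Submodule.mem_sup_left (by simpa using d), e⟩, B_le_RN f⟩

theorem RDu.smul (hD : CapLike k X D) (h : O.RDu D U V φ c) (r : k) :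
    O.RDu D U V (r • φ) (r • c) :=
  let ⟨K, L, z, a, f⟩ := h
  ⟨K, L, z, { a with hφ := Submodule.smul_mem _ r a.hφ
                     hθ := by rw [map_smul]; exact Submodule.smul_mem _ r a.hθ }, by
    rw [hD.smul, ← smul_sub]; exact Submodule.smul_mem _ r f⟩

theorem RDu.neg (hD : CapLike k X D) (h : O.RDu D U V φ c) : O.RDu D U V (-φ) (-c) := by
  simpa using h.smul hD (-1)

variable [T2Space X]

theorem RAd.indep (hD : CapLike k X D) (hij : i + j = d + 1) (hU : IsOpen U) (hV : IsOpen V)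
    (h : O.RAd U V φ K L z) (h' : O.RAd U V φ K L z') : D j φ z - D j φ z' ∈ RN k U V j := by
  obtain ⟨w, hw, y, hy, e⟩ := h.sub_eq hU hV h'
  have e1 := hD.zero (j := j) _ φ _ h.hφ e
  rw [map_sub, map_sub, map_sub, _root_.sub_sub, sub_eq_zero] at e1
  obtain ⟨s, t, e2⟩ := hD.bd hij
  have h1 := e2 φ w
  rw [hD.zero _ _ w h.hθ (ch_mono inter_subset_right hw), smul_zero, add_zero] at h1
  have h2 : D j φ (bd k w) = ((s⁻¹ : kˣ) : k) • bd k (D (j + 1) φ w) := by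
    rw [h1, smul_smul, Units.inv_mul, one_smul]
  rw [e1, h2]
  exact Submodule.add_mem_sup
    (Submodule.smul_mem _ _ (Sb.bd_mem_B (hD.mem U φ w (ch_mono inter_subset_left hw))))
    (hD.mem V φ _ (Sb.bd_mem hy))

variable (hD : CapLike k X D) (hU : IsOpen U) (hV : IsOpen V) (hVU : V ⊆ U)
include hD hU hV hVU

theorem RDu.spec (hij : i + j = d + 1) (h : O.RDu D U V φ c) (ha : O.RAd U V φ K L z) :
    D j φ z - c ∈ RN k U V j := by
  obtain ⟨K1, L1, y, hb, e⟩ := h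
  obtain ⟨K2, L2, w, a1, a2, hc⟩ := O.exists_rad hU hV hVU ha.mem_RZ (ha.hK.union hb.hK)
    (ha.hL.union hb.hL) (union_subset ha.KU hb.KU) (union_subset ha.LV hb.LV)
  have h1 := ha.indep hD hij hU hV
    (ha.shrink hc (subset_union_left.trans a1) (subset_union_left.trans a2))
  have h2 := (hb.shrink hc (subset_union_right.trans a1) (subset_union_right.trans a2)).indep
    hD hij hU hV hb
  simpa using Submodule.add_mem _ (Submodule.add_mem _ h1 h2) e

theorem RDu.unique (hij : i + j = d + 1) (h : O.RDu D U V φ c) (h' : O.RDu D U V φ c') :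
    c - c' ∈ RN k U V j := by
  obtain ⟨K, L, y, a, e⟩ := h'
  simpa using Submodule.sub_mem _ e (h.spec hD hU hV hVU hij a)

theorem RDu.add (hij : i + j = d + 1) (h : O.RDu D U V φ c) (h' : O.RDu D U V ψ c') :
    O.RDu D U V (φ + ψ) (c + c') := by
  obtain ⟨K1, L1, z1, -, -, a⟩ := O.exists_rad hU hV hVU h.mem_RZ isCompact_empty isCompact_empty
    (empty_subset _) (empty_subset _)
  obtain ⟨K2, L2, z2, b1, b2, b⟩ := O.exists_rad hU hV hVU h'.mem_RZ a.hK a.hL a.KU a.LV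
  have a' : O.RAd U V φ K2 L2 z2 := { b with hφ := van_supp b1 a.hφ, hθ := van_supp b2 a.hθ }
  refine ⟨K2, L2, z2, { b with hφ := Submodule.add_mem _ a'.hφ b.hφ
                               hθ := by rw [map_add]; exact Submodule.add_mem _ a'.hθ b.hθ }, ?_⟩
  have := Submodule.add_mem _ (h.spec hD hU hV hVU hij a') (h'.spec hD hU hV hVU hij b)
  rwa [hD.add, add_sub_add_comm]

theorem rdu_of_Cc (h : φ ∈ Cc k V k i) : O.RDu D U V φ (0 : Ch k j X) := by
  obtain ⟨L, a, b, c⟩ := h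
  obtain ⟨z, hz, hf⟩ := O.exists_z hU hV a a (b.trans hVU) b
  refine ⟨L, L, z, ⟨a, a, b.trans hVU, b, subset_rfl, c, Sb.cob_mem c, hz, hf⟩, ?_⟩
  obtain ⟨z1, h1, z2, h2, rfl⟩ := Submodule.mem_sup.1 hz
  rw [map_add, hD.zero _ φ z1 c (ch_mono inter_subset_right h1), zero_add, sub_zero]
  exact ch_le_RN (hD.mem V φ z2 h2)

omit hU hV hVU [T2Space X] in
/-- compatibility with the connecting maps -/
theorem rad_bd (hij : i + j = d) : ∃ u : kˣ, ∀ (φ : Co k i X) K L z, O.RAd U V φ K L z →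
    O.Du D V (cob k φ) ((u : k) • bd k (D (j + 1) φ z)) := by
  obtain ⟨s, t, e⟩ := hD.bd hij
  refine ⟨t⁻¹, fun φ K L z h => ?_⟩
  obtain ⟨z1, h1, z2, h2, rfl⟩ := Submodule.mem_sup.1 h.hz
  have h1L := ch_mono inter_subset_right h1
  refine ⟨L, z2, h.hL, h.LV, h.hθ, h2, (h.hf.mono h.hL h.hK h.LK).of_sub (by simpa using h1L), ?_⟩
  rw [e, hD.zero _ φ _ h.hφ h.hf.rc, map_add, hD.zero _ (cob k φ) z1 h.hθ h1L]
  simp [smul_smul]

omit hD in
theorem rdu_exists (h : φ ∈ RZ k U V k i) : ∃ K L z, O.RAd U V φ K L z ∧ O.RDu D U V φ (D j φ z) := by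
  obtain ⟨K, L, z, -, -, a⟩ := O.exists_rad hU hV hVU h isCompact_empty isCompact_empty
    (empty_subset _) (empty_subset _)
  exact ⟨K, L, z, a, K, L, z, a, by simp⟩

end Ori

end ring

variable {k : Type} [Field k] {d : ℕ} [T2Space X] [ChartedSpace (EE (d + 1)) X] {O : Ori k d X}
  {D : ∀ {n : ℕ} (j : ℕ) {i : ℕ}, Co k i X → Ch k n X →ₗ[k] Ch k j X}
  (hP : PdS) (hO : O.ND) (hD : CapLike k X D) (hU : IsOpen U) (hV : IsOpen V) (hVU : V ⊆ U)
include hP hO hD hU hV hVU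

/-- **relative duality, surjectivity** -/
theorem rel_surj {i j : ℕ} (hij : i + j = d + 1) {c : Ch k j X} (hc : c ∈ (On U).ch k j)
    (hz : c ∈ rcy k V j) : ∃ φ : Co k i X, O.RDu D U V φ c := by
  obtain ⟨sU, iU⟩ := hP k d X O hO D hD U hU
  obtain ⟨sV, -⟩ := hP k d X O hO D hD V hV
  cases j with
  | zero =>
    obtain ⟨φ, -, a, b⟩ := sU i 0 hij c hc trivial
    exact ⟨φ, b.rdu a⟩
  | succ j =>
    have hz' : bd k c ∈ (On V).ch k j := hz
    obtain ⟨u, hu⟩ := Ori.rad_bd (O := O) (U := U) (V := V) (i := i) (j := j) hD (by omega)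
    have hBU : (u : k) • bd k c ∈ (On U).B k j := Submodule.smul_mem _ _ (Sb.bd_mem_B hc)
    obtain ⟨θ, t1, t2, t3⟩ := sV (i + 1) j (by omega) ((u : k) • bd k c)
      (Submodule.smul_mem _ _ hz') (Sb.B_le_cyc hBU)
    obtain ⟨a, a1, a2⟩ := iU i θ (Cc_mono hVU t1) t2 fun j' hj => by
      obtain rfl : j' = j := by omega
      exact (t3.mono hVU).congr (by simpa using hBU)
    obtain ⟨K, L, z, ha, hr⟩ := Ori.rdu_exists (O := O) (D := D) (j := j + 1) hU hV hVU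
      (show a ∈ RZ k U V k i from ⟨a1, show cob k a ∈ _ from a2 ▸ t1⟩)
    have f2 := hu a K L z ha
    rw [a2] at f2
    obtain ⟨w, hw, hw'⟩ := t3.unique smChS_holds fundS_holds hD (by omega) hV f2 t2
    have hb : bd k (((u⁻¹ : kˣ) : k) • w) = bd k c - bd k (D (j + 1) a z) := by
      rw [map_smul, hw', ← smul_sub, smul_smul, Units.inv_mul, one_smul]
    have hw2 := Submodule.smul_mem _ ((u⁻¹ : kˣ) : k) hw
    obtain ⟨φ, -, p2, p3⟩ := sU i (j + 1) hij (c - D (j + 1) a z - ((u⁻¹ : kˣ) : k) • w)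
      (Submodule.sub_mem _ (Submodule.sub_mem _ hc (hD.mem U a z (ha.on hVU))) (ch_mono hVU hw2))
      (by change bd k _ = 0; rw [map_sub, map_sub, hb, sub_self])
    refine ⟨a + φ, (hr.add hD hU hV hVU hij (p3.rdu p2)).congr ?_⟩
    rw [show D (j + 1) a z + (c - D (j + 1) a z - ((u⁻¹ : kˣ) : k) • w) - c =
      -(((u⁻¹ : kˣ) : k) • w) by abel]
    exact ch_le_RN (Submodule.neg_mem _ hw2)

/-- **relative duality, injectivity** -/
theorem rel_inj {i : ℕ} {φ : Co k (i + 1) X} (hφ : φ ∈ RZ k U V k (i + 1))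
    (h : ∀ j, i + 1 + j = d + 1 → O.RDu D U V φ (0 : Ch k j X)) :
    ∃ ψ ∈ Cc k U k i, φ - cob k ψ ∈ Cc k V k (i + 1) := by
  obtain ⟨-, iU⟩ := hP k d X O hO D hD U hU
  obtain ⟨sV, iV⟩ := hP k d X O hO D hD V hV
  obtain ⟨χ, c1, c2⟩ := iV (i + 1) (cob k φ) hφ.2 (cob_cob φ) fun j hj => by
    obtain ⟨u, hu⟩ := Ori.rad_bd (O := O) (U := U) (V := V) (i := i + 1) (j := j) hD (by omega)
    obtain ⟨K, L, z, ha, e⟩ := h (j + 1) (by omega)
    obtain ⟨_, ⟨a, -, rfl⟩, y, hy, e'⟩ := Submodule.mem_sup.1 e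
    refine (hu φ K L z ha).congr ?_
    rw [sub_zero] at e' ⊢
    rw [← e', map_add, bd_bd, zero_add]
    exact Submodule.smul_mem _ _ (Sb.bd_mem_B hy)
  have h1 : φ + -χ ∈ Cc k U k (i + 1) :=
    Submodule.add_mem _ hφ.1 (Submodule.neg_mem _ (Cc_mono hVU c1))
  have h2 : cob k (φ + -χ) = 0 := by rw [map_add, map_neg, c2, add_neg_cancel]
  obtain ⟨ρ, p1, p2, p3⟩ : ∃ ρ ∈ Cc k V k (i + 1), cob k ρ = 0 ∧ ∀ j, i + 1 + j = d + 1 →
      O.Du D U (φ + -χ + -ρ) (0 : Ch k j X) := by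
    by_cases hi : i ≤ d
    · have hj : i + 1 + (d - i) = d + 1 := by omega
      obtain ⟨c, -, z1, d1⟩ := Ori.du_exists (O := O) fundS_holds hD hj hU h1 h2
      have d2 := (h _ hj).add hD hU hV hVU hj
        (Ori.rdu_of_Cc (O := O) (j := d - i) hD hU hV hVU (Submodule.neg_mem _ c1))
      have d3 := (d1.rdu (V := V) h2).unique hD hU hV hVU hj d2
      rw [add_zero, sub_zero] at d3
      obtain ⟨b, hb, y, hy, rfl⟩ := Submodule.mem_sup.1 d3
      obtain ⟨ρ, p1, p2, p3⟩ := sV _ _ hj y hy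
        (by simpa using Submodule.sub_mem _ z1 (Sb.B_le_cyc hb))
      refine ⟨ρ, p1, p2, fun j hj' => ?_⟩
      obtain rfl : j = d - i := by omega
      exact (d1.add smChS_holds fundS_holds hD hj hU ((p3.mono hVU).neg hD) h2
        (by rw [map_neg, p2, neg_zero])).congr (by simpa using hb)
    · exact ⟨0, Submodule.zero_mem _, map_zero _, fun j hj => by omega⟩
  obtain ⟨ψ, a1, a2⟩ := iU i _ (Submodule.add_mem _ h1 (Submodule.neg_mem _ (Cc_mono hVU p1)))
    (by rw [map_add, map_neg, h2, p2, neg_zero, add_zero]) p3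
  refine ⟨ψ, a1, ?_⟩
  rw [a2, show φ - (φ + -χ + -ρ) = χ + ρ by abel]
  exact Submodule.add_mem _ c1 p1

/-- **detection of relative classes of `(U, V)`** (any coefficients): a cochain `b` which is closed on `U`,
zero on `V` and kills all caps is the coboundary on `U` of a cochain which is zero on `V` -/
theorem rel_det {A : Type} [AddCommGroup A] [Module k A] {i j : ℕ} (hij : i + (j + 1) = d + 1)
    {b : Co A (j + 1) X} (hb : b ∈ (On U).Z k A (j + 1)) (hbV : b ∈ (On V).van k A (j + 1))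
    (h : ∀ (φ : Co k i X) K L z, O.RAd U V φ K L z → ev k b (D (j + 1) φ z) = 0) :
    ∃ e ∈ (On V).van k A j, b - cob k e ∈ (On U).van k A (j + 1) := by
  refine (uctS_holds k X j).2 A (On U) (On V) b fun c hc hz => ?_
  obtain ⟨φ, K, L, z, ha, e⟩ := rel_surj hP hO hD hU hV hVU hij hc hz
  obtain ⟨p, hp, q, hq, e'⟩ := Submodule.mem_sup.1 e
  have := congrArg (ev k b) e'
  rw [map_add, map_sub, h φ K L z ha, Sb.ev_B hb hp, Sb.ev_eq_zero hbV hq] at this
  simpa using this.symm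

/-- the same in degree zero -/
theorem rel_det_zero {A : Type} [AddCommGroup A] [Module k A] {b : Co A 0 X}
    (hb : b ∈ (On U).Z k A 0) (hbV : b ∈ (On V).van k A 0)
    (h : ∀ (φ : Co k (d + 1) X) K L z, O.RAd U V φ K L z → ev k b (D 0 φ z) = 0) :
    b ∈ (On U).van k A 0 := fun σ hσ => by
  obtain ⟨φ, K, L, z, ha, e⟩ := rel_surj hP hO hD hU hV hVU (Nat.add_zero _) (Sb.sg_mem hσ) trivial
  obtain ⟨p, hp, q, hq, e'⟩ := Submodule.mem_sup.1 e
  have := congrArg (ev k b) e'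
  rw [map_add, map_sub, h φ K L z ha, Sb.ev_B hb hp, Sb.ev_eq_zero hbV hq, ev_sg] at this
  simpa using this.symm

/-- **detection of germ classes along `U \ V`**: `φ` pairs to zero with the relative cocycles of `(U, V)`
iff it is exact near `U \ V` -/
theorem rel_det' {i j : ℕ} (hij : i + 1 + j = d + 1) {φ : Co k (i + 1) X} {z : Ch k (d + 1) X}
    (ha : O.RAd U V φ K L z)
    (h : ∀ b ∈ (On U).Z k k j, b ∈ (On V).van k k j → ev k b (D j φ z) = 0) :
    ∃ ψ ∈ Cc k U k i, φ - cob k ψ ∈ Cc k V k (i + 1) := by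
  refine rel_inj hP hO hD hU hV hVU ha.mem_RZ fun j' hj' => ?_
  obtain rfl : j' = j := by omega
  refine ⟨K, L, z, ha, ?_⟩
  rw [sub_zero]
  by_contra hc
  obtain ⟨b, hb, hne⟩ := (uctS_holds k X j').1 _ _ hc
  exact hne (h b (Det.mem_Z fun c hc => hb c (B_le_RN hc)) fun σ hσ => by
    rw [← ev_sg (k := k) b]; exact hb _ (ch_le_RN (Sb.sg_mem hσ)))

omit hD in
/-- detection with cup products, both orders -/
theorem rel_det_cup (pr : ∀ {i j : ℕ}, Co k i X → Co k j X → Co k (d + 1) X)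
    (hpr : (∀ i j (φ : Co k i X) (b : Co k j X), pr φ b = cup (LinearMap.mul k k) (d + 1) φ b) ∨
      ∀ i j (φ : Co k i X) (b : Co k j X), pr φ b = cup (LinearMap.mul k k) (d + 1) b φ) :
    (∀ i j, i + (j + 1) = d + 1 → ∀ b ∈ (On U).Z k k (j + 1), b ∈ (On V).van k k (j + 1) →
      (∀ (φ : Co k i X) K L z, O.RAd U V φ K L z → ev k (pr φ b) z = 0) →
      ∃ e ∈ (On V).van k k j, b - cob k e ∈ (On U).van k k (j + 1)) ∧
    ∀ i j, i + 1 + j = d + 1 → ∀ (φ : Co k (i + 1) X) K L z, O.RAd U V φ K L z →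
      (∀ b ∈ (On U).Z k k j, b ∈ (On V).van k k j → ev k (pr φ b) z = 0) →
      ∃ ψ ∈ Cc k U k i, φ - cob k ψ ∈ Cc k V k (i + 1) := by
  obtain ⟨D, hD, hev⟩ : ∃ D : ∀ {n : ℕ} (j : ℕ) {i : ℕ}, Co k i X → Ch k n X →ₗ[k] Ch k j X,
      CapLike k X D ∧ ∀ i j (φ : Co k i X) (b : Co k j X) (z : Ch k (d + 1) X),
        ev k (pr φ b) z = ev k b (D j φ z) := by
    rcases hpr with h | h
    · exact ⟨fun j _ φ => cap j φ, (capS_holds k X).1, fun i j φ b z => by rw [h, Det.ev_cup]⟩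
    · exact ⟨fun j _ φ => cap' j φ, (capS_holds k X).2, fun i j φ b z => by rw [h, Det.ev_cup']⟩
  exact ⟨fun i j hij b h1 h2 h => rel_det hP hO hD hU hV hVU hij h1 h2
      fun φ K L z ha => by rw [← hev]; exact h φ K L z ha,
    fun i j hij φ K L z ha h => rel_det' hP hO hD hU hV hVU hij ha
      fun b h1 h2 => by rw [← hev]; exact h b h1 h2⟩

end Crest.Agent.N255.Tp

end
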